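import Vale.Agent.P236K.SS.Und
import Vale.Agent.P257.H163.Toda
import Vale.Agent.P257.H820.TowV
import Vale.Agent.P236K.St5.Fin

/-!
# P236K, block SS: the Toda differential, the stem `34`, the class `θ₃`

* `exists_ab`: the lifts of `α₁`, `β₁` and the Toda relation in the couple of `M = S / 3`;
* `noOne_of : J1Alg → St.NoOne`;
* `kerv_two_of : J2Alg → St5.KERV 2`.
-/

open CategoryTheory MonoidalCategory Limits Pretriangulated MonObj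

set_option linter.unusedSectionVars false

universe v u

namespace Vale.Agent.P236K.SS

open Vale.Agent.P251 Vale.Agent.P251.T Vale.Agent.P251.F Vale.Agent.P251.I
  Vale.Agent.P251.M Vale.Agent.P257.H314 Vale.Agent.P257.H712 Vale.Agent.P251.H
open Vale.Agent.P251.S hiding IC
open Vale.Agent.P251.B (sphE)
open Vale.Agent.P257.H762 (AI tSm)
open Vale.Agent.P257.H820 (bV)
open Vale.Agent.P236Z

instance factThree : Fact (Nat.Prime 3) := ⟨Nat.prime_three⟩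

lemma aCob_of_algVan {p h s : ℕ} {w : ℤ} (H : AlgVan p h s w) {z : Cob Laz s}
    (hz : Cob.IsWt w z) (hd : Cob.d s z ∈ IC p h (s + 1)) : ACob p h w z := by
  cases s with
  | zero => exact H z hz hd
  | succ s => exact H z hz hd

lemma algVan_three {s : ℕ} {w : ℤ} (hw : ¬ (2 ∣ w ∧ 2 * (s : ℤ) ≤ w)) : AlgVan 3 1 s w :=
  algVan_line le_rfl hw

lemma mem_IC_three_iff {s : ℕ} {w : ℤ} (z : Cob.wt Laz s w) :
    z.1 ∈ IC 3 1 s ↔ ∃ y : Cob.wt Laz s w, z = (3 : ℤ) • y := by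
  have hI : IC 3 1 s = Ideal.span {((3 : ℕ) : Cob Laz s)} := by
    rw [IC, Laz.I, Ih, Ideal.map_span]
    congr 1
    ext x
    constructor
    · rintro ⟨_, ⟨i, hi, rfl⟩, rfl⟩
      obtain rfl : i = 0 := by omega
      rw [vv_zero, map_natCast]
      rfl
    · rintro rfl
      exact ⟨_, ⟨0, by omega, rfl⟩, by rw [vv_zero, map_natCast]⟩
  rw [hI, Ideal.mem_span_singleton']
  constructor
  · rintro ⟨a, ha⟩
    refine ⟨⟨Cob.proj w a, Cob.isWt_proj _ a⟩, Subtype.ext ?_⟩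
    have h6 := Cob.proj_of_isWt z.2 w
    rw [if_pos rfl] at h6
    have h7 : a * ((3 : ℕ) : Cob Laz s) = (3 : ℤ) • a := by
      rw [zsmul_eq_mul, mul_comm]
      norm_num
    rw [← h6, ← ha, h7, ← Cob.projHom_apply, map_zsmul]
    rfl
  · rintro ⟨y, rfl⟩
    refine ⟨y.1, ?_⟩
    change _ = (3 : ℤ) • y.1
    rw [zsmul_eq_mul, mul_comm]
    norm_num

variable {T : Type u} [Category.{v} T] [Preadditive T] [HasZeroObject T] [HasShift T ℤ]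
  [∀ n : ℤ, (shiftFunctor T n).Additive] [Pretriangulated T] [MonoidalCategory T]
  [SymmetricCategory T] [TensorTriangulated T] [HasCoproducts.{0} T] {D : MUData T}
  {U : UnitCof D.R}

section Cyc

variable {p h₀ : ℕ} {V : T} {i : 𝟙_ T ⟶ V} (H : Cyc D p h₀ i)

include H

lemma k_eq_zero_of_alg {s : ℕ} {m : ℤ} (hA : ∀ w, m + 1 + (s : ℤ) = 2 * w → AlgVan p h₀ s w)
    (x : (CC D U V).E s (m + 1)) (hx : (CC D U V).IsCocycle x) :
    (CC D U V).k s (m + 1) m rfl x = 0 := by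
  rcases Int.even_or_odd' (m + 1 + (s : ℤ)) with ⟨w, hw | hw⟩
  · obtain ⟨z, hz, rfl⟩ := exists_cocycle H hw x hx
    exact Null.k_eq_zero rfl (null_of_aCob H hw (aCob_of_algVan (hA w hw) z.2 hz))
  · rw [E_odd H hw x, map_zero]

lemma Null.succ_of_alg {s t : ℕ} {m : ℤ} {z : (CC D U V).E t m} (h2 : s + 2 ≤ t)
    (hz : Null (CC D U V) s z) (hA : ∀ w, m + 1 + (s : ℤ) = 2 * w → AlgVan p h₀ s w) :
    Null (CC D U V) (s + 1) z :=
  Null.succ_of_dif (by omega) hz fun x hx =>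
    hx.null_of_k (k_eq_zero_of_alg H hA x (hx.isCocycle h2))

lemma Null.of_alg {r r' t : ℕ} {m : ℤ} {z : (CC D U V).E t m} (hr : r ≤ r') (h1 : r' + 1 ≤ t)
    (hz : Null (CC D U V) r z)
    (hA : ∀ (s : ℕ) (w : ℤ), r ≤ s → s < r' → m + 1 + (s : ℤ) = 2 * w → AlgVan p h₀ s w) :
    Null (CC D U V) r' z := by
  induction r', hr using Nat.le_induction with
  | base => exact hz
  | succ r' hr ih =>
    exact Null.succ_of_alg H h1 (ih (by omega) fun s w h h' => hA s w h (by omega))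
      fun w => hA r' w hr (by omega)

/-- One more step of lifting. -/
lemma Lifts.succ_of_alg {r t : ℕ} {m : ℤ} {u : (CC D U V).D r m} (h1 : r + 1 ≤ t)
    (hu : Lifts u t) (hA : ∀ w, m + (t : ℤ) = 2 * w → AlgVan p h₀ t w) : Lifts u (t + 1) := by
  obtain ⟨t, rfl⟩ : ∃ t', t = t' + 1 := ⟨t - 1, by omega⟩
  obtain ⟨h, y, rfl⟩ := hu
  obtain ⟨y', hy'⟩ := (CC D U V).step (van_of_alg H hA) y
  refine ⟨by omega, y', ?_⟩
  have h2 : r ≤ t := by omega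
  rw [Couple.proj_succ _ m h, Couple.proj_succ _ m h2, hy', Couple.proj_succ _ m h2]

lemma Lifts.of_alg {r t t' : ℕ} {m : ℤ} {u : (CC D U V).D r m} (h1 : r + 1 ≤ t) (ht : t ≤ t')
    (hu : Lifts u t)
    (hA : ∀ (s : ℕ) (w : ℤ), t ≤ s → s < t' → m + (s : ℤ) = 2 * w → AlgVan p h₀ s w) :
    Lifts u t' := by
  induction t', ht using Nat.le_induction with
  | base => exact hu
  | succ t' ht ih =>
    exact Lifts.succ_of_alg H (by omega) (ih fun s w h h' => hA s w h (by omega))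
      fun w => hA t' w ht (by omega)

end Cyc

lemma Acts.comp {V V' V'' : T} {i : 𝟙_ T ⟶ V} {i' : 𝟙_ T ⟶ V'} {i'' : 𝟙_ T ⟶ V''}
    {σ σ' σ'' : ℕ} {a a' a'' v v' v'' : ℤ} {f : CMap (CC D U V) (CC D U V') σ a}
    {g : CMap (CC D U V') (CC D U V'') σ' a'} {b : Cob.wt Laz σ v} {b' : Cob.wt Laz σ' v'}
    (hf : Acts i i' f b) (hg : Acts i' i'' g b') (e : 2 * v = a + σ) (hσ : σ + σ' = σ'')
    (ha : a + a' = a'') (hv : v + v' = v'') :
    Acts i i'' (f.comp g hσ ha) (cupW hσ hv b b') := by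
  intro s s' n n' w w' hs en hw h h' z
  have h1 : n + a + ((s + σ : ℕ) : ℤ) = 2 * (w + v) := by push_cast; omega
  rw [f.comp_fE g hσ ha hs en rfl rfl (by omega) (by omega), hf s _ n _ w _ rfl rfl rfl h h1,
    hg _ s' _ n' _ w' _ _ (by omega) h1 h']
  exact congrArg _ (Subtype.ext (cupC_assoc _ _ _ _ _ _ _))

/-! ### The tensor form -/

variable (U) in
/-- `B s 𝟙 ⊗ V ⟶ B s V`. -/
noncomputable def tV (V : T) (s : ℕ) : U.cobar.B s (𝟙_ T) ⊗ V ⟶ U.cobar.B s V :=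
  (bV U V s (𝟙_ T)).hom ≫ U.cobar.Bm s (λ_ V).hom

@[reassoc]
lemma red_tV {V : T} (i : 𝟙_ T ⟶ V) (s : ℕ) :
    Dt.red i (U.cobar.B s (𝟙_ T)) ≫ tV U V s = U.cobar.Bm s i := by
  have key : ∀ (s : ℕ) (Y : T), Dt.red i (U.cobar.B s Y) ≫ (bV U V s Y).hom =
      U.cobar.Bm s (Dt.red i Y) := by
    intro s
    induction s with
    | zero => exact fun Y => Category.comp_id _
    | succ s ih =>
      intro Y
      rw [P257.H820.bV_succ]
      refine ((reassoc_of% ih (U.J ⊗ Y)) _).trans ?_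
      rw [CobarData.Bm_succ, ← CobarData.Bm_comp]
      congr 1
      change ((ρ_ (U.J ⊗ Y)).inv ≫ (U.J ⊗ Y) ◁ i) ≫ (α_ U.J Y V).hom =
        U.J ◁ ((ρ_ Y).inv ≫ Y ◁ i)
      simp
  rw [tV, reassoc_of% key, ← CobarData.Bm_comp, Dt.red, Category.assoc, leftUnitor_naturality,
    ← unitors_inv_equal, Iso.inv_hom_id_assoc]

@[reassoc]
lemma red_associator {V : T} (i : 𝟙_ T ⟶ V) (X Y : T) :
    Dt.red i (X ⊗ Y) ≫ (α_ X Y V).hom = X ◁ Dt.red i Y := by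
  rw [Dt.red, Dt.red]
  simp

lemma ph_q (s : ℕ) (w : ℤ) (z : Cob.wt Laz s w) :
    ph D U s w z ≫ U.cobar.q s (𝟙_ T) = (sα T w).inv ≫ D.evw s w z ≫ Dt.qq D U s := by
  rw [ph_apply, D.phi_apply, Dt.qq]
  simp only [Category.assoc]

/-- From the tensor form to the couple of `V`. -/
lemma exists_D_of_tensor {V : T} (i : 𝟙_ T ⟶ V) {σ : ℕ} {n w : ℤ} (h : n + (σ : ℤ) = 2 * w)
    (t : (stdEven T).S w ⟶ U.cobar.B σ (𝟙_ T) ⊗ V) (b : Cob.wt Laz σ w)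
    (ht : t ≫ (unitMap D.R _ ▷ V) = D.evw σ w b ≫ Dt.qq D U σ ≫ Dt.red i _) :
    ∃ y : (CC D U V).D σ n, (CC D U V).j σ n y = cls D U i h b := by
  refine ⟨(eD U (𝟙_ T) h).symm ((sα T w).inv ≫ t ≫ tV U V σ), ?_⟩
  apply (eE U (𝟙_ T) h).injective
  rw [eE_j, AddEquiv.apply_symm_apply, eE_cls', reassoc_of% ph_q, Category.assoc, Category.assoc,
    unitMap_nat, ← P257.H820.unitMap_whiskerRight_assoc', Category.assoc, reassoc_of% ht,
    red_associator_assoc, ← MonoidalCategory.whiskerLeft_comp, red_tV]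

lemma kw_of_three {n m w : ℤ} (e : n = m + 1) (h : n + ((1 : ℕ) : ℤ) = 2 * w)
    (h' : m + ((1 + 1 : ℕ) : ℤ) = 2 * w) (z : Cob.wt Laz 1 w) (y : (CC D U (𝟙_ T)).D 2 m)
    (hy : (3 : ℤ) • y = (CC D U (𝟙_ T)).k 1 n m e (cls D U (𝟙 _) h z)) :
    (3 : ℤ) • ((sα T w).hom ≫ eD U (𝟙_ T) h' y) =
      D.evw 1 w z ≫ Dt.qq D U 1 ≫ U.cobar.k 1 (𝟙_ T) := by
  rw [← Preadditive.comp_zsmul, ← map_zsmul, hy, eD_k e h h', eE_cls, CobarData.Qm_id,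
    Category.id_comp, ph_q]
  simp only [Category.assoc, Iso.hom_inv_id_assoc]

section Moore

variable {c : ℤ} {M : T} {i : 𝟙_ T ⟶ M} {δ : M ⟶ (𝟙_ T)⟦(1 : ℤ)⟧}
  (hM : Dist (c • 𝟙 (𝟙_ T)) i δ)

include hM

/-- An element of the couple of the sphere which dies in the couple of `M` is divisible. -/
lemma exists_zsmul_of_mapD {s : ℕ} {n : ℤ} (y : (CC D U (𝟙_ T)).D s n) (hy : mapD i y = 0) :
    ∃ y', c • y' = y := by
  obtain ⟨x, hx⟩ := exact_B U s hM (eD U (𝟙_ T) rfl y) (by rw [← eD_mapD, hy, map_zero])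
  refine ⟨(eD U (𝟙_ T) rfl).symm x, (eD U (𝟙_ T) rfl).injective ?_⟩
  rw [map_zsmul, AddEquiv.apply_symm_apply, ← hx, Bm_zsmul, CobarData.Bm_id,
    Preadditive.comp_zsmul, Category.comp_id]

/-- A permanent cycle of `M` gives a class of order `c` of the sphere. -/
lemma exists_bd {s : ℕ} {n m w : ℤ} (e : n = m + 1) (h : n + (s : ℤ) = 2 * w)
    (z : Cob.wt Laz s w) (hz : (CC D U M).k s n m e (cls D U i h z) = 0) :
    ∃ y : (CC D U (𝟙_ T)).D (s + 1) m,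
      c • y = (CC D U (𝟙_ T)).k s n m e (cls D U (𝟙 _) h z) :=
  exists_zsmul_of_mapD hM _ (by rw [← k_mapE, mapE_cls, Category.id_comp, hz])

end Moore

/-! ### The Toda relation -/

lemma isWt_t {t : Cob Laz 1} (ht : IsT1 3 t) : Cob.IsWt 2 t := (BCocycle 3 (by norm_num) t ht).1

lemma isWt_b {t : Cob Laz 1} (ht : IsT1 3 t) : Cob.IsWt 6 (bcls 3 t) :=
  (BCocycle 3 (by norm_num) t ht).2.2.1

/-- The cocycle of `α₁`. -/
def tW {t : Cob Laz 1} (ht : IsT1 3 t) : Cob.wt Laz 1 2 := ⟨t, isWt_t ht⟩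

/-- The cocycle of `β₁`. -/
noncomputable def bW {t : Cob Laz 1} (ht : IsT1 3 t) : Cob.wt Laz 2 6 := ⟨bcls 3 t, isWt_b ht⟩

/-- The cocycle of `β₁ ^ 3`. -/
noncomputable def b3W {t : Cob Laz 1} (ht : IsT1 3 t) : Cob.wt Laz 6 18 :=
  cupW (s := 4) (σ := 2) (w := 12) rfl rfl
    (cupW (s := 2) (σ := 2) (w := 6) rfl rfl (bW ht) (bW ht)) (bW ht)

/-- The cocycle of `β₁ ^ 3 α₁`. -/
noncomputable def b3tW {t : Cob Laz 1} (ht : IsT1 3 t) : Cob.wt Laz 7 20 :=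
  cupW (s := 6) (σ := 1) (w := 18) rfl rfl (b3W ht) (tW ht)

lemma d_tW {t : Cob Laz 1} (ht : IsT1 3 t) : Cob.d 1 (tW ht).1 = 0 :=
  (BCocycle 3 (by norm_num) t ht).2.1

lemma d_bW {t : Cob Laz 1} (ht : IsT1 3 t) : Cob.d 2 (bW ht).1 = 0 :=
  (BCocycle 3 (by norm_num) t ht).2.2.2.1

lemma d_cupC_zero {s σ s' : ℕ} (e : s + σ = s') {x : Cob Laz s} {y : Cob Laz σ}
    (hx : Cob.d s x = 0) (hy : Cob.d σ y = 0) : Cob.d s' (cupC e x y) = 0 := by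
  rw [d_cupC e (by omega) (by omega), hx, hy, cupC, cupC, map_zero, map_zero, zero_mul, mul_zero,
    smul_zero, add_zero]

lemma d_b3W {t : Cob Laz 1} (ht : IsT1 3 t) : Cob.d 6 (b3W ht).1 = 0 :=
  d_cupC_zero _ (d_cupC_zero _ (d_bW ht) (d_bW ht)) (d_bW ht)

lemma d_b3tW {t : Cob Laz 1} (ht : IsT1 3 t) : Cob.d 7 (b3tW ht).1 = 0 :=
  d_cupC_zero _ (d_b3W ht) (d_tW ht)

variable [MonoidalClosed T] [IsTriangulated T] [HasProducts.{0} T] [StableCat T]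

variable (D U) in
/-- The product of a class of the sphere with a class of `V`. -/
noncomputable def mD {V : T} {σ : ℕ} {a v : ℤ} (hv : 0 ≤ v) (ha : 2 * v = a + σ)
    (y : (CC D U V).D σ a) : CMap (CC D U (𝟙_ T)) (CC D U V) σ a :=
  mulW hv ha (eD U (𝟙_ T) ha.symm y)

lemma SE_und_mD {V : T} {σ : ℕ} {a v : ℤ} (hv : 0 ≤ v) (ha : 2 * v = a + σ)
    (y : (CC D U V).D σ a) {s s' : ℕ} {n n' : ℤ} (h : s + σ = s') (e : n + a = n')
    (x : (CC D U (𝟙_ T)).D s n) :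
    SE (und ((mD D U hv ha y).fD s s' n n' h e x)) (und x ⊗ₘ und y) := by
  rw [mD, mulW, und_mulC]
  exact SE_sh_comp e _ _

section Toda

variable {M : T} {i : 𝟙_ T ⟶ M} {δ : M ⟶ (𝟙_ T)⟦(1 : ℤ)⟧}
  (hM : Dist ((3 : ℤ) • 𝟙 (𝟙_ T)) i δ) {t : Cob Laz 1} (ht : IsT1 3 t)

include hM

lemma cycM : Cyc D 3 1 i := cyc_modP D (p := 3) (by norm_num) hM

variable (D U) in
/-- The lifts of `α₁` and `β₁`, and the Toda relation. -/
theorem exists_ab (F : SpaceFunctor T) :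
    ∃ (a : (CC D U (𝟙_ T)).D 1 3) (x : (CC D U (𝟙_ T)).D 2 10),
      (CC D U (𝟙_ T)).j 1 3 a = cls D U (𝟙 _) (by norm_num) (tW ht) ∧
      (CC D U (𝟙_ T)).j 2 10 x = cls D U (𝟙 _) (by norm_num) (bW ht) ∧
      und (mapD i ((mD D U (v := 2) (by norm_num) (by norm_num) a).fD 6 7 30 33 rfl rfl
        ((mD D U (v := 6) (by norm_num) (by norm_num) x).fD 4 6 20 30 rfl rfl
          ((mD D U (v := 6) (by norm_num) (by norm_num) x).fD 2 4 10 20 rfl rfl x)))) = 0 := by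
  obtain ⟨a₀, ha₀⟩ := P257.H762.exists_alpha_one D U (p := 3) (by norm_num) ht (v := 2) rfl
    (isWt_t ht)
  obtain ⟨x₀, hx₀⟩ := B.exists_beta_one D U (p := 3) (by norm_num) ht (w := 6) rfl (isWt_b ht)
  have h1 : (3 : ℤ) + ((0 + 1 : ℕ) : ℤ) = 2 * 2 := by norm_num
  have h2 : (10 : ℤ) + ((1 + 1 : ℕ) : ℤ) = 2 * 6 := by norm_num
  obtain ⟨a, ha, ha'⟩ := exists_rep_of_sphE (U := U) (σ := 1) h1 (tW ht) a₀ ha₀
  obtain ⟨x, hx, hx'⟩ := exists_rep_of_sphE (U := U) (σ := 2) h2 (bW ht) x₀ hx₀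
  refine ⟨a, x, ha', hx', ?_⟩
  have hT := P257.H163.todaRel F D U (p := 3) (by norm_num) hM t ht (isWt_t ht) (isWt_b ht)
    a₀ ha₀ x₀ hx₀
  have e1 : SE (und a) (a₀ ≫ U.bd 0 (𝟙_ T)) := by
    refine (SE.sh (t' := 2 * 2) (k := 1) (by norm_num) _).trans (SE.of_AI ?_)
    rw [sh_und_one h1, ha, Category.assoc, Category.assoc, ← Category.assoc]
    exact AI.of_iso_comp ((sα T 2).symm ≪≫ sphE T 2) _
  have e2 : SE (und x) (x₀ ≫ U.bd 1 (𝟙_ T) ≫ (U.bd 0 (𝟙_ T))⟦(1 : ℤ)⟧') := by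
    refine ((SE.sh (t' := 11) (k := 1) (by norm_num) _).trans
      (SE.sh (t' := 2 * 6) (k := 1) (by norm_num) _)).trans (SE.of_AI ?_)
    rw [sh_und_two h2, hx, Category.assoc, Category.assoc, ← Category.assoc]
    exact AI.of_iso_comp ((sα T 6).symm ≪≫ sphE T 6) _
  have e3 := (SE_und_mD (v := 6) (by norm_num) (by norm_num) x (s := 2) (s' := 4) (n' := 20)
    rfl rfl x).trans (SE.tensor (e2.trans (SE.of_AI (AI.unit_left _).symm)) e2)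
  have e4 := (SE_und_mD (v := 6) (by norm_num) (by norm_num) x (s' := 6) (n' := 30)
    rfl rfl _).trans (SE.tensor e3 e2)
  have e5 := (SE_und_mD (v := 2) (by norm_num) (by norm_num) a (s' := 7) (n' := 33)
    rfl rfl _).trans (SE.tensor e4 e1)
  obtain ⟨g, hg⟩ := e5.symm.exists_smul (n := 3) hT
  have h3 := hM.zero₁₂
  rw [Preadditive.zsmul_comp, Category.id_comp] at h3
  rw [und_mapD, ← hg, Preadditive.zsmul_comp, ← Preadditive.comp_zsmul, h3, comp_zero]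

variable (D U) in
/-- The class of `β₁ ^ 3 α₁` is killed by a class of filtration at least two. -/
theorem toda_null (F : SpaceFunctor T) (h : (33 : ℤ) + ((7 : ℕ) : ℤ) = 2 * 20) :
    Null (CC D U M) 2 (cls D U i h (b3tW ht)) := by
  obtain ⟨a, x, ha, hx, h0⟩ := exists_ab D U hM ht F
  refine Null.of_alg (cycM hM) (Nat.zero_le 2) (by norm_num)
    ⟨Nat.zero_le 7, _, (und_eq_zero_iff _).1 h0, ?_⟩ fun s w _ h2 hw => algVan_three (by omega)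
  have A := acts_of_j (𝟙 _) (v := 2) (a := 3) (by norm_num) (by norm_num) a ha
  have B := acts_of_j (𝟙 _) (v := 6) (a := 10) (by norm_num) (by norm_num) x hx
  rw [j_mapD, CMap.j_f, CMap.j_f, CMap.j_f, hx, mD, mD,
    B 2 4 10 20 6 12 rfl rfl rfl _ (by norm_num), B 4 6 20 30 12 18 rfl rfl rfl _ (by norm_num),
    A 6 7 30 33 18 20 rfl rfl rfl _ h, mapE_cls, Category.id_comp]
  rfl

lemma toda_not_null (h : (33 : ℤ) + ((7 : ℕ) : ℤ) = 2 * 20) (hb : ¬ ACob 3 1 20 (b3tW ht).1) :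
    ¬ Null (CC D U M) 3 (cls D U i h (b3tW ht)) := fun h0 =>
  hb (aCob_of_null (cycM hM) h (by rw [d_b3tW]; exact zero_mem _)
    (Null.of_alg (cycM hM) (r' := 6) (by norm_num) (by norm_num) h0
      fun s w _ _ hw => algVan_three (by omega)))

variable (D U) in
/-- **The Toda differential.** -/
theorem toda_dif (F : SpaceFunctor T) (h : (33 : ℤ) + ((7 : ℕ) : ℤ) = 2 * 20)
    (h' : (33 : ℤ) + 1 + ((2 : ℕ) : ℤ) = 2 * 18) :
    ∃ e : Cob.wt Laz 2 18, Cob.d 2 e.1 ∈ IC 3 1 3 ∧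
      Dif (cls D U i h' e) (cls D U i h (b3tW ht)) := by
  obtain ⟨x, hx⟩ := exists_dif_of_null (by norm_num) (toda_null D U hM ht F h)
  obtain ⟨e, he, rfl⟩ := exists_cocycle (cycM hM) h' x (hx.isCocycle (by norm_num))
  exact ⟨e, he, hx⟩

variable (D U) in
/-- The multiplication by `β₁` on the couple of `M`. -/
theorem exists_mul_b : ∃ f : CMap (CC D U M) (CC D U M) 2 10, Acts i i f (bW ht) := by
  obtain ⟨x₀, hx₀⟩ := B.exists_beta_one D U (p := 3) (by norm_num) ht (w := 6) rfl (isWt_b ht)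
  have h2 : (10 : ℤ) + ((2 : ℕ) : ℤ) = 2 * 6 := by norm_num
  obtain ⟨x, -, hx'⟩ := exists_rep_of_sphE (U := U) (σ := 2) h2 (bW ht) x₀ hx₀
  obtain ⟨g, -, hg⟩ := exists_acts (p := 3) (by norm_num) hM (v := 6) (by norm_num) h2.symm
    (mapD i x) (b := bW ht) (by rw [j_mapD, hx', mapE_cls, Category.id_comp])
  exact ⟨_, hg⟩

end Toda

/-- The algebraic input for the stem `34`. -/
def J1Alg : Prop := ∀ (t : Cob Laz 1) (ht : IsT1 3 t), ¬ ACob 3 1 20 (b3tW ht).1 ∧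
  ∀ x e : Cob Laz 2, Cob.IsWt 18 x → Cob.d 2 x ∈ IC 3 1 3 → Cob.IsWt 18 e →
    Cob.d 2 e ∈ IC 3 1 3 → ¬ ACob 3 1 18 x → ∃ c : ℤ, ACob 3 1 18 (e - c • x)

/-- A permanent cycle in the stem `34` and filtration two is a coboundary. -/
theorem aCob_of_perm (hA : J1Alg) (F : SpaceFunctor T) {M : T} {i : 𝟙_ T ⟶ M}
    {δ : M ⟶ (𝟙_ T)⟦(1 : ℤ)⟧} (hM : Dist ((3 : ℤ) • 𝟙 (𝟙_ T)) i δ)
    (h' : (33 : ℤ) + 1 + ((2 : ℕ) : ℤ) = 2 * 18) (x : Cob.wt Laz 2 18)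
    (hx : Cob.d 2 x.1 ∈ IC 3 1 3) (y : (CC D U M).D 2 (33 + 1))
    (hy : (CC D U M).j 2 _ y = cls D U i h' x) : ACob 3 1 18 x.1 := by
  by_contra hn
  obtain ⟨t, ht⟩ := T1 3
  have h : (33 : ℤ) + ((7 : ℕ) : ℤ) = 2 * 20 := by norm_num
  obtain ⟨e, he, hd⟩ := toda_dif D U hM ht F h h'
  obtain ⟨c, hc⟩ := (hA t ht).2 x.1 e.1 x.2 hx e.2 he hn
  have h1 := Null.k_eq_zero (m := 33) rfl (null_of_aCob (U := U) (cycM hM) h' (z := e - c • x) hc)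
  rw [map_sub, map_zsmul, map_sub, map_zsmul, ← hy, Couple.k_j, smul_zero, sub_zero] at h1
  exact toda_not_null hM ht h (hA t ht).1 (hd.null_of_k h1)

theorem af3_of_alg (hA : J1Alg) (F : SpaceFunctor T) {H : T} [MonObj H] [IsCommMonObj H]
    (hH : Tr.IsHF 3 η[H]) (θ : (stdEven T).S 17 ⟶ 𝟙_ T) : Dt.AF3 H θ := by
  obtain ⟨D⟩ := MU T F
  obtain ⟨U⟩ := exists_unitCof D.R
  have h3 : (3 : ℤ) • η[H] = 0 := (hH.ord 3).2 (by norm_num)
  obtain ⟨k, hk⟩ := Dt.descend h3 (𝟙_ T)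
  obtain ⟨M', i', δ', hM'⟩ := exists_cone ((3 : ℤ) ^ (k + 1) • 𝟙 (𝟙_ T))
  obtain ⟨M, i, δ, hM⟩ := exists_cone ((3 : ℤ) • 𝟙 (𝟙_ T))
  have hw : (17 : ℤ) + 1 = 18 := by norm_num
  obtain ⟨t, x, x', hx, ht, ht'⟩ := Dt.exists_lift D U (p := 3) (by norm_num) hM' hw
    (by norm_num) θ
  obtain ⟨r, hr⟩ := hM'.desc₂ i (by
    have h4 := hM.zero₁₂
    rw [Preadditive.zsmul_comp, Category.id_comp] at h4 ⊢
    rw [pow_succ, ← smul_smul, h4, smul_zero])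
  have h' : (33 : ℤ) + 1 + ((2 : ℕ) : ℤ) = 2 * 18 := by norm_num
  obtain ⟨y, hy⟩ := exists_D_of_tensor (U := U) i h' (t ≫ (_ ◁ r)) x (by
    rw [Category.assoc, whisker_exchange, reassoc_of% ht', Dt.red, Dt.red, Category.assoc,
      ← MonoidalCategory.whiskerLeft_comp, hr])
  obtain ⟨y', hy', hI⟩ := aCob_of_perm hA F hM h' x ((mem_IC_three_iff (Cob.dwt Laz 2 18 x)).2
    ⟨(3 : ℤ) ^ k • x', by rw [hx, smul_smul, pow_succ']; rfl⟩) y hy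
  have h₁₀ := (Dt.af3_of_mem D hH.conc U (p := 3) h3 i' t x ⟨y', hy'⟩ hI ht').comp
    (Dt.eS hw).inv (𝟙 _)
  rw [ht, Category.comp_id, Iso.inv_hom_id_assoc] at h₁₀
  exact hk _ (Nat.le_succ k) M' i' δ' hM' _ θ h₁₀.of_shift.of_shift

/-- **The stem `34`.** -/
theorem noOne_of (hA : J1Alg) : St.NoOne := by
  intro T S H e he θ
  have := locallySmall_self.{0} T.C
  obtain ⟨H₀, _, _, hH₀⟩ := Dt.exists_HFmon S.toSpaceFunctor (p := 3) (by norm_num)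
  obtain ⟨q, rfl⟩ := St5.exists_cmp S.toSpaceFunctor hH₀ he
  let c : (stdEven T.C).S 17 ≅ (𝟙_ T.C)⟦St.stem 1⟧ := St5.stemIso T 1
  have h := (af3_of_alg hA S.toSpaceFunctor hH₀ (c.hom ≫ θ)).af.pre c.inv
  rw [Iso.inv_hom_id_assoc] at h
  exact St5.af_cmp q h

/-! ### The class `θ₃` -/

/-- The algebraic input for the stem `106`. -/
def J2Alg : Prop := ∀ (t : Cob Laz 1) (ht : IsT1 3 t),
  (∃ x : Cob Laz 1, Cob.IsWt 54 x ∧ Cob.d 1 x ∈ IC 3 1 2 ∧ ¬ ACob 3 3 54 x ∧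
    ACob 3 1 72 (cupC (s := 1) (σ := 6) (s' := 7) rfl x (b3W ht).1)) ∧
  (∀ (s : ℕ) (w : ℤ), 107 + (s : ℤ) = 2 * w → 2 ∣ w → 5 ≤ s → s ≤ 17 →
    ASurj 3 1 1 (b3W ht).1 18 s w) ∧
  (∀ (s : ℕ) (w : ℤ), 106 + (s : ℤ) = 2 * w → 2 ∣ w → 6 ≤ s → s ≤ 18 →
    AInj 3 1 1 (b3W ht).1 18 s w) ∧
  ∀ (s : ℕ) (w : ℤ), 106 + (s : ℤ) = 2 * w → 2 ∣ w → 22 ≤ s → s ≤ 34 → AlgVan 3 1 s w

lemma aInj_of_van {p h h' σ s : ℕ} {b : Cob Laz σ} {v w : ℤ} (H : AlgVan p h s w) :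
    AInj p h h' b v s w := fun _ hz hd _ => aCob_of_algVan H hz hd

lemma aSurj_of_van {p h h' σ s : ℕ} {b : Cob Laz σ} {v w : ℤ} (H : AlgVan p h' (s + σ) (w + v)) :
    ASurj p h h' b v s w := fun c hc hd =>
  ⟨0, (Cob.wt Laz s w).zero_mem, by rw [map_zero]; exact zero_mem _, by
    rw [Cob.cup, map_zero, zero_mul, sub_zero]
    exact aCob_of_algVan H hc hd⟩

/-- Every cocycle of filtration one in the stem `107` which is killed by `b ^ 3` survives. -/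
theorem survive_107 (hA : J2Alg) {M : T} {i : 𝟙_ T ⟶ M} {δ : M ⟶ (𝟙_ T)⟦(1 : ℤ)⟧}
    (hM : Dist ((3 : ℤ) • 𝟙 (𝟙_ T)) i δ) {t : Cob Laz 1} (ht : IsT1 3 t) {w : ℤ}
    (h : (106 : ℤ) + 1 + ((1 : ℕ) : ℤ) = 2 * w) (x : Cob.wt Laz 1 w)
    (hx : Cob.d 1 x.1 ∈ IC 3 1 2)
    (hb : ACob 3 1 72 (cupC (s := 1) (σ := 6) (s' := 7) rfl x.1 (b3W ht).1)) :
    (CC D U M).k 1 (106 + 1) 106 rfl (cls D U i h x) = 0 := by
  obtain ⟨-, hS, hI, hV⟩ := hA t ht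
  obtain ⟨f, hf⟩ := exists_mul_b D U hM ht
  have H : Cyc D 3 1 i := cycM hM
  have h3 : Acts i i ((f.comp f (σ'' := 4) (a'' := 20) rfl rfl).comp f (σ'' := 6) (a'' := 30)
      rfl rfl) (b3W ht) :=
    (hf.comp hf (by norm_num) rfl rfl rfl).comp hf (by norm_num) rfl rfl rfl
  have e18 : 2 * (18 : ℤ) = 30 + ((6 : ℕ) : ℤ) := by norm_num
  have h' : (136 : ℤ) + 1 + ((7 : ℕ) : ℤ) = 2 * 72 := by norm_num
  have h4 := CMap.survive_lifts (f := (f.comp f (σ'' := 4) (a'' := 20) rfl rfl).comp f (σ'' := 6)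
    (a'' := 30) rfl rfl) (m := 106) (m' := 136) (r := 1) (r' := 7) (T := 19) (T' := 25)
    rfl rfl rfl (by norm_num)
    (fun b hb hb' => h3.surj H H e18 fun w hw => by
      by_cases h2 : 2 ∣ w
      · exact hS b w (by omega) h2 (by omega) (by omega)
      · exact aSurj_of_van (algVan_three (by omega)))
    (fun s hs hs' => h3.inj H H e18
      (fun z hz => d_cupC_mem rfl hz (by rw [d_b3W]; exact zero_mem _)) fun w hw => by
        by_cases h2 : 2 ∣ w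
        · exact hI s w hw h2 (by omega) (by omega)
        · exact aInj_of_van (algVan_three (by omega)))
    (cls D U i h x) (isCocycle_cls H h hx) (by
      have hw : w + 18 = 72 := by omega
      have h5 := null_of_aCob (U := U) H h'
        (z := cupW (s := 1) (σ := 6) (s' := 7) rfl hw x (b3W ht)) hb
      rw [h3 1 7 _ _ w 72 rfl _ hw h h', Null.k_eq_zero rfl h5]
      exact Lifts.zero (by norm_num))
  refine Lifts.eq_zero (Lifts.of_alg H (t' := 107) (by norm_num) (by norm_num) h4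
    fun s w hs _ hw => ?_) (CC_D_eq_zero (bigCell_M (p := 3) hM) (by norm_num))
  by_cases h2 : 2 ∣ w ∧ s ≤ 34
  · exact hV s w hw h2.1 (by omega) h2.2
  · exact algVan_three (by omega)

lemma w0_two : Det.w0 2 = 54 := by
  rw [Det.w0]
  norm_num

lemma aCob_adjust {w : ℤ} (hw : w = 54) {b : Cob Laz 6} (hb : Cob.IsWt 18 b)
    (hd : Cob.d 6 b = 0) (x : Cob.wt Laz 1 w) (z : Cob.wt Laz 0 w) (g : Cob.wt Laz 1 w)
    (h : ACob 3 1 72 (cupC (s := 1) (σ := 6) (s' := 7) rfl x.1 b)) :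
    ACob 3 1 72 (cupC (s := 1) (σ := 6) (s' := 7) rfl
      (x - Cob.dwt Laz 0 w z - (3 : ℤ) • g).1 b) := by
  subst hw
  obtain ⟨y, hy, h⟩ := h
  refine ⟨y - cupC (s := 0) (σ := 6) rfl z.1 b,
    (Cob.wt Laz 6 72).sub_mem hy (isWt_cupC _ z.2 hb rfl), ?_⟩
  have h1 : (3 : ℤ) • g.1 ∈ IC 3 1 1 := (mem_IC_three_iff ((3 : ℤ) • g)).2 ⟨g, rfl⟩
  have h2 := sub_mem h (cupC_mem_left (σ := 6) rfl h1 b)
  have h3 := d_cupC (s := 0) (σ := 6) (s' := 6) rfl rfl rfl z.1 b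
  have h4 : (x - Cob.dwt Laz 0 54 z - (3 : ℤ) • g).1 = x.1 - Cob.d 0 z.1 - (3 : ℤ) • g.1 := rfl
  rw [map_sub, h3, hd, h4]
  convert h2 using 1
  simp only [cupC, map_sub, map_zero, mul_zero, smul_zero, add_zero]
  ring

variable (D U) in
/-- The class `θ₃` in the second stage of the tower, with its normalized cochains. -/
theorem exists_theta (hA : J2Alg) {t : Cob Laz 1} (ht : IsT1 3 t)
    (e : (106 : ℤ) + 1 + ((1 : ℕ) : ℤ) = 2 * Det.w0 2) :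
    ∃ (h : Cob.wt Laz 1 (Det.w0 2)) (x : Cob.wt Laz 2 (Det.w0 2)) (c : ℤ), ¬ (3 : ℤ) ∣ c ∧
      St5.Nrm t 2 h x c ∧
      ACob 3 1 72 (cupC (s := 1) (σ := 6) (s' := 7) rfl h.1 (b3W ht).1) ∧
      ∃ th : (CC D U (𝟙_ T)).D 2 106,
        (3 : ℤ) • th = (CC D U (𝟙_ T)).k 1 (106 + 1) 106 rfl (cls D U (𝟙 _) e h) := by
  obtain ⟨M, i, δ, hM⟩ := exists_cone ((3 : ℤ) • 𝟙 (𝟙_ T))
  obtain ⟨x, hw, hd, hn, hb⟩ := (hA t ht).1
  rw [← w0_two] at hw hn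
  obtain ⟨x', hx'⟩ := (mem_IC_three_iff (Cob.dwt Laz 1 _ ⟨x, hw⟩)).1 hd
  obtain ⟨z, g, c, hN⟩ := St5.exists_nrm (j := 2) ht ⟨x, hw⟩ x' hx'
  have hb' := aCob_adjust w0_two (b3W ht).2 (d_b3W ht) ⟨x, hw⟩ z g hb
  have hc : ¬ (3 : ℤ) ∣ c := fun hc => hn ⟨z.1, z.2, by
    have h1 : (3 : ℤ) • g.1 ∈ IC 3 3 1 :=
      IC_mono (IC_mono ((mem_IC_three_iff ((3 : ℤ) • g)).2 ⟨g, rfl⟩))
    have h2 : x - Cob.d 0 z.1 - (3 : ℤ) • g.1 + (3 : ℤ) • g.1 ∈ IC 3 3 1 :=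
      add_mem (hN.mem hc) h1
    rwa [sub_add_cancel] at h2⟩
  generalize (⟨x, hw⟩ : Cob.wt Laz 1 (Det.w0 2)) - Cob.dwt Laz 0 _ z - (3 : ℤ) • g = h at hN hb'
  have h3 : (Cob.dwt Laz 1 _ h).1 ∈ IC 3 1 2 := (mem_IC_three_iff _).2 ⟨_, hN.dh⟩
  exact ⟨h, _, c, hc, hN, hb', exists_bd hM rfl e h (survive_107 hA hM ht e h h3 hb')⟩

/-- **The stem `106`.** -/
theorem kerv_two_of (hA : J2Alg) : St5.KERV 2 := by
  intro T S D U t ht
  have e : (106 : ℤ) + 1 + ((1 : ℕ) : ℤ) = 2 * Det.w0 2 := by rw [w0_two]; norm_num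
  obtain ⟨h, x, c, hc, hN, -, th, hth⟩ := exists_theta D U hA ht e
  exact ⟨h, x, c, hc, hN, _, kw_of_three rfl e (by rw [w0_two]; norm_num) h th hth⟩

end Vale.Agent.P236K.SS
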