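import Vale.Agent.P236K.SS.Tower
import Vale.Agent.P251.S.CupPow
import Vale.Agent.P257.H314.Line
import Vale.Agent.P251.B.Final

/-!
# P236K, block SS: the classes of cochains of `Cob Laz` in the couple of a tower

* `sα T w : S^{2w} ≅ 𝟙⟦2w⟧`, a multiplicative family of identifications;
* `cls D U i`: the class in `E₁` of the tower of `V` (`i : 𝟙 ⟶ V`) of a cochain;
* `mulC_cls`: multipliers act by the cup product on the right;
* for cyclic `V`: cocycles, coboundaries, `Inj` and `Surj` from the algebra.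
-/

open CategoryTheory MonoidalCategory Limits Pretriangulated MonObj

set_option linter.unusedSectionVars false

universe v u

namespace Vale.Agent.P236K.SS

open Vale.Agent.P251 Vale.Agent.P251.T Vale.Agent.P251.F Vale.Agent.P251.I
  Vale.Agent.P251.M Vale.Agent.P257.H314 Vale.Agent.P257.H712
open Vale.Agent.P251.S hiding IC
open Vale.Agent.P251.B (sphE)

/-! ### Concatenation -/

/-- The first vertices. -/
def frontG {s σ s' : ℕ} (h : s + σ = s') : Fin (s + 1) → Fin (s' + 1) := fun i => ⟨i, by omega⟩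

/-- The last vertices. -/
def backG {s σ s' : ℕ} (h : s + σ = s') : Fin (σ + 1) → Fin (s' + 1) :=
  fun i => ⟨s + i, by omega⟩

/-- The cup product, with a name for the degree. -/
noncomputable def cupC {N : Type} [CommRing N] [LawRing N] {s σ s' : ℕ} (h : s + σ = s')
    (x : Cob N s) (y : Cob N σ) : Cob N s' :=
  Cob.map (frontG h) x * Cob.map (backG h) y

lemma cupC_rfl {N : Type} [CommRing N] [LawRing N] {s σ : ℕ} (x : Cob N s) (y : Cob N σ) :
    cupC rfl x y = Cob.cup x y := rfl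

lemma isWt_cupC {N : Type} [CommRing N] [LawRing N] {s σ s' : ℕ} (h : s + σ = s')
    {x : Cob N s} {y : Cob N σ} {w v w' : ℤ} (hx : Cob.IsWt w x) (hy : Cob.IsWt v y)
    (hw : w + v = w') : Cob.IsWt w' (cupC h x y) := hw ▸ (hx.map _).mul (hy.map _)

/-- The cup product of homogeneous cochains. -/
noncomputable def cupW {s σ s' : ℕ} (h : s + σ = s') {w v w' : ℤ} (hw : w + v = w')
    (x : Cob.wt Laz s w) (y : Cob.wt Laz σ v) : Cob.wt Laz s' w' :=
  ⟨cupC h x.1 y.1, isWt_cupC h x.2 y.2 hw⟩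

/-- The coface maps. -/
def dl (m i : ℕ) : Fin (m + 1) → Fin (m + 2) :=
  fun k => if (k : ℕ) < i then ⟨k, by omega⟩ else ⟨k + 1, by omega⟩

lemma val_dl (m i : ℕ) (k : Fin (m + 1)) :
    (dl m i k : ℕ) = if (k : ℕ) < i then (k : ℕ) else k + 1 := by
  rw [dl]
  split_ifs <;> rfl

lemma d_range {N : Type} [CommRing N] [LawRing N] (m : ℕ) (x : Cob N m) :
    Cob.d m x = ∑ i ∈ Finset.range (m + 2), ((-1 : ℤ) ^ i) • Cob.map (dl m i) x := by
  rw [Cob.d_apply, ← Fin.sum_univ_eq_sum_range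
    (fun i => ((-1 : ℤ) ^ i) • Cob.map (dl m i) x)]
  refine Finset.sum_congr rfl fun i _ => ?_
  have h : (i.succAbove : Fin (m + 1) → Fin (m + 2)) = dl m i := by
    funext k
    apply Fin.ext
    rw [val_dl]
    simp only [Fin.succAbove, Fin.lt_def, Fin.val_castSucc, apply_ite Fin.val, Fin.val_succ]
  rw [h]

/-- The Leibniz rule for the cup product. -/
theorem d_cupC {N : Type} [CommRing N] [LawRing N] {s σ s' : ℕ} (h : s + σ = s')
    (h1 : s + 1 + σ = s' + 1) (h2 : s + (σ + 1) = s' + 1) (x : Cob N s) (y : Cob N σ) :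
    Cob.d s' (cupC h x y) =
      cupC h1 (Cob.d s x) y + ((-1 : ℤ) ^ s) • cupC h2 x (Cob.d σ y) := by
  have e1 : ∀ i, i < s + 1 → dl s' i ∘ frontG h = frontG h1 ∘ dl s i := fun i _ => by
    funext k
    apply Fin.ext
    simp only [Function.comp, frontG, val_dl]
  have e2 : ∀ i, i < s + 1 → dl s' i ∘ backG h = backG h1 := fun i hi => by
    funext k
    apply Fin.ext
    simp only [Function.comp, backG, val_dl]
    split_ifs <;> omega
  have e3 : ∀ j, dl s' (s + 1 + j) ∘ frontG h = frontG h2 := fun j => by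
    funext k
    apply Fin.ext
    have := k.2
    simp only [Function.comp, frontG, val_dl]
    split_ifs <;> omega
  have e4 : ∀ j, dl s' (s + 1 + j) ∘ backG h = backG h2 ∘ dl σ (j + 1) := fun j => by
    funext k
    apply Fin.ext
    simp only [Function.comp, backG, val_dl]
    split_ifs <;> omega
  have e5 : frontG h1 ∘ dl s (s + 1) = frontG h2 := by
    funext k
    apply Fin.ext
    have := k.2
    simp only [Function.comp, frontG, val_dl]
    rw [if_pos this]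
  have e6 : backG h2 ∘ dl σ 0 = backG h1 := by
    funext k
    apply Fin.ext
    simp only [Function.comp, backG, val_dl]
    split_ifs <;> omega
  rw [d_range, d_range, d_range, show s' + 2 = (s + 1) + (σ + 1) by omega, Finset.sum_range_add,
    Finset.sum_range_succ _ (s + 1), Finset.sum_range_succ' _ (σ + 1)]
  simp only [cupC, map_add, map_sum, map_zsmul, map_mul, Cob.map_map, add_mul, mul_add,
    Finset.sum_mul, Finset.mul_sum, smul_add, Finset.smul_sum, smul_mul_assoc, mul_smul_comm,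
    smul_smul]
  rw [Finset.sum_congr rfl fun i hi => by
    rw [e1 i (Finset.mem_range.1 hi), e2 i (Finset.mem_range.1 hi)], e5, e6]
  have e7 : ∀ j : ℕ, (-1 : ℤ) ^ (s + 1 + j) = (-1) ^ s * (-1) ^ (j + 1) := fun j => by ring
  simp only [e3, e4, e7]
  rw [pow_succ, pow_zero, _root_.mul_one, mul_neg_one, neg_smul]
  abel

lemma cupC_mem_left {p h : ℕ} [Fact p.Prime] {s σ s' : ℕ} (e : s + σ = s') {x : Cob Laz s}
    (hx : x ∈ IC p h s) (y : Cob Laz σ) : cupC e x y ∈ IC p h s' :=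
  Ideal.mul_mem_right _ _ (map_mem_IC _ hx)

lemma cupC_mem_right {p h : ℕ} [Fact p.Prime] {s σ s' : ℕ} (e : s + σ = s') (x : Cob Laz s)
    {y : Cob Laz σ} (hy : y ∈ IC p h σ) : cupC e x y ∈ IC p h s' :=
  Ideal.mul_mem_left _ _ (map_mem_IC _ hy)

lemma d_cupC_mem {p h : ℕ} [Fact p.Prime] {s σ s' : ℕ} (e : s + σ = s') {x : Cob Laz s}
    {y : Cob Laz σ} (hx : Cob.d s x ∈ IC p h (s + 1)) (hy : Cob.d σ y ∈ IC p h (σ + 1)) :
    Cob.d s' (cupC e x y) ∈ IC p h (s' + 1) := by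
  rw [d_cupC e (by omega) (by omega)]
  exact Ideal.add_mem _ (cupC_mem_left _ hx _)
    (Submodule.smul_of_tower_mem _ _ (cupC_mem_right _ _ hy))

lemma cupC_assoc {N : Type} [CommRing N] [LawRing N] {a b c ab bc n : ℕ} (h1 : a + b = ab)
    (h2 : ab + c = n) (h3 : b + c = bc) (h4 : a + bc = n) (x : Cob N a) (y : Cob N b)
    (z : Cob N c) : cupC h2 (cupC h1 x y) z = cupC h4 x (cupC h3 y z) := by
  have e1 : frontG h2 ∘ frontG h1 = frontG h4 := rfl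
  have e2 : frontG h2 ∘ backG h1 = backG h4 ∘ frontG h3 := rfl
  have e3 : backG h2 = backG h4 ∘ backG h3 := by
    funext k
    apply Fin.ext
    simp only [Function.comp, backG]
    omega
  simp only [cupC, map_mul, Cob.map_map, e1, e2, e3, _root_.mul_assoc]

section Monoids

variable {T : Type u} [Category.{v} T] [MonoidalCategory T] [SymmetricCategory T]

/-- The concatenation. -/
def concG (R : T) [MonObj R] : ∀ (σ s s' : ℕ), s + σ = s' →
    (Am R (s + 1) ⊗ Am R (σ + 1) ⟶ Am R (s' + 1))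
  | 0, s, s', h => (((Am R s ⊗ R) ◁ (λ_ R).hom) ≫ (α_ (Am R s) R R).hom ≫ (Am R s ◁ μ[R])) ≫
      eqToHom (by rw [← h])
  | _ + 1, _, 0, h => absurd h (by omega)
  | σ + 1, s, s' + 1, h => (α_ (Am R (s + 1)) (Am R (σ + 1)) R).inv ≫
      (concG R σ s s' (by omega) ▷ R)

variable (R : T) [MonObj R]

lemma concG_zero (s : ℕ) : concG R 0 s s rfl =
    ((Am R s ⊗ R) ◁ (λ_ R).hom) ≫ (α_ (Am R s) R R).hom ≫ (Am R s ◁ μ[R]) :=
  Category.comp_id _

lemma concG_succ (σ s s' : ℕ) (h : s + (σ + 1) = s' + 1) (h' : s + σ = s') :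
    concG R (σ + 1) s (s' + 1) h =
      (α_ (Am R (s + 1)) (Am R (σ + 1)) R).inv ≫ (concG R σ s s' h' ▷ R) := rfl

variable [IsCommMonObj R]

instance isMonHom_concG (σ s s' : ℕ) (h : s + σ = s') : IsMonHom (concG R σ s s' h) := by
  induction σ generalizing s' with
  | zero =>
    obtain rfl : s = s' := h
    rw [concG_zero]
    infer_instance
  | succ σ ih =>
    obtain ⟨s', rfl⟩ : ∃ r, s' = r + 1 := ⟨s' - 1, by omega⟩
    have := ih s' (by omega)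
    rw [concG_succ R σ s s' h (by omega)]
    infer_instance

lemma inlM_concG (σ s s' : ℕ) (h : s + σ = s') :
    inlM (Am R (s + 1)) (Am R (σ + 1)) ≫ concG R σ s s' h = Am.map R (frontG h) := by
  induction σ generalizing s' with
  | zero =>
    obtain rfl : s = s' := h
    have h1 : inlM (Am R (s + 1)) (Am R (0 + 1)) ≫ concG R 0 s s rfl = 𝟙 _ := by
      rw [concG_zero]
      change inlM (Am R s ⊗ R) (𝟙_ T ⊗ R) ≫ _ = _
      rw [inlM_whiskerLeft_assoc, inlM_associator_assoc, ← MonoidalCategory.whiskerLeft_comp,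
        inlM_mul, MonoidalCategory.whiskerLeft_id]
    rw [h1]
    symm
    apply Am.map_eq_of
    intro i
    exact Category.comp_id _
  | succ σ ih =>
    obtain ⟨s', rfl⟩ : ∃ r, s' = r + 1 := ⟨s' - 1, by omega⟩
    have h' : s + σ = s' := by omega
    rw [concG_succ R σ s s' h h']
    change inlM (Am R (s + 1)) (Am R (σ + 1) ⊗ R) ≫ _ = _
    rw [inlM_associator_inv_assoc, inlM_whiskerRight, reassoc_of% ih s' h', ← Am.map_castSucc,
      ← Am.map_comp]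
    rfl

lemma inrM_concG (σ s s' : ℕ) (h : s + σ = s') :
    inrM (Am R (s + 1)) (Am R (σ + 1)) ≫ concG R σ s s' h = Am.map R (backG h) := by
  induction σ generalizing s' with
  | zero =>
    obtain rfl : s = s' := h
    have h1 : inrM (Am R (s + 1)) (Am R (0 + 1)) ≫ concG R 0 s s rfl =
        (λ_ R).hom ≫ inrM (Am R s) R := by
      rw [concG_zero]
      change inrM (Am R s ⊗ R) (𝟙_ T ⊗ R) ≫ _ = _
      rw [inrM_whiskerLeft_assoc, inrM_associator_assoc, inrM_whiskerLeft, inrM_mul_assoc]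
    have h2 : inrM (𝟙_ T) R ≫ (λ_ R).hom = 𝟙 R := by
      have h : η[(𝟙_ T)] = 𝟙 (𝟙_ T) := rfl
      rw [inrM, h, id_whiskerRight, Category.comp_id, Iso.inv_hom_id]
    have h3 : IsMonHom (inrM (Am R (s + 1)) (Am R (0 + 1)) ≫ concG R 0 s s rfl) := inferInstance
    symm
    apply Am.map_eq_of
    intro i
    obtain rfl : i = Fin.last 0 := by revert i; decide
    have h4 : backG (s := s) (σ := 0) rfl (Fin.last 0) = Fin.last s := rfl
    rw [h1, h4, Am.v_last, Am.v_last]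
    exact (reassoc_of% h2) _
  | succ σ ih =>
    obtain ⟨s', rfl⟩ : ∃ r, s' = r + 1 := ⟨s' - 1, by omega⟩
    have h' : s + σ = s' := by omega
    have h1 : inrM (Am R (s + 1)) (Am R (σ + 1 + 1)) ≫ concG R (σ + 1) s (s' + 1) h =
        Am.map R (backG h') ▷ R := by
      rw [concG_succ R σ s s' h h']
      change inrM (Am R (s + 1)) (Am R (σ + 1) ⊗ R) ≫ _ = _
      rw [inrM_associator_inv_assoc, ← comp_whiskerRight, ih s' h']
    rw [h1]
    symm
    apply Am.map_eq_of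
    intro i
    refine Fin.lastCases ?_ (fun j => ?_) i
    · have h4 : backG h (Fin.last (σ + 1)) = Fin.last (s' + 1) := Fin.ext (by
        change s + (σ + 1) = s' + 1
        exact h)
      rw [h4, Am.v_last, Am.v_last, inrM_whiskerRight]
    · have h4 : backG h j.castSucc = (backG h' j).castSucc := rfl
      rw [h4, Am.v_castSucc, Am.v_castSucc, Category.assoc, inlM_whiskerRight, Am.v_map_assoc]

lemma concG_eq (σ s s' : ℕ) (h : s + σ = s') :
    concG R σ s s' h = descM (Am.map R (frontG h)) (Am.map R (backG h)) := by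
  apply hom_ext_tensor (X := Am R (s + 1)) (Y := Am R (σ + 1))
  · rw [inlM_concG, inlM_descM]
  · rw [inrM_concG, inrM_descM]

end Monoids

variable {T : Type u} [Category.{v} T] [Preadditive T] [HasZeroObject T] [HasShift T ℤ]
  [∀ n : ℤ, (shiftFunctor T n).Additive] [Pretriangulated T] [MonoidalCategory T]
  [SymmetricCategory T] [TensorTriangulated T]

section Theta

variable {R : T} [MonObj R] (U : UnitCof R)

@[reassoc]
lemma cupG_θ {Y' : T} (σ s s' : ℕ) (h : s + σ = s') {Y : T} (z : Y' ⟶ U.cobar.Q (σ + 1) Y) :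
    cupG U.cobar σ s s' h z ≫ (U.θ (s' + 1) Y).hom =
      (U.θ (s + 1) Y').hom ≫ (Am R (s + 1) ◁ (z ≫ (U.θ (σ + 1) Y).hom)) ≫
        (α_ (Am R (s + 1)) (Am R (σ + 1)) Y).inv ≫ (concG R σ s s' h ▷ Y) := by
  induction σ generalizing Y s' with
  | zero =>
    obtain rfl : s = s' := h
    have hn := U.θ_naturality s ((R ◁ z) ≫ mulMap R Y)
    have h1 : (U.θ (s + 1) Y).hom = (U.θ s (R ⊗ Y)).hom ≫ (α_ (Am R s) R Y).inv := rfl
    have h2 : (U.θ (s + 1) Y').hom = (U.θ s (R ⊗ Y')).hom ≫ (α_ (Am R s) R Y').inv := rfl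
    have h3 : (U.θ (0 + 1) Y).hom = (λ_ (R ⊗ Y)).inv ≫ (α_ (𝟙_ T) R Y).inv := rfl
    have h4 : ∀ (A : T) (z : Y' ⟶ R ⊗ Y), (A ◁ ((R ◁ z) ≫ mulMap R Y)) ≫ (α_ A R Y).inv =
        (α_ A R Y').inv ≫ ((A ⊗ R) ◁ (z ≫ (λ_ (R ⊗ Y)).inv ≫ (α_ (𝟙_ T) R Y).inv)) ≫
          (α_ (A ⊗ R) (𝟙_ T ⊗ R) Y).inv ≫
          ((((A ⊗ R) ◁ (λ_ R).hom) ≫ (α_ A R R).hom ≫ (A ◁ μ[R])) ▷ Y) := by
      intro A z
      rw [mulMap]
      monoidal
    rw [cupG_zero, concG_zero, h1, h2, h3, Category.assoc]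
    refine ((reassoc_of% hn) _).trans ?_
    exact congrArg _ (h4 (Am R s) z)
  | succ σ ih =>
    obtain ⟨s', rfl⟩ : ∃ r, s' = r + 1 := ⟨s' - 1, by omega⟩
    have h' : s + σ = s' := by omega
    have h0 := reassoc_of% ih s' h' (Y := R ⊗ Y) z
    have h1 : (U.θ (s' + 1 + 1) Y).hom =
      (U.θ (s' + 1) (R ⊗ Y)).hom ≫ (α_ (Am R (s' + 1)) R Y).inv := rfl
    have h2 : (U.θ (σ + 1 + 1) Y).hom =
      (U.θ (σ + 1) (R ⊗ Y)).hom ≫ (α_ (Am R (σ + 1)) R Y).inv := rfl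
    have h4 : ∀ (A B C : T) (c : A ⊗ B ⟶ C) (z : Y' ⟶ B ⊗ R ⊗ Y),
        (A ◁ z) ≫ (α_ A B (R ⊗ Y)).inv ≫ (c ▷ (R ⊗ Y)) ≫ (α_ C R Y).inv =
        (A ◁ (z ≫ (α_ B R Y).inv)) ≫ (α_ A (B ⊗ R) Y).inv ≫
          (((α_ A B R).inv ≫ (c ▷ R)) ▷ Y) := by
      intro A B C c z
      monoidal
    rw [concG_succ R σ s s' h h', h1, h2]
    refine (h0 _).trans (congrArg _ ?_)
    rw [← Category.assoc z]
    exact h4 _ _ _ _ _

lemma cupS_conc (k : ℤ) {X : T} (σ s s' : ℕ) (h : s + σ = s')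
    (f : X ⟶ U.cobar.Q (s + 1) (𝟙_ T)) (z : (𝟙_ T)⟦k⟧ ⟶ U.cobar.Q (σ + 1) (𝟙_ T)) :
    f⟦k⟧' ≫ cupS U z s s' h ≫ (U.θU (s' + 1)).hom =
      (tensorSph k X).inv ≫ ((f ≫ (U.θU (s + 1)).hom) ⊗ₘ (z ≫ (U.θU (σ + 1)).hom)) ≫
        concG R σ s s' h := by
  have h1 : (α_ (Am R (s + 1)) (Am R (σ + 1)) (𝟙_ T)).inv ≫ (concG R σ s s' h ▷ 𝟙_ T) ≫
      (ρ_ (Am R (s' + 1))).hom =
      (Am R (s + 1) ◁ (ρ_ (Am R (σ + 1))).hom) ≫ concG R σ s s' h := by
    rw [rightUnitor_naturality, rightUnitor_tensor_hom_assoc, Iso.inv_hom_id_assoc]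
  have h2 : U.κQ k (s + 1) (𝟙_ T) ≫ (U.θ (s + 1) ((𝟙_ T)⟦k⟧)).hom =
      ((U.θU (s + 1)).hom)⟦k⟧' ≫ (tensorSph k (Am R (s + 1))).inv := by
    rw [UnitCof.κQ_θ, UnitCof.θU, tensorSph, Iso.trans_hom, Iso.trans_inv, Functor.map_comp,
      Functor.mapIso_inv, Category.assoc,
      ← Functor.map_comp_assoc (shiftFunctor T k) (ρ_ _).hom, Iso.hom_inv_id,
      CategoryTheory.Functor.map_id, Category.id_comp]
    rfl
  have h3 : ((f ≫ (U.θU (s + 1)).hom) ▷ ((𝟙_ T)⟦k⟧)) = (tensorSph k X).hom ≫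
      (f ≫ (U.θU (s + 1)).hom)⟦k⟧' ≫ (tensorSph k (Am R (s + 1))).inv := by
    rw [← tensorSph_naturality_assoc, Iso.hom_inv_id, Category.comp_id]
  calc _ = f⟦k⟧' ≫ U.κQ k (s + 1) (𝟙_ T) ≫
        (cupG U.cobar σ s s' h z ≫ (U.θ (s' + 1) (𝟙_ T)).hom) ≫ (ρ_ (Am R (s' + 1))).hom := by
        rw [cupS, UnitCof.θU, Iso.trans_hom]
        simp only [Category.assoc]
    _ = f⟦k⟧' ≫ (U.κQ k (s + 1) (𝟙_ T) ≫ (U.θ (s + 1) ((𝟙_ T)⟦k⟧)).hom) ≫
        (Am R (s + 1) ◁ (z ≫ (U.θ (σ + 1) (𝟙_ T)).hom)) ≫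
          (Am R (s + 1) ◁ (ρ_ (Am R (σ + 1))).hom) ≫ concG R σ s s' h := by
        rw [cupG_θ, ← h1]
        simp only [Category.assoc]
    _ = (tensorSph k X).inv ≫ ((f ≫ (U.θU (s + 1)).hom) ▷ ((𝟙_ T)⟦k⟧)) ≫
        (Am R (s + 1) ◁ (z ≫ (U.θU (σ + 1)).hom)) ≫ concG R σ s s' h := by
        rw [h2, h3, ← MonoidalCategory.whiskerLeft_comp_assoc,
          Category.assoc, Functor.map_comp]
        simp only [Category.assoc]
        rw [Iso.inv_hom_id_assoc]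
        rfl
    _ = _ := by
        rw [tensorHom_def]
        simp only [Category.assoc]

end Theta

/-! ### A multiplicative family of spheres -/

section Spheres

lemma tensorSph_hom (k : ℤ) (X : T) :
    (tensorSph k X).hom = (csh X k (𝟙_ T)).hom ≫ ((ρ_ X).hom)⟦k⟧' := rfl

@[reassoc]
lemma tensorSph_tensor (l : ℤ) (X Y : T) : (tensorSph l (X ⊗ Y)).hom =
    (α_ X Y _).hom ≫ (X ◁ (tensorSph l Y).hom) ≫ (csh X l Y).hom := by
  rw [tensorSph_hom, tensorSph_hom, MonoidalCategory.whiskerLeft_comp, Category.assoc, csh_nat,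
    ← csh_associator_assoc, ← Functor.map_comp, rightUnitor_tensor_hom]

@[reassoc]
lemma tensorSph_add (k l m : ℤ) (h : k + l = m) (X : T) :
    (X ◁ (shiftFunctorAdd' T k l m h).inv.app (𝟙_ T)) ≫ (tensorSph m X).hom =
      (csh X l ((𝟙_ T)⟦k⟧)).hom ≫ ((tensorSph k X).hom)⟦l⟧' ≫
        (shiftFunctorAdd' T k l m h).inv.app X := by
  have h4 := (tensorLeft X).commShiftIso_add' h
  have h5 : (csh X m (𝟙_ T)).hom = _ := congrArg (fun e => e.hom.app (𝟙_ T)) h4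
  have h6 : (X ◁ (shiftFunctorAdd' T k l m h).inv.app (𝟙_ T)) ≫
      (X ◁ (shiftFunctorAdd' T k l m h).hom.app (𝟙_ T)) = 𝟙 _ := by
    rw [← MonoidalCategory.whiskerLeft_comp, Iso.inv_hom_id_app]
    exact MonoidalCategory.whiskerLeft_id _ _
  have h7 := (shiftFunctorAdd' T k l m h).inv.naturality (ρ_ X).hom
  rw [tensorSph_hom, tensorSph_hom, h5, Functor.CommShift.isoAdd'_hom_app, Functor.map_comp]
  simp only [Category.assoc]
  refine ((reassoc_of% h6) _).trans ?_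
  exact congrArg _ (congrArg _ h7.symm)

@[reassoc]
lemma tensorSph_zero (X : T) : (X ◁ (shiftFunctorZero T ℤ).inv.app (𝟙_ T)) ≫
    (tensorSph 0 X).hom = (ρ_ X).hom ≫ (shiftFunctorZero T ℤ).inv.app X := by
  have h4 := (tensorLeft X).commShiftIso_zero ℤ
  have h5 : (csh X 0 (𝟙_ T)).hom = _ := congrArg (fun e => e.hom.app (𝟙_ T)) h4
  have h6 : (X ◁ (shiftFunctorZero T ℤ).inv.app (𝟙_ T)) ≫
      (X ◁ (shiftFunctorZero T ℤ).hom.app (𝟙_ T)) = 𝟙 _ := by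
    rw [← MonoidalCategory.whiskerLeft_comp, Iso.inv_hom_id_app]
    exact MonoidalCategory.whiskerLeft_id _ _
  have h7 := (shiftFunctorZero T ℤ).inv.naturality (ρ_ X).hom
  rw [tensorSph_hom, h5, Functor.CommShift.isoZero_hom_app]
  simp only [Category.assoc]
  refine ((reassoc_of% h6) _).trans ?_
  exact h7.symm

variable [HasCoproducts.{0} T]

lemma prodSph_hom {w v w' t k t' : ℤ} (a : (stdEven T).S w ≅ (𝟙_ T)⟦t⟧)
    (b : (stdEven T).S v ≅ (𝟙_ T)⟦k⟧) (hw : w + v = w') (ht : t + k = t') :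
    (prodSph a b hw ht).hom = ((stdEven T).mu w v w' hw).inv ≫ (a.hom ⊗ₘ b.hom) ≫
      (tensorSph k ((𝟙_ T)⟦t⟧)).hom ≫ (shiftFunctorAdd' T t k t' ht).inv.app (𝟙_ T) := rfl

lemma prodSph_assoc {w v x wv vx w' t k l tk kl t' : ℤ} (a : (stdEven T).S w ≅ (𝟙_ T)⟦t⟧)
    (b : (stdEven T).S v ≅ (𝟙_ T)⟦k⟧) (c : (stdEven T).S x ≅ (𝟙_ T)⟦l⟧) (h1 : w + v = wv)
    (h2 : wv + x = w') (h3 : v + x = vx) (h4 : w + vx = w') (e1 : t + k = tk) (e2 : tk + l = t')
    (e3 : k + l = kl) (e4 : t + kl = t') :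
    prodSph (prodSph a b h1 e1) c h2 e2 = prodSph a (prodSph b c h3 e3) h4 e4 := by
  ext
  have hm : ((stdEven T).mu wv x w' h2).inv ≫ (((stdEven T).mu w v wv h1).inv ▷ _) ≫
      (α_ _ _ _).hom = ((stdEven T).mu w vx w' h4).inv ≫
        (_ ◁ ((stdEven T).mu v x vx h3).inv) := by
    rw [← cancel_mono (_ ◁ ((stdEven T).mu v x vx h3).hom),
      ← cancel_mono ((stdEven T).mu w vx w' h4).hom]
    simp only [Category.assoc]
    rw [← (stdEven T).mu_assoc w v x wv vx w' h1 h2 h3 h4]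
    simp
  have hs := shiftFunctorAdd'_assoc_inv_app (C := T) t k l tk kl t' e1 e3 (by omega) (𝟙_ T)
  rw [prodSph_hom, prodSph_hom, prodSph_hom, prodSph_hom]
  have e5 : (((stdEven T).mu w v wv h1).inv ≫ (a.hom ⊗ₘ b.hom) ≫
      (tensorSph k ((𝟙_ T)⟦t⟧)).hom ≫ (shiftFunctorAdd' T t k tk e1).inv.app (𝟙_ T)) ⊗ₘ c.hom =
      (((stdEven T).mu w v wv h1).inv ▷ _) ≫ ((a.hom ⊗ₘ b.hom) ⊗ₘ c.hom) ≫
        (((tensorSph k ((𝟙_ T)⟦t⟧)).hom ≫
          (shiftFunctorAdd' T t k tk e1).inv.app (𝟙_ T)) ▷ _) := by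
    rw [← tensorHom_id, ← tensorHom_id, tensorHom_comp_tensorHom, tensorHom_comp_tensorHom,
      Category.id_comp, Category.comp_id]
  have e6 : a.hom ⊗ₘ (((stdEven T).mu v x vx h3).inv ≫ (b.hom ⊗ₘ c.hom) ≫
      (tensorSph l ((𝟙_ T)⟦k⟧)).hom ≫ (shiftFunctorAdd' T k l kl e3).inv.app (𝟙_ T)) =
      (_ ◁ ((stdEven T).mu v x vx h3).inv) ≫ (a.hom ⊗ₘ (b.hom ⊗ₘ c.hom)) ≫
        (_ ◁ (tensorSph l ((𝟙_ T)⟦k⟧)).hom) ≫
        (_ ◁ (shiftFunctorAdd' T k l kl e3).inv.app (𝟙_ T)) := by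
    rw [← id_tensorHom, ← id_tensorHom, ← id_tensorHom, tensorHom_comp_tensorHom,
      tensorHom_comp_tensorHom, tensorHom_comp_tensorHom, Category.id_comp, Category.comp_id,
      Category.comp_id]
  rw [e5, e6]
  simp only [Category.assoc]
  rw [tensorSph_naturality_assoc, tensorSph_add_assoc, ← reassoc_of% hm,
    ← associator_naturality_assoc, tensorSph_tensor_assoc, Functor.map_comp, Category.assoc, hs]

variable (T) in
/-- `S^0 ≅ 𝟙⟦0⟧`. -/
noncomputable def sZero : (stdEven T).S 0 ≅ (𝟙_ T)⟦(0 : ℤ)⟧ :=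
  (stdEven T).zero.symm ≪≫ ((shiftFunctorZero T ℤ).app (𝟙_ T)).symm

lemma prodSph_zero {w t : ℤ} (a : (stdEven T).S w ≅ (𝟙_ T)⟦t⟧) (h : w + 0 = w)
    (e : t + 0 = t) : prodSph a (sZero T) h e = a := by
  ext
  have h1 : a.hom ⊗ₘ (sZero T).hom = (_ ◁ (stdEven T).zero.inv) ≫ (a.hom ▷ 𝟙_ T) ≫
      (_ ◁ (shiftFunctorZero T ℤ).inv.app (𝟙_ T)) := by
    rw [← id_tensorHom, ← id_tensorHom, ← tensorHom_id, tensorHom_comp_tensorHom,
      tensorHom_comp_tensorHom, Category.id_comp, Category.comp_id, Category.id_comp]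
    rfl
  rw [prodSph_hom, h1]
  simp only [Category.assoc]
  rw [reassoc_of% EvenSpheres.mu_inv_zero', tensorSph_zero_assoc, rightUnitor_naturality_assoc,
    Iso.inv_hom_id_assoc, shiftFunctorAdd'_add_zero_inv_app, Iso.inv_hom_id_app]
  exact Category.comp_id _

variable (T) in
/-- The identifications in nonnegative weights. -/
noncomputable def sN : ∀ n : ℕ, (stdEven T).S n ≅ (𝟙_ T)⟦2 * (n : ℤ)⟧
  | 0 => sZero T
  | n + 1 => prodSph (sN n) (sphE T 1) (by push_cast; ring) (by push_cast; ring)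

lemma prodSph_sN (m n r : ℕ) (h : (m : ℤ) + n = r) (e : 2 * (m : ℤ) + 2 * n = 2 * r) :
    prodSph (sN T m) (sN T n) h e = sN T r := by
  induction n generalizing r with
  | zero =>
    obtain rfl : m = r := by omega
    exact prodSph_zero _ h e
  | succ n ih =>
    obtain rfl : r = m + n + 1 := by omega
    have h1 := ih (m + n) (by push_cast; ring) (by push_cast; ring)
    have h2 : sN T (m + n + 1) = prodSph (sN T (m + n)) (sphE T 1) (by push_cast; ring)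
      (by push_cast; ring) := rfl
    rw [h2, ← h1]
    exact (prodSph_assoc _ _ _ _ _ _ _ _ _ _ _).symm

variable (T) in
/-- The multiplicative family of identifications `S^{2w} ≅ 𝟙⟦2w⟧`. -/
noncomputable def sα : ∀ w : ℤ, (stdEven T).S w ≅ (𝟙_ T)⟦2 * w⟧
  | Int.ofNat n => sN T n
  | Int.negSucc n => sphE T (Int.negSucc n)

lemma prodSph_sα {w v w' : ℤ} (hw : 0 ≤ w) (hv : 0 ≤ v) (h : w + v = w')
    (e : 2 * w + 2 * v = 2 * w') : prodSph (sα T w) (sα T v) h e = sα T w' := by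
  obtain ⟨m, rfl⟩ := Int.eq_ofNat_of_zero_le hw
  obtain ⟨n, rfl⟩ := Int.eq_ofNat_of_zero_le hv
  obtain ⟨r, rfl⟩ := Int.eq_ofNat_of_zero_le (show 0 ≤ w' by omega)
  exact prodSph_sN m n r h e

end Spheres

variable [HasCoproducts.{0} T] (D : MUData T) (U : UnitCof D.R)

/-- The cochain of the cobar complex of the sphere. -/
noncomputable def ph (s : ℕ) (w : ℤ) :
    Cob.wt Laz s w →+ ((𝟙_ T)⟦2 * w⟧ ⟶ U.cobar.Q (s + 1) (𝟙_ T)) :=
  AddMonoidHom.mk' (fun z => (sα T w).inv ≫ D.phi U s w z) fun z z' => by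
    rw [map_add, Preadditive.comp_add]

lemma ph_apply (s : ℕ) (w : ℤ) (z : Cob.wt Laz s w) :
    ph D U s w z = (sα T w).inv ≫ D.phi U s w z := rfl

lemma ph_d (s : ℕ) (w : ℤ) (z : Cob.wt Laz s w) :
    ph D U (s + 1) w (Cob.dwt Laz s w z) = ph D U s w z ≫ U.cobar.d (s + 1) (𝟙_ T) := by
  rw [ph_apply, ph_apply, D.phi_d, Category.assoc]

/-- Cup products of cochains. -/
lemma ph_cup {s σ s' : ℕ} (h : s + σ = s') {w v w' : ℤ} (hv : 0 ≤ v) (hw : w + v = w')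
    (e : 2 * w + 2 * v = 2 * w') (x : Cob.wt Laz s w) (y : Cob.wt Laz σ v) :
    ph D U s' w' (cupW h hw x y) =
      sh (2 * w) (2 * v) (2 * w') e (ph D U s w x) ≫ cupS U (ph D U σ v y) s s' h := by
  rcases lt_or_ge w 0 with h0 | h0
  · obtain rfl : x = 0 := Subtype.ext (eq_zero_of_isWt_neg h0 x.2)
    have h1 : cupW h hw 0 y = 0 := Subtype.ext (by
      change cupC h 0 y.1 = 0
      rw [cupC, map_zero, zero_mul])
    rw [h1, map_zero, map_zero, map_zero, zero_comp]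
  have hf := (realizes_iff (M := D) (U := U) (sα T w) x (ph D U s w x)).2 rfl
  have hz := (realizes_iff (M := D) (U := U) (sα T v) y (ph D U σ v y)).2 rfl
  refine ((realizes_iff (M := D) (U := U) (sα T w') (cupW h hw x y) _).1 ?_).symm
  rw [← prodSph_sα h0 hv hw e]
  have h1 : D.ev s' (Cob.map (frontG h) x.1) = HRing.of (stdEven T) (Am D.R (s' + 1)) w
      (((sα T w).hom ≫ ph D U s w x ≫ (U.θU (s + 1)).hom) ≫ Am.map D.R (frontG h)) := by
    rw [← D.ev_map, hf, HRing.map_of]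
  have h2 : D.ev s' (Cob.map (backG h) y.1) = HRing.of (stdEven T) (Am D.R (s' + 1)) v
      (((sα T v).hom ≫ ph D U σ v y ≫ (U.θU (σ + 1)).hom) ≫ Am.map D.R (backG h)) := by
    rw [← D.ev_map, hz, HRing.map_of]
  have h3 : (prodSph (sα T w) (sα T v) hw e).hom ≫ (sh (2 * w) (2 * v) (2 * w') e
      (ph D U s w x) ≫ cupS U (ph D U σ v y) s s' h) ≫ (U.θU (s' + 1)).hom =
      (stdEven T).ext hw ((sα T w).hom ≫ ph D U s w x ≫ (U.θU (s + 1)).hom)
        ((sα T v).hom ≫ ph D U σ v y ≫ (U.θU (σ + 1)).hom) ≫ concG D.R σ s s' h := by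
    have h4 := cupS_conc U (2 * v) σ s s' h (ph D U s w x) (ph D U σ v y)
    rw [prodSph_hom]
    simp only [sh, AddEquiv.coe_mk, Equiv.coe_fn_mk, Category.assoc, Iso.inv_hom_id_app_assoc]
    rw [h4, Iso.hom_inv_id_assoc, EvenSpheres.ext, tensorHom_comp_tensorHom_assoc,
      Category.assoc]
  rw [Realizes]
  change D.ev s' (Cob.map (frontG h) x.1 * Cob.map (backG h) y.1) = _
  rw [map_mul]
  refine (congrArg₂ (· * ·) h1 h2).trans ?_
  refine (of_mul_of hw _ _).trans ?_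
  rw [h3, concG_eq, descM, EvenSpheres.gmul, EvenSpheres.ext_comp, Category.assoc]

/-- The couple of `V`. -/
noncomputable abbrev CC (V : T) : Couple.{v, v} := TC U (𝟙_ T) V

variable {V : T} (i : 𝟙_ T ⟶ V)

/-- The class of a cochain in the `E₁`-term of the tower of `V`. -/
noncomputable def cls {s : ℕ} {n w : ℤ} (h : n + (s : ℤ) = 2 * w) :
    Cob.wt Laz s w →+ (CC D U V).E s n :=
  (eE U (𝟙_ T) h).symm.toAddMonoidHom.comp (AddMonoidHom.mk'
    (fun z => ph D U s w z ≫ U.cobar.Qm (s + 1) i ≫ U.cobar.q s V) fun z z' => by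
      rw [map_add, Preadditive.add_comp])

lemma eE_cls {s : ℕ} {n w : ℤ} (h : n + (s : ℤ) = 2 * w) (z : Cob.wt Laz s w) :
    eE U (𝟙_ T) h (cls D U i h z) = ph D U s w z ≫ U.cobar.Qm (s + 1) i ≫ U.cobar.q s V :=
  AddEquiv.apply_symm_apply _ _

lemma eE_cls' {s : ℕ} {n w : ℤ} (h : n + (s : ℤ) = 2 * w) (z : Cob.wt Laz s w) :
    eE U (𝟙_ T) h (cls D U i h z) =
      ph D U s w z ≫ U.cobar.q s (𝟙_ T) ≫ (D.R ◁ U.cobar.Bm s i) := by
  rw [eE_cls, U.cobar.q_naturality]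

lemma d_cls {s : ℕ} {n m w : ℤ} (hn : n = m + 1) (h : n + (s : ℤ) = 2 * w)
    (h' : m + ((s + 1 : ℕ) : ℤ) = 2 * w) (z : Cob.wt Laz s w) :
    (CC D U V).d s n m hn (cls D U i h z) = cls D U i h' (Cob.dwt Laz s w z) := by
  apply (eE U (𝟙_ T) h').injective
  rw [eE_d hn h h', eE_cls, eE_cls, ph_d, Category.assoc, Category.assoc, Category.assoc,
    ← U.cobar.d_q, U.cobar.d_naturality_assoc]

/-- `g : 𝟙⟦2v⟧ ⟶ B σ V` is represented by the cochain `b`. -/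
def Rep {σ : ℕ} {v : ℤ} (g : (𝟙_ T)⟦2 * v⟧ ⟶ U.cobar.B σ V) (b : Cob.wt Laz σ v) : Prop :=
  g ≫ unitMap D.R _ = ph D U σ v b ≫ U.cobar.Qm (σ + 1) i ≫ U.cobar.q σ V

lemma rep_iff {σ : ℕ} {n v : ℤ} (h : n + (σ : ℤ) = 2 * v) (y : (CC D U V).D σ n)
    (b : Cob.wt Laz σ v) :
    Rep D U i (eD U (𝟙_ T) h y) b ↔ (CC D U V).j σ n y = cls D U i h b := by
  rw [← (eE U (𝟙_ T) h).apply_eq_iff_eq, eE_j, eE_cls, Rep]

lemma two_mul_even {v : ℤ} (hv : 0 ≤ v) : ∃ n : ℕ, 2 * v = 2 * (n : ℤ) :=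
  ⟨v.toNat, by rw [Int.toNat_of_nonneg hv]⟩

variable {D U}

/-- The map of couples given by `g : V⟦2v⟧ ⟶ B σ V'`. -/
noncomputable def mulW {σ : ℕ} {v a : ℤ} (hv : 0 ≤ v) (ha : 2 * v = a + σ) {V' : T}
    (g : V⟦2 * v⟧ ⟶ U.cobar.B σ V') : CMap (CC D U V) (CC D U V') σ a :=
  mulC U (𝟙_ T) (two_mul_even hv) ha g

/-- **Multipliers act by cup products.** -/
theorem mulW_cls {σ : ℕ} {v a : ℤ} (hv : 0 ≤ v) (ha : 2 * v = a + σ) {V' : T} {i' : 𝟙_ T ⟶ V'}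
    (g : V⟦2 * v⟧ ⟶ U.cobar.B σ V') {b : Cob.wt Laz σ v} (hg : Rep D U i' (i⟦2 * v⟧' ≫ g) b)
    {s s' : ℕ} {n n' w w' : ℤ} (hs : s + σ = s') (e : n + a = n') (hw : w + v = w')
    (h : n + (s : ℤ) = 2 * w) (h' : n' + (s' : ℤ) = 2 * w') (z : Cob.wt Laz s w) :
    (mulW hv ha g).fE s s' n n' hs e (cls D U i h z) = cls D U i' h' (cupW hs hw z b) := by
  have e2 : 2 * w + 2 * v = 2 * w' := by omega
  have h1 := cupS_q U (ph D U σ v b ≫ U.cobar.Qm (σ + 1) i') (i⟦2 * v⟧' ≫ g)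
    (by rw [Category.assoc]; exact hg.symm) s s' hs
  apply (eE U (𝟙_ T) h').injective
  rw [mulW, eE_mulC _ ha g hs e h h' e2, eE_cls', eE_cls, ph_cup D U hs hv hw e2, sh_comp,
    Functor.map_comp, Category.assoc, Category.assoc, csh_inv_nat_assoc,
    ← MonoidalCategory.whiskerLeft_comp, ξG_pre, ← h1, cupS, cupS, ← cupG_nat]
  simp only [Category.assoc]

/-! ### Cyclic objects -/

section Cyc

variable {p h₀ : ℕ} {i} (H : Cyc D p h₀ i)

lemma phi_Qm (s : ℕ) (w : ℤ) (z : Cob.wt Laz s w) :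
    D.phi U s w z ≫ U.cobar.Qm (s + 1) i ≫ (U.θ (s + 1) V).hom =
      D.evw s w z ≫ (redC i).app (Am D.R (s + 1)) := by
  rw [U.θ_naturality, D.phi_apply, MUData.qAm, Iso.trans_inv, Category.assoc, Category.assoc,
    Iso.inv_hom_id_assoc]
  rfl

include H

lemma phQ_surj (s : ℕ) (w : ℤ) (c : (𝟙_ T)⟦2 * w⟧ ⟶ U.cobar.Q (s + 1) V) :
    ∃ z : Cob.wt Laz s w, c = ph D U s w z ≫ U.cobar.Qm (s + 1) i := by
  obtain ⟨z, hz⟩ := H.surj s w ((sα T w).hom ≫ c ≫ (U.θ (s + 1) V).hom)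
  refine ⟨z, ?_⟩
  rw [← cancel_mono (U.θ (s + 1) V).hom, ph_apply, Category.assoc, Category.assoc, phi_Qm,
    ← hz, Iso.inv_hom_id_assoc]

lemma phQ_ker (s : ℕ) (w : ℤ) (z : Cob.wt Laz s w) :
    ph D U s w z ≫ U.cobar.Qm (s + 1) i = 0 ↔ z.1 ∈ IC p h₀ s := by
  rw [← H.ker s w z, ← phi_Qm (U := U), ← cancel_mono (U.θ (s + 1) V).hom, zero_comp, ph_apply,
    Category.assoc, Category.assoc, ← cancel_epi (sα T w).hom, Iso.hom_inv_id_assoc, comp_zero]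

lemma Q_odd (s : ℕ) (k : ℤ) (c : (𝟙_ T)⟦2 * k + 1⟧ ⟶ U.cobar.Q (s + 1) V) : c = 0 := by
  rw [← cancel_mono (U.θ (s + 1) V).hom, zero_comp]
  exact H.odd s k _

lemma phQ_d (s : ℕ) (w : ℤ) (z : Cob.wt Laz s w) :
    (ph D U s w z ≫ U.cobar.Qm (s + 1) i) ≫ U.cobar.d (s + 1) V = 0 ↔
      Cob.d s z.1 ∈ IC p h₀ (s + 1) := by
  rw [← Cob.coe_dwt, ← phQ_ker (U := U) H, ph_d, Category.assoc, Category.assoc,
    U.cobar.d_naturality]

lemma cls_eq_zero {s : ℕ} {n w : ℤ} (h : n + (s : ℤ) = 2 * w) {z : Cob.wt Laz s w}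
    (hz : z.1 ∈ IC p h₀ s) : cls D U i h z = 0 := by
  apply (eE U (𝟙_ T) h).injective
  rw [eE_cls, ← Category.assoc, (phQ_ker H s w z).2 hz, zero_comp, map_zero]

lemma cls_congr {s : ℕ} {n w : ℤ} (h : n + (s : ℤ) = 2 * w) {z z' : Cob.wt Laz s w}
    (hz : z.1 - z'.1 ∈ IC p h₀ s) : cls D U i h z = cls D U i h z' := by
  rw [← sub_eq_zero, ← map_sub]
  exact cls_eq_zero H h hz

lemma cls_surj {s : ℕ} {n w : ℤ} (h : n + (s : ℤ) = 2 * w) (e : (CC D U V).E s n) :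
    ∃ z, cls D U i h z = e := by
  obtain ⟨c, hc⟩ := U.cobar.q_surjective (F := homF (𝟭 T) (𝟙_ T) (2 * w)) s V (eE U (𝟙_ T) h e)
  obtain ⟨z, rfl⟩ := phQ_surj H s w c
  refine ⟨z, (eE U (𝟙_ T) h).injective ?_⟩
  rw [eE_cls, ← Category.assoc]
  exact hc

lemma E_odd {s : ℕ} {n k : ℤ} (h : n + (s : ℤ) = 2 * k + 1) (e : (CC D U V).E s n) : e = 0 := by
  obtain ⟨c, hc⟩ := U.cobar.q_surjective (F := homF (𝟭 T) (𝟙_ T) (2 * k + 1)) s V
    (eE U (𝟙_ T) h e)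
  obtain rfl : c = 0 := Q_odd H s k c
  exact (eE U (𝟙_ T) h).injective (hc.symm.trans ((map_zero _).trans (map_zero _).symm))

lemma isCocycle_cls {s : ℕ} {n w : ℤ} (h : n + (s : ℤ) = 2 * w) {z : Cob.wt Laz s w}
    (hz : Cob.d s z.1 ∈ IC p h₀ (s + 1)) : (CC D U V).IsCocycle (cls D U i h z) := by
  intro m hm
  rw [d_cls D U i hm h (by push_cast; omega)]
  exact cls_eq_zero H _ hz

lemma exists_cocycle {s : ℕ} {n w : ℤ} (h : n + (s : ℤ) = 2 * w) (e : (CC D U V).E s n)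
    (he : (CC D U V).IsCocycle e) :
    ∃ z : Cob.wt Laz s w, Cob.d s z.1 ∈ IC p h₀ (s + 1) ∧ cls D U i h z = e := by
  have h2 : (n - 1) + ((s + 1 : ℕ) : ℤ) = 2 * w := by push_cast; omega
  have h4 := eE_d (by ring) h h2 e
  rw [he (n - 1) (by ring), map_zero] at h4
  obtain ⟨c, hc, hc'⟩ := U.cobar.exists_cocycle (F := homF (𝟭 T) (𝟙_ T) (2 * w)) s V
    (eE U (𝟙_ T) h e) h4.symm
  obtain ⟨z, rfl⟩ := phQ_surj H s w c
  refine ⟨z, (phQ_d H s w z).1 hc, (eE U (𝟙_ T) h).injective ?_⟩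
  rw [eE_cls, ← Category.assoc]
  exact hc'

end Cyc

/-- `z` is a coboundary modulo `I_h`. -/
def ACob (p h : ℕ) : ∀ {s : ℕ}, ℤ → Cob Laz s → Prop
  | 0, _, z => z ∈ IC p h 0
  | s + 1, w, z => ∃ y : Cob Laz s, Cob.IsWt w y ∧ z - Cob.d s y ∈ IC p h (s + 1)

section Cyc

variable {p h₀ : ℕ} {i} (H : Cyc D p h₀ i)

include H

lemma null_of_aCob {s : ℕ} {n w : ℤ} (h : n + (s : ℤ) = 2 * w) {z : Cob.wt Laz s w}
    (hz : ACob p h₀ w z.1) : Null (CC D U V) (s - 1) (cls D U i h z) := by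
  cases s with
  | zero =>
    rw [cls_eq_zero H h hz]
    exact Null.zero le_rfl
  | succ s =>
    obtain ⟨y, hy, hz⟩ := hz
    have h1 : n + 1 + (s : ℤ) = 2 * w := by push_cast at h; omega
    refine null_of_isCobdy (s := s) ⟨cls D U i h1 ⟨y, hy⟩, ?_⟩
    rw [d_cls D U i rfl h1 h]
    exact (cls_congr H h (z := z) (z' := Cob.dwt Laz s w ⟨y, hy⟩) hz).symm

lemma aCob_of_null {s : ℕ} {n w : ℤ} (h : n + (s : ℤ) = 2 * w) {z : Cob.wt Laz s w}
    (hd : Cob.d s z.1 ∈ IC p h₀ (s + 1)) (hz : Null (CC D U V) (s - 1) (cls D U i h z)) :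
    ACob p h₀ w z.1 := by
  cases s with
  | zero =>
    obtain ⟨_, c, hc, hj⟩ := hz
    rw [Couple.proj_self] at hc
    have h1 := eE_cls D U i h z
    rw [← hj, hc, map_zero, map_zero, CobarData.q_zero, Category.comp_id] at h1
    exact (phQ_ker H 0 w z).1 h1.symm
  | succ s =>
    obtain ⟨e, he⟩ := isCobdy_of_null (s := s) hz
    have h1 : n + 1 + (s : ℤ) = 2 * w := by push_cast at h; omega
    have h2 := eE_d rfl h1 h e
    rw [he, eE_cls, ← Category.assoc] at h2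
    obtain ⟨c, hc, -⟩ := U.cobar.exists_cobdy (F := homF (𝟭 T) (𝟙_ T) (2 * w)) s V
      (ph D U (s + 1) w z ≫ U.cobar.Qm (s + 2) i) ((phQ_d H (s + 1) w z).2 hd) _ h2
    obtain ⟨y, rfl⟩ := phQ_surj H s w c
    refine ⟨y.1, y.2, ?_⟩
    refine (phQ_ker (U := U) H (s + 1) w (z - Cob.dwt Laz s w y)).1 ?_
    rw [map_sub, Preadditive.sub_comp, ph_d, Category.assoc, ← U.cobar.d_naturality,
      ← Category.assoc, sub_eq_zero]
    exact hc.symm

lemma van_of_alg {s : ℕ} {m : ℤ}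
    (hA : ∀ w, m + ((s + 1 : ℕ) : ℤ) = 2 * w → AlgVan p h₀ (s + 1) w) : (CC D U V).Van s m := by
  intro b hb
  rcases Int.even_or_odd' (m + ((s + 1 : ℕ) : ℤ)) with ⟨w, hw | hw⟩
  · obtain ⟨z, hz, rfl⟩ := exists_cocycle H hw b hb
    exact isCobdy_of_null (null_of_aCob H hw (hA w hw z.1 z.2 hz))
  · rw [E_odd H hw b]
    exact ⟨0, map_zero _⟩

end Cyc

/-- The right cup product with `b` is injective on `H^s (Cob Laz / I_h)_w`. -/
def AInj (p h h' : ℕ) {σ : ℕ} (b : Cob Laz σ) (v : ℤ) (s : ℕ) (w : ℤ) : Prop :=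
  ∀ z : Cob Laz s, Cob.IsWt w z → Cob.d s z ∈ IC p h (s + 1) →
    ACob p h' (w + v) (Cob.cup z b) → ACob p h w z

/-- The right cup product with `b` is surjective from `H^s (Cob Laz / I_h)_w`. -/
def ASurj (p h h' : ℕ) {σ : ℕ} (b : Cob Laz σ) (v : ℤ) (s : ℕ) (w : ℤ) : Prop :=
  ∀ c : Cob Laz (s + σ), Cob.IsWt (w + v) c → Cob.d (s + σ) c ∈ IC p h' (s + σ + 1) →
    ∃ z : Cob Laz s, Cob.IsWt w z ∧ Cob.d s z ∈ IC p h (s + 1) ∧
      ACob p h' (w + v) (c - Cob.cup z b)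

section

variable {i} {p h₀ h₁ : ℕ} (H : Cyc D p h₀ i) {V' : T} {i' : 𝟙_ T ⟶ V'} (H' : Cyc D p h₁ i')
  {σ : ℕ} {v a : ℤ} (ha : 2 * v = a + σ) (f : CMap (CC D U V) (CC D U V') σ a)
  {b : Cob.wt Laz σ v}

variable (i i') in
/-- The map of couples `f` acts by the cup product with `b`. -/
def Acts (f : CMap (CC D U V) (CC D U V') σ a) (b : Cob.wt Laz σ v) : Prop :=
  ∀ (s s' : ℕ) (n n' w w' : ℤ) (hs : s + σ = s') (e : n + a = n') (hw : w + v = w')
    (h : n + (s : ℤ) = 2 * w) (h' : n' + (s' : ℤ) = 2 * w') (z : Cob.wt Laz s w),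
    f.fE s s' n n' hs e (cls D U i h z) = cls D U i' h' (cupW hs hw z b)

lemma acts_mulW (hv : 0 ≤ v) (g : V⟦2 * v⟧ ⟶ U.cobar.B σ V')
    (hg : Rep D U i' (i⟦2 * v⟧' ≫ g) b) : Acts i i' (mulW hv ha g) b :=
  fun _ _ _ _ _ _ hs e hw h h' z => mulW_cls i hv ha g hg hs e hw h h' z

variable {f}

include H H' ha

lemma Acts.inj (hf : Acts i i' f b) {t : ℕ} {m : ℤ}
    (hd : ∀ z : Cob Laz t, Cob.d t z ∈ IC p h₀ (t + 1) →
      Cob.d (t + σ) (Cob.cup z b.1) ∈ IC p h₁ (t + σ + 1))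
    (hA : ∀ w, m + (t : ℤ) = 2 * w → AInj p h₀ h₁ b.1 v t w) : f.Inj t m := by
  intro t' m' ht e x hx hn
  subst ht
  rcases Int.even_or_odd' (m + (t : ℤ)) with ⟨w, hw | hw⟩
  · obtain ⟨z, hz, rfl⟩ := exists_cocycle H hw x hx
    have h' : m' + ((t + σ : ℕ) : ℤ) = 2 * (w + v) := by push_cast; omega
    rw [hf t _ m m' w _ rfl e rfl hw h' z] at hn
    exact null_of_aCob H hw (hA w hw z.1 z.2 hz (aCob_of_null H' h' (hd z.1 hz) hn))
  · rw [E_odd H hw x]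
    exact Null.zero (by omega)

lemma Acts.surj (hf : Acts i i' f b) {s : ℕ} {n : ℤ}
    (hA : ∀ w, n + (s : ℤ) = 2 * w → ASurj p h₀ h₁ b.1 v s w) : f.Surj s n := by
  intro s' n' hs e x hx
  subst hs
  rcases Int.even_or_odd' (n + (s : ℤ)) with ⟨w, hw | hw⟩
  · have h' : n' + ((s + σ : ℕ) : ℤ) = 2 * (w + v) := by push_cast; omega
    obtain ⟨c, hc, rfl⟩ := exists_cocycle H' h' x hx
    obtain ⟨z, hz, hd, hA⟩ := hA w hw c.1 c.2 hc
    refine ⟨cls D U i hw ⟨z, hz⟩, isCocycle_cls H hw hd, ?_⟩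
    rw [hf s _ n n' w _ rfl e rfl hw h', ← map_sub]
    exact null_of_aCob H' h' hA
  · have h' : n' + ((s + σ : ℕ) : ℤ) = 2 * (w + v) + 1 := by push_cast; omega
    refine ⟨0, isCocycle_zero, ?_⟩
    rw [E_odd H' h' x, map_zero, sub_zero]
    exact Null.zero (by omega)

end

section Conn

variable [MonoidalClosed T] [IsTriangulated T] [HasProducts.{0} T] [StableCat T]

/-- Vanishing of the homotopy of the high stages of the tower. -/
theorem CC_D_eq_zero (hV : BigCell T 0 V) {s : ℕ} {m : ℤ} (hm : m < s)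
    (y : (CC D U V).D s m) : y = 0 := by
  have h2 : BigCell T (2 * s) (U.cobar.B s V) := bigCell_B U s hV _ (by ring)
  have h3 : Conn (2 * (s : ℤ)) (U.cobar.B s V) :=
    h2.conn D.conn_unit fun Y k f => StableCat.compact k Y f
  exact h3 (m + s) (by omega) y

end Conn

end Vale.Agent.P236K.SS
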