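import Vale.Agent.P236K.SS.Swap
import Vale.Agent.P257.H820.Push
import Vale.Agent.P257.H712.LeibV
import Vale.Agent.P257.H766.NPack

/-!
# P236K, block SS: the Leibniz rule for two classes which support differentials

* `leib0`: the rule in filtration zero, for arbitrary test objects;
* `dif_emul`: the rule for the composition product `TC P Y × TC Y Z ⟶ TC P Z`;
* `Dif.mul`: the rule for the cup product of cochains.
-/

open CategoryTheory MonoidalCategory Limits Pretriangulated MonObj Opposite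

set_option linter.unusedSectionVars false

universe v u u₁ v₁ u₂ v₂

namespace Vale.Agent.P236K.SS

open Vale.Agent.P251 Vale.Agent.P251.T Vale.Agent.P251.S Vale.Agent.P257.H712
  Vale.Agent.P257.H820

section DW

variable {C : Couple.{u₁, v₁}} {C' : Couple.{u₂, v₂}}

/-- `c` witnesses a differential on `x`. -/
def DW {s t : ℕ} {n m : ℤ} (x : C.E s n) (c : C.D t m) : Prop :=
  ∃ (hn : n = m + 1) (h : s + 1 ≤ t), C.proj m h c = C.k s n m hn x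

lemma dif_iff {s t : ℕ} {m : ℤ} {x : C.E s (m + 1)} {z : C.E t m} :
    Dif x z ↔ ∃ c, DW x c ∧ C.j t m c = z :=
  ⟨fun ⟨h, c, h1, h2⟩ => ⟨c, ⟨rfl, h, h1⟩, h2⟩, fun ⟨c, ⟨_, h, h1⟩, h2⟩ => ⟨h, c, h1, h2⟩⟩

lemma CMap.dw {σ : ℕ} {a : ℤ} (f : CMap C C' σ a) {s t s' t' : ℕ} {n m n' m' : ℤ}
    (hs : s + σ = s') (ht : t + σ = t') (e : n + a = n') (e' : m + a = m') {x : C.E s n}
    {c : C.D t m} (h : DW x c) : DW (f.fE s s' n n' hs e x) (f.fD t t' m m' ht e' c) := by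
  obtain ⟨hn, h1, hy⟩ := h
  refine ⟨by omega, by omega, ?_⟩
  rw [f.proj_f e' (by omega) ht h1, hy, f.k_f s s' n n' m m' hs (by omega) e e' hn]

lemma CMap.dw_reflect {σ : ℕ} {a : ℤ} (f : CMap C C' σ a) {s t s' t' : ℕ} {n m n' m' : ℤ}
    (hs : s + σ = s') (ht : t + σ = t') (e : n + a = n') (e' : m + a = m') {x : C.E s n}
    {c : C.D t m} (hf : ∀ h, Function.Injective (f.fD (s + 1) (s' + 1) m m' h e'))
    (h : DW (f.fE s s' n n' hs e x) (f.fD t t' m m' ht e' c)) : DW x c := by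
  obtain ⟨hn, h1, hy⟩ := h
  refine ⟨by omega, by omega, hf (by omega) ?_⟩
  rw [← f.proj_f e' (by omega) ht (by omega) h1, hy,
    f.k_f s s' n n' m m' hs (by omega) e e' (by omega)]

lemma DW.isCocycle {s t : ℕ} {n m : ℤ} {x : C.E s n} {c : C.D t m} (h : DW x c)
    (h2 : s + 2 ≤ t) : C.IsCocycle x := by
  obtain ⟨rfl, h1, hy⟩ := h
  exact Dif.isCocycle ⟨h1, c, hy, rfl⟩ h2

end DW

variable {T : Type u} [Category.{v} T] [Preadditive T] [HasZeroObject T] [HasShift T ℤ]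
  [∀ n : ℤ, (shiftFunctor T n).Additive] [Pretriangulated T] [MonoidalCategory T]
  [SymmetricCategory T] [TensorTriangulated T] {R : T} [MonObj R] {U : UnitCof R}

section Link

variable {F : UFib R} (L : Link U F) {P : T}

variable (P) in
/-- The comparison, with values in `Hom (-, (IB s A)⟦1⟧)`. -/
noncomputable def toI (s : ℕ) (A : T) (m n : ℤ) (h : m + 1 = n) :
    (TC U P A).D s m ≃+ (P⟦n⟧ ⟶ (IB F.I s A)⟦(1 : ℤ)⟧) :=
  (L.ΦB P s A m (m + (s : ℤ)) rfl).trans (sh m 1 n h)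

lemma toI_apply (s : ℕ) (A : T) (m n : ℤ) (h : m + 1 = n) (y : (TC U P A).D s m) :
    toI L P s A m n h y = sh m 1 n h (L.ΦB P s A m (m + (s : ℤ)) rfl y) := rfl

lemma toI_i (s : ℕ) (A : T) (m n : ℤ) (h : m + 1 = n) (y : (TC U P A).D (s + 1) m) :
    toI L P s A m n h ((TC U P A).i s m y) =
      toI L P (s + 1) A m n h y ≫ (IBc F.ε s A)⟦(1 : ℤ)⟧' := by
  rw [toI_apply, toI_apply, ← sh_comp]
  congr 1
  exact L.ΦB_i s A m (m + (s : ℤ)) (m + ((s + 1 : ℕ) : ℤ)) rfl (by push_cast; ring) rfl y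

lemma toI_proj (r : ℕ) (A : T) (m n : ℤ) (h : m + 1 = n) (y : (TC U P A).D (r + 1) m) :
    toI L P 1 A m n h ((TC U P A).proj m (Nat.le_add_left 1 r) y) =
      toI L P (r + 1) A m n h y ≫ (IBcol F.ε r (F.I ⊗ A))⟦(1 : ℤ)⟧' := by
  induction r with
  | zero =>
    rw [Couple.proj_self, IBcol_zero]
    exact (congrArg _ (CategoryTheory.Functor.map_id _ _)).trans (Category.comp_id _) |>.symm
  | succ r ih =>
    rw [Couple.proj_succ _ _ (Nat.le_add_left 1 r), ih, toI_i, Category.assoc]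
    congr 1
    rw [← Functor.map_comp, ← IBc_col]
    rfl

lemma toI_k (A : T) (m n : ℤ) (h : n = m + 1) (x : (TC U P A).E 0 n) :
    toI L P 1 A m n h.symm ((TC U P A).k 0 n m h x) =
      -(eE U P (add_zero_nat n) x ≫ F.bI A) := by
  subst h
  have h1 := eD_k (U := U) (P := P) (n := m + 1) (m := m) (s := 0) (t := m + 1) rfl
    (add_zero_nat _) (by push_cast; ring) x
  have h2 : ∀ y : P⟦m + ((1 : ℕ) : ℤ)⟧ ⟶ U.J ⊗ A,
      sh m 1 (m + 1) rfl (L.ΦB P 1 A m (m + ((1 : ℕ) : ℤ)) rfl y) =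
      cst P (U.J ⊗ A) (show m + ((1 : ℕ) : ℤ) = m + 1 by push_cast; ring) y ≫
        (L.χ A).hom := by
    intro y
    rw [Link.ΦB_succ, AddEquiv.apply_symm_apply, Link.ψ_hom, csI_zero_hom, IBm_zero,
      Category.comp_id]
    rfl
  have h4 : ∀ x' : P⟦m + 1⟧ ⟶ R ⊗ A, (x' ≫ (U.ρ ▷ A)) ≫ (L.χ A).hom = -(x' ≫ F.bI A) := by
    intro x'
    rw [Category.assoc, L.ρ_χ, Preadditive.comp_neg]
  refine (h2 _).trans ?_
  exact (congrArg (fun z : P⟦m + 1⟧ ⟶ U.J ⊗ A => z ≫ (L.χ A).hom) h1).trans (h4 _)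

lemma dw_iff {r : ℕ} {A : T} {m n : ℤ} (h : m + 1 = n) (x : (TC U P A).E 0 n)
    (y : (TC U P A).D (r + 1) m) : DW x y ↔ eE U P (add_zero_nat n) x ≫ F.bI A =
      (-(toI L P (r + 1) A m n h y)) ≫ (IBcol F.ε r (F.I ⊗ A))⟦(1 : ℤ)⟧' := by
  rw [Preadditive.neg_comp, ← toI_proj, ← neg_eq_iff_eq_neg, ← toI_k L A m n h.symm,
    (toI L P 1 A m n h).apply_eq_iff_eq]
  exact ⟨fun ⟨_, _, h⟩ => h.symm, fun h' => ⟨h.symm, _, h'.symm⟩⟩

end Link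

lemma oc_neg' {P X Z Y : T} {n k m : ℤ} (h : n + k = m) (x : P⟦n⟧ ⟶ X ⊗ Z) (g : Z⟦k⟧ ⟶ Y) :
    oc h x (-g) = -oc h x g := by
  have h1 : X ◁ (-g) = -(X ◁ g) := (tensorLeft X).map_neg
  rw [oc, oc, h1, Preadditive.comp_neg, Preadditive.comp_neg]

/-- **The Leibniz rule in filtration zero.** -/
theorem leib0 [IsTriangulated T] {r : ℕ} (hr : 3 ≤ r) {P X A : T} {n M N mf me kf ke : ℤ}
    (hN : n + M = N) (f : (TC U X A).E 0 M) (cf : (TC U X A).D r mf) (hf : DW f cf)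
    (v : P⟦n⟧ ⟶ R ⊗ X) (x : (TC U P (X⟦M⟧)).E 0 N) (cx : (TC U P (X⟦M⟧)).D r me)
    (hx : DW x cx) (hv : eE U P (add_zero_nat N) x = oc hN v (𝟙 _))
    (hkf : mf + (r : ℤ) = kf) (hke : me + (r : ℤ) = ke) (hoc : n + kf = ke) :
    ∃ (z : (TC U P A).E 0 N) (e : (TC U P A).D r me), DW z e ∧
      eE U P (add_zero_nat N) z = oc hN v (eE U X (add_zero_nat M) f) ≫ mulMap R A ∧
      eD U P hke e ≫ unitMap R _ = oc hoc v (eD U X hkf cf) + eD U P hke cx ≫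
        U.cobar.Bm r (eE U X (add_zero_nat M) f) ≫ mvB U R r A := by
  subst hkf hke
  obtain ⟨F, ⟨L⟩⟩ := exists_link U
  obtain ⟨q, rfl⟩ : ∃ q, r = q + 1 + 1 := ⟨r - 2, by omega⟩
  obtain ⟨Pk⟩ := P257.H766.exists_npack F q (by omega)
  have hmf : mf + 1 = M := hf.1.symm
  have hme : me + 1 = N := hx.1.symm
  have hx1 := (dw_iff L hme x cx).1 hx
  have ha : ∀ W : T, uN (𝟙 (𝟙_ T)) W ≫ (λ_ W).hom = 𝟙 W := fun W => by
    rw [uN, id_whiskerRight, Category.comp_id, Iso.inv_hom_id]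
  generalize hf' : eE U X (add_zero_nat M) f = f'
  have hf1 := (dw_iff L hmf f cf).1 hf
  rw [hf'] at hf1
  have h3 : ∀ {Y : T} (g : X⟦M⟧ ⟶ Y), oc hN v (𝟙 _) ≫ (R ◁ g) = oc hN v g := fun g => by
    rw [← oc_comp, Category.id_comp]
  obtain ⟨e, he1, he2⟩ := Pk.leibnizV (𝟙 _) (λ_ A).hom (ha A) f' _ hf1 (oc hN v (𝟙 _))
    ((-(toI L P (q + 1 + 1) _ me N hme cx)) ≫ (IBm F.I (q + 2) (uN (𝟙 _) _))⟦(1 : ℤ)⟧') (by
      rw [Category.assoc, F.bI_nat, ← hv, reassoc_of% hx1, Category.assoc, ← Functor.map_comp,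
        ← Functor.map_comp, IBm_succ, IBcol_nat])
  have h5 : uN (𝟙 (𝟙_ T)) (X⟦M⟧) ≫ (𝟙_ T ◁ f') ≫ sw (𝟙_ T) R A ≫ (R ◁ (λ_ A).hom) = f' :=
    NPack.uN_extV (𝟙 _) _ (ha A) f'
  rw [← Category.assoc _ (R ◁ f'), h3] at he1
  rw [h3, Category.assoc _ _ (_ ≫ _), ← Functor.map_comp_assoc, ← IBm_comp, h5, oc_neg',
    Preadditive.neg_comp, Preadditive.neg_comp, ← neg_add] at he2
  obtain ⟨y, hy⟩ := (toI L P (q + 1 + 1) A me N hme).surjective (-e)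
  refine ⟨(eE U P (add_zero_nat N)).symm (oc hN v f' ≫ mulMap R A), y, ?_,
    AddEquiv.apply_symm_apply _ _, ?_⟩
  · rw [dw_iff L hme, hy, neg_neg, AddEquiv.apply_symm_apply, he1]
  · apply (L.ΦR P (q + 1 + 1) A me (me + ((q + 1 + 1 : ℕ) : ℤ)) rfl).injective
    apply (sh me 1 N hme).injective
    have h6 : ∀ cf : X⟦mf + ((q + 1 + 1 : ℕ) : ℤ)⟧ ⟶ U.cobar.B (q + 1 + 1) A,
        sh me 1 N hme (L.ΦR P (q + 1 + 1) A me (me + ((q + 1 + 1 : ℕ) : ℤ)) rfl (oc hoc v cf)) =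
        oc hN v (sh mf 1 M hmf
          (L.ΦB X (q + 1 + 1) A mf (mf + ((q + 1 + 1 : ℕ) : ℤ)) rfl cf)) ≫
            (csh R 1 _).hom := fun cf => by
      rw [L.ΦR_oc (q + 1 + 1) A rfl (show n + mf = me by omega) rfl v cf,
        oc_sh (show n + mf = me by omega) hmf hme]
    have h8 : sh me 1 N hme (L.ΦB P (q + 1 + 1) A me
        (me + ((q + 1 + 1 : ℕ) : ℤ)) rfl (eD U P rfl y)) = -e := hy
    rw [L.ΦR_un, sh_comp, map_add, map_add, h6, ← Category.assoc (eD U P rfl cx), L.ΦR_mv,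
      L.ΦB_nat, sh_comp, sh_comp, Category.assoc, h8, Preadditive.neg_comp, he2, neg_neg]
    rfl

/-! ### Moving to filtration zero -/

/-- Application of `B s`. -/
lemma exists_dw_B (s : ℕ) {Y Z : T} {r : ℕ} {n m t : ℤ} (ht : m + (r : ℤ) = t)
    (x : (TC U Y Z).E 0 n) (c : (TC U Y Z).D r m) (h : DW x c) :
    ∃ (x' : (TC U (U.cobar.B s Y) (U.cobar.B s Z)).E 0 n)
      (c' : (TC U (U.cobar.B s Y) (U.cobar.B s Z)).D r m), DW x' c' ∧
      eE U _ (add_zero_nat n) x' =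
        U.κB n s Y ≫ U.cobar.Bm s (eE U Y (add_zero_nat n) x) ≫ mvB U R s Z ∧
      eD U _ ht c' = U.κB t s Y ≫ U.cobar.Bm s (eD U Y ht c) ≫ swp U s r Z := by
  induction s generalizing Y Z with
  | zero =>
    exact ⟨x, c, h, ((Category.id_comp _).trans (Category.comp_id _)).symm,
      ((Category.id_comp _).trans (Category.comp_id _)).symm⟩
  | succ s ih =>
    obtain ⟨x', c', h1, h2, h3⟩ := ih _ _ ((tensC U U.J Y Z).dw (s' := 0) (t' := r) rfl rfl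
      (add_zero n) (add_zero m) h)
    refine ⟨x', c', h1, h2.trans ?_, h3.trans ?_⟩
    · have h4 : R ◁ inB U U.J 0 Z = 𝟙 _ := MonoidalCategory.whiskerLeft_id _ _
      rw [eE_tensC, h4, Category.comp_id, UnitCof.κB_succ, mvB_succ, CobarData.Bm_comp,
        CobarData.Bm_comp]
      simp only [Category.assoc]
      rfl
    · rw [eD_tensC, UnitCof.κB_succ, swp_succ, CobarData.Bm_comp, CobarData.Bm_comp]
      simp only [Category.assoc]
      rfl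

/-- Reindexing. -/
lemma exists_dw_zero {Y Z : T} {σ r τ : ℕ} (hτ : r + σ = τ) {a b k k' m : ℤ}
    (hk : a + (σ : ℤ) = k) (hk' : b + (τ : ℤ) = k') (hm : m + (r : ℤ) = k')
    (x : (TC U Y Z).E σ a) (c : (TC U Y Z).D τ b) (h : DW x c) :
    ∃ (x' : (TC U Y (U.cobar.B σ Z)).E 0 k) (c' : (TC U Y (U.cobar.B σ Z)).D r m), DW x' c' ∧
      eE U Y (add_zero_nat k) x' = eE U Y hk x ∧
      eD U Y hm c' ≫ eB U.cobar σ r τ hτ Z = eD U Y hk' c := by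
  have ha : (0 : ℤ) = -σ + σ := by ring
  refine ⟨(eE U Y (add_zero_nat k)).symm (eE U Y hk x),
    (eD U Y hm).symm (eD U Y hk' c ≫ inv (eB U.cobar σ r τ hτ Z)), ?_,
    AddEquiv.apply_symm_apply _ _, by simp⟩
  refine (mul0 U Y ha (𝟙 (U.cobar.B σ Z))).dw_reflect (Nat.zero_add σ) hτ
    (show k + -σ = a by omega) (show m + -σ = b by omega) (fun h y y' hy => ?_) ?_
  · have h1 := congrArg (eD U Y (show b + ((σ + 1 : ℕ) : ℤ) = m + ((0 + 1 : ℕ) : ℤ) by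
      push_cast; omega)) hy
    rw [eD_mul0 ha _ h _ rfl, eD_mul0 ha _ h _ rfl, CobarData.Bm_id, Category.id_comp,
      cancel_mono] at h1
    exact (eD U Y rfl).injective h1
  · convert h using 1
    · apply (eE U Y hk).injective
      rw [eE_mul0 ha _ _ _ (add_zero_nat k), AddEquiv.apply_symm_apply, eB_zero_left]
      simp
    · apply (eD U Y hk').injective
      rw [eD_mul0 ha _ _ _ hm, AddEquiv.apply_symm_apply]
      simp

/-! ### The composition product -/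

@[reassoc]
lemma mvB_eB (X : T) (s r t : ℕ) (h : r + s = t) (W : T) :
    eB U.cobar s r t h (X ⊗ W) ≫ mvB U X t W = U.cobar.Bm r (mvB U X s W) ≫
      mvB U X r (U.cobar.B s W) ≫ (X ◁ eB U.cobar s r t h W) := by
  induction s generalizing W t with
  | zero =>
    obtain rfl : r = t := h
    have h1 : U.cobar.Bm r (mvB U X 0 W) = 𝟙 _ := U.cobar.Bm_id _ _
    have h2 : X ◁ eB U.cobar 0 r r rfl W = 𝟙 _ := MonoidalCategory.whiskerLeft_id _ _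
    rw [h1, h2, eB_zero, Category.comp_id]
  | succ s ih =>
    obtain ⟨t, rfl⟩ : ∃ r, t = r + 1 := ⟨t - 1, by omega⟩
    have h' : r + s = t := by omega
    have h1 := reassoc_of% eB_nat U.cobar s r t h' (sw U.J X W)
    rw [mvB_succ, mvB_succ, CobarData.Bm_comp, Category.assoc]
    refine (h1 _).symm.trans ?_
    exact congrArg _ (ih t h' (U.J ⊗ W))

variable (U) in
/-- The product with a class of the `E₁`-term. -/
noncomputable def eMul {k : ℤ} {σ : ℕ} {Y Z : T} (x : Y⟦k⟧ ⟶ R ⊗ U.cobar.B σ Z) (s s' : ℕ)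
    (h : s + σ = s') : (R ⊗ U.cobar.B s Y)⟦k⟧ ⟶ R ⊗ U.cobar.B s' Z :=
  (csh R k _).inv ≫ (R ◁ (U.κB k s Y ≫ U.cobar.Bm s x ≫ mvB U R s _)) ≫ mulMap R _ ≫
    (R ◁ eB U.cobar σ s s' h Z)

variable (U) in
/-- The product with a class of the `E₁`-term, on the couples. -/
noncomputable def emul (P : T) {k a : ℤ} {σ : ℕ} (ha : k = a + σ) {Y Z : T}
    (x : Y⟦k⟧ ⟶ R ⊗ U.cobar.B σ Z) (s s' : ℕ) (n n' : ℤ) (h : s + σ = s') (e : n + a = n') :
    (TC U P Y).E s n →+ (TC U P Z).E s' n' :=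
  (eE U P rfl).symm.toAddMonoidHom.comp
    ((shc (eMul U x s s' h) _ _ (TMor.deg ha h e)).comp (eE U P rfl).toAddMonoidHom)

lemma eE_emul {P : T} {k a : ℤ} {σ : ℕ} (ha : k = a + σ) {Y Z : T}
    (x : Y⟦k⟧ ⟶ R ⊗ U.cobar.B σ Z) {s s' : ℕ} {n n' t t' : ℤ} (h : s + σ = s') (e : n + a = n')
    (h1 : n + (s : ℤ) = t) (h2 : n' + (s' : ℤ) = t') (ht : t + k = t') (y : (TC U P Y).E s n) :
    eE U P h2 (emul U P ha x s s' n n' h e y) = sh t k t' ht (eE U P h1 y) ≫ eMul U x s s' h := by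
  subst h1 h2
  rfl

/-- **The Leibniz rule for the composition product.** -/
theorem dif_emul [IsTriangulated T] {r : ℕ} (hr : 3 ≤ r) {P Y Z : T} {s t σ τ s' t' : ℕ}
    (ht : s + r = t) (hτ : σ + r = τ) (hs' : s + σ = s') (ht' : t + σ = t') (ht'' : s + τ = t')
    {n m a b k k' m' : ℤ} (hk : ∃ j : ℕ, k = 2 * (j : ℤ)) (hk' : ∃ j : ℕ, k' = 2 * (j : ℤ))
    (ha : k = a + σ) (hb : k' = b + τ) {y : (TC U P Y).E s n} {cy : (TC U P Y).D t m}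
    (hy : DW y cy) {x : (TC U Y Z).E σ a} {cx : (TC U Y Z).D τ b} (hx : DW x cx)
    (e1 : n + a = m' + 1) (e2 : m + a = m') (e3 : n + b = m') :
    Dif (emul U P ha (eE U Y ha.symm x) s s' n (m' + 1) hs' e1 y)
      (emul U P ha (eE U Y ha.symm x) t t' m m' ht' e2 ((TC U P Y).j t m cy) +
        ((-1 : ℤ) ^ (s * r)) • (mulC U P hk' hb (eD U Y hb.symm cx)).fE s t' n m' ht'' e3 y) := by
  have hn : n = m + 1 := hy.1
  have hab : a = b + 1 := hx.1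
  have hτ' : r + σ = τ := by omega
  have ht₀ : r + s = t := by omega
  have hm : k - 1 + (r : ℤ) = k' := by omega
  have hm₀ : n + s - 1 + (r : ℤ) = m + t := by omega
  obtain ⟨x₀, c₀, h₀, hx₀, hc₀⟩ := exists_dw_zero hτ' ha.symm hb.symm hm x cx hx
  obtain ⟨x₁, c₁, h₁, hx₁, hc₁⟩ := exists_dw_B s hm x₀ c₀ h₀
  obtain ⟨y₀, d₀, g₀, hy₀, hd₀⟩ := exists_dw_zero ht₀ rfl rfl hm₀ y cy hy
  have hk0 : k = k + ((0 : ℕ) : ℤ) := (add_zero_nat k).symm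
  have hN : n + s + k = m' + 1 + s' := by omega
  have hme : n + s - 1 + k = m' + s' := by omega
  have hke : m' + s' + (r : ℤ) = m' + t' := by omega
  have hoc : n + s + k' = m' + t' := by omega
  have hcy : m + t + k = m' + t' := by omega
  have g₁ := (mulC U P hk hk0 (Z := (U.cobar.B s Y)⟦k⟧) (𝟙 _)).dw (s' := 0) (t' := r) rfl rfl
    hN hme g₀
  obtain ⟨z, e, hze, hz, he⟩ := leib0 hr hN x₁ c₁ h₁ (eE U P rfl y) _ _ g₁ (by
    rw [eE_mulC hk hk0 _ _ _ (add_zero_nat _) _ hN, ξG_zero, hy₀]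
    rfl) hm hke hoc
  have h0 : (0 : ℤ) = -s' + s' := by ring
  have hrs : r + s' = t' := by omega
  have g₂ := (mul0 U P h0 (eB U.cobar σ s s' hs' Z)).dw (Nat.zero_add s') hrs
    (show m' + 1 + s' + -s' = m' + 1 by ring) (show m' + s' + -s' = m' by ring) hze
  have h1 : (mul0 U P h0 (eB U.cobar σ s s' hs' Z)).fE 0 s' _ (m' + 1) (Nat.zero_add s')
      (show m' + 1 + s' + -s' = m' + 1 by ring) z =
      emul U P ha (eE U Y ha.symm x) s s' n (m' + 1) hs' e1 y := by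
    apply (eE U P rfl).injective
    rw [eE_mul0 h0 _ _ _ (add_zero_nat _), eE_emul ha _ _ _ rfl rfl hN, hz, hx₁, hx₀,
      eB_zero_left, Category.comp_id, oc, eMul]
    simp only [Category.assoc]
    rfl
  rw [h1] at g₂
  refine (dif_iff.2 ⟨_, g₂, rfl⟩).of_null_target (Null.mono (r := t' - 1) (by omega) ?_)
  refine null_of_cb rfl _ ?_
  have hco := (mulC U P hk' hb (eD U Y hb.symm cx)).isCocycle ht'' e3
    (hy.isCocycle (by omega)) (m' - 1) (by ring)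
  have hco' := eE_d (by ring) rfl (show m' - 1 + ((t' + 1 : ℕ) : ℤ) = m' + t' by
    push_cast; ring) ((mulC U P hk' hb (eD U Y hb.symm cx)).fE s t' n m' ht'' e3 y)
  rw [hco, map_zero] at hco'
  have h2 : eE U P rfl ((mulC U P hk' hb (eD U Y hb.symm cx)).fE s t' n m' ht'' e3 y) =
      oc hoc (eE U P rfl y) (U.κB k' s Y ≫ U.cobar.Bm s (eD U Y hm c₀)) ≫
        (R ◁ (eB U.cobar r s t ht _ ≫ eB U.cobar σ t t' ht' Z)) := by
    rw [eE_mulC hk' hb _ _ _ rfl rfl hoc, ← oc_comp, eB_assoc U.cobar σ r τ s t t' hτ' ht ht' ht'',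
      ξG, ← hc₀, CobarData.Bm_comp, oc]
    simp only [Category.assoc]
  have h3 := (((sr_swp (U := U) s r t ht ht₀ _).reindex σ ht') _ _ (by
    rw [← h2]; exact hco'.symm)).2.zsmul (-1)
  have h4 : eE U P rfl (emul U P ha (eE U Y ha.symm x) t t' m m' ht' e2 ((TC U P Y).j t m cy)) =
      sh _ k _ hcy (eD U P rfl cy) ≫ U.κB k t Y ≫ U.cobar.Bm t (eE U Y ha.symm x) ≫
        mvB U R t _ ≫ (R ◁ eB U.cobar σ t t' ht' Z) := by
    rw [eE_emul ha _ _ _ rfl rfl hcy, eE_j, sh_comp, eMul, Category.assoc, ← unitMap_csh_assoc,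
      Iso.hom_inv_id_assoc, ← unitMap_nat_assoc, unitMap_mulMap_assoc]
    simp only [Category.assoc]
  have h5 := eB_assoc U.cobar σ s s' r t t' hs' ht₀ ht' hrs Z
  convert h3 using 1
  rw [map_sub, map_add, map_zsmul, h2, h4, eE_j, eD_mul0 h0 _ _ _ hke, ← h5, Category.assoc,
    unitMap_nat, reassoc_of% he, Preadditive.add_comp, hc₁, hx₁, hx₀,
    eD_mulC hk hk0 _ _ _ hm₀ hke hcy, ← hd₀, sh_comp, Category.assoc, κB_eB_assoc,
    ← eB_nat_assoc, mvB_eB_assoc, ξG, eB_zero, CobarData.Bm_id]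
  simp only [oc, MonoidalCategory.whiskerLeft_comp, CobarData.Bm_comp, Category.assoc,
    Category.comp_id, neg_smul, one_smul]
  abel

/-! ### Cochains -/

lemma cupG_q' {C : Type u} [Category.{v} C] [Preadditive C] (K : CobarData C) {Y' : C}
    (σ s s' : ℕ) (h : s + σ = s') {Y : C} (z : Y' ⟶ K.Q (σ + 1) Y) :
    cupG K σ s s' h z ≫ K.q s' Y = K.Qm s (K.M.map (z ≫ K.q σ Y) ≫ K.mu (K.B σ Y)) ≫
      K.q s (K.B σ Y) ≫ K.M.map (eB K σ s s' h Y) := by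
  induction σ generalizing Y s' with
  | zero =>
    obtain rfl : s = s' := h
    rw [cupG_zero, eB_zero, CategoryTheory.Functor.map_id, CobarData.q_zero, Category.comp_id,
      Category.comp_id]
  | succ σ ih =>
    obtain ⟨s', rfl⟩ : ∃ r, s' = r + 1 := ⟨s' - 1, by omega⟩
    have h' : s + σ = s' := by omega
    have h1 := cupG_nat K σ s s' h' (Y := K.M.obj Y) z (K.ρ Y)
    have h2 := ih s' h' (Y := K.G.obj Y) (z ≫ K.Qm (σ + 1) (K.ρ Y))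
    rw [← h1, Category.assoc, Category.assoc] at h2
    exact h2

/-- Cocycles are primitive. -/
lemma prim_of_cocycle {Q Z : T} {σ : ℕ} (x : Q ⟶ R ⊗ U.cobar.B σ Z)
    (hx : x ≫ U.cobar.D σ Z = 0) :
    x ≫ unitMap R (R ⊗ U.cobar.B σ Z) = x ≫ (R ◁ unitMap R (U.cobar.B σ Z)) := by
  have h1 : x ≫ U.cobar.D 0 (U.cobar.B σ Z) = 0 := by
    have h2 := k_eB U.cobar σ 0 σ (Nat.zero_add σ) (Nat.add_comm 1 σ) Z
    rw [eB_zero_left, CategoryTheory.Functor.map_id, Category.id_comp] at h2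
    rw [CobarData.D, ← h2, Category.assoc, U.cobar.un_nat, ← Category.assoc,
      ← Category.assoc] at hx
    have h3 : IsIso (U.cobar.M.map (eB U.cobar σ (0 + 1) (σ + 1) (Nat.add_comm 1 σ) Z)) :=
      inferInstance
    rw [CobarData.D, ← Category.assoc]
    exact (cancel_mono _).1 (hx.trans zero_comp.symm)
  obtain ⟨a, ha, rfl⟩ : ∃ a : Q ⟶ U.cobar.Q 1 (U.cobar.B σ Z),
      a ≫ U.cobar.d 1 (U.cobar.B σ Z) = 0 ∧ a ≫ U.cobar.q 0 (U.cobar.B σ Z) = x :=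
    U.cobar.exists_cocycle (F := preadditiveCoyoneda.obj (op Q)) 0 _ x h1
  rw [CobarData.d_succ, Preadditive.comp_add, pow_succ, pow_zero, _root_.one_mul, neg_smul, one_smul,
    Preadditive.comp_neg, add_neg_eq_zero] at ha
  rw [CobarData.q_zero, Category.comp_id]
  exact ha

lemma eMul_pre {k : ℤ} {σ : ℕ} {X Y Z : T} (f : X ⟶ Y) (x : Y⟦k⟧ ⟶ R ⊗ U.cobar.B σ Z)
    (s s' : ℕ) (h : s + σ = s') :
    (R ◁ U.cobar.Bm s f)⟦k⟧' ≫ eMul U x s s' h = eMul U (f⟦k⟧' ≫ x) s s' h := by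
  rw [eMul, eMul, csh_inv_nat_assoc, ← MonoidalCategory.whiskerLeft_comp_assoc, U.κB_nat_assoc,
    CobarData.Bm_comp_assoc]

lemma q_eMul {k : ℤ} {σ : ℕ} {Y Z : T} (z : Y⟦k⟧ ⟶ U.cobar.Q (σ + 1) Z)
    (hz : (z ≫ U.cobar.q σ Z) ≫ U.cobar.D σ Z = 0) (s s' : ℕ) (h : s + σ = s') :
    (U.cobar.q s Y)⟦k⟧' ≫ eMul U (z ≫ U.cobar.q σ Z) s s' h =
      cupS U z s s' h ≫ U.cobar.q s' Z := by
  have h1 := prim_q U _ (prim_of_cocycle _ hz) s
  rw [cupS, Category.assoc, cupG_q', reassoc_of% h1, U.κQ_q_assoc, eMul,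
    MonoidalCategory.whiskerLeft_comp, Category.assoc]

end Vale.Agent.P236K.SS

namespace Vale.Agent.P236K.SS

open Vale.Agent.P251 Vale.Agent.P251.T Vale.Agent.P251.F Vale.Agent.P251.I
  Vale.Agent.P251.M Vale.Agent.P257.H314 Vale.Agent.P257.H712 Vale.Agent.P251.H
  Vale.Agent.P257.H820
open Vale.Agent.P251.S hiding IC

variable {T : Type u} [Category.{v} T] [Preadditive T] [HasZeroObject T] [HasShift T ℤ]
  [∀ n : ℤ, (shiftFunctor T n).Additive] [Pretriangulated T] [MonoidalCategory T]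
  [SymmetricCategory T] [TensorTriangulated T] [HasCoproducts.{0} T] {D : MUData T}
  {U : UnitCof D.R}

/-- The product with a class of `E₁` which restricts to the class of a cocycle. -/
lemma emul_cls {Y V' : T} (i : 𝟙_ T ⟶ Y) (i' : 𝟙_ T ⟶ V') {σ : ℕ} {v a : ℤ} (hv : 0 ≤ v)
    (ha : 2 * v = a + σ) (x : Y⟦2 * v⟧ ⟶ D.R ⊗ U.cobar.B σ V') {b : Cob.wt Laz σ v}
    (hx : i⟦2 * v⟧' ≫ x = eE U (𝟙_ T) ha.symm (cls D U i' ha.symm b))
    (hb : (CC D U V').IsCocycle (cls D U i' ha.symm b))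
    {s s' : ℕ} {n n' w w' : ℤ} (hs : s + σ = s') (e : n + a = n') (hw : w + v = w')
    (h : n + (s : ℤ) = 2 * w) (h' : n' + (s' : ℤ) = 2 * w') (z : Cob.wt Laz s w) :
    emul U (𝟙_ T) ha x s s' n n' hs e (cls D U i h z) = cls D U i' h' (cupW hs hw z b) := by
  have e2 : 2 * w + 2 * v = 2 * w' := by omega
  have h1 := eE_d (by ring) ha.symm (show a - 1 + ((σ + 1 : ℕ) : ℤ) = 2 * v by
    push_cast; omega) (cls D U i' ha.symm b)
  rw [hb (a - 1) (by ring), map_zero, eE_cls, ← Category.assoc (ph D U σ v b)] at h1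
  rw [eE_cls, ← Category.assoc] at hx
  apply (eE U (𝟙_ T) h').injective
  rw [eE_emul ha x hs e h h' e2, eE_cls', eE_cls, ph_cup D U hs hv hw e2, sh_comp,
    Functor.map_comp, Category.assoc, Category.assoc, eMul_pre, hx, q_eMul _ h1.symm, cupS, cupS,
    ← cupG_nat]
  simp only [Category.assoc]

/-- The extension of a class over a unital action. -/
lemma exists_dw_ext {R : T} [MonObj R] {U : UnitCof R} {V V' : T} (i : 𝟙_ T ⟶ V)
    (ac : V ⊗ V' ⟶ V') (hac : uN i V' ≫ ac = 𝟙 V') {σ τ : ℕ} {a b k k' : ℤ}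
    (ha : a + (σ : ℤ) = k) (hb : b + (τ : ℤ) = k') {x : (TC U (𝟙_ T) V').E σ a}
    {c : (TC U (𝟙_ T) V').D τ b} (h : DW x c) :
    ∃ (x' : (TC U (V ⊗ 𝟙_ T) V').E σ a) (c' : (TC U (V ⊗ 𝟙_ T) V').D τ b), DW x' c' ∧
      (uN i (𝟙_ T))⟦k⟧' ≫ eE U _ ha x' = eE U _ ha x ∧
      (uN i (𝟙_ T))⟦k'⟧' ≫ eD U _ hb c' = eD U _ hb c := by
  refine ⟨_, _, (mapC U _ ac).dw (s' := σ) (t' := τ) rfl rfl (add_zero a) (add_zero b)
    ((tensC U V (𝟙_ T) V').dw (s' := σ) (t' := τ) rfl rfl (add_zero a) (add_zero b) h), ?_, ?_⟩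
  · rw [eE_mapE, eE_tensC, ← uN_csh, Category.assoc, Category.assoc, Iso.hom_inv_id_assoc,
      Category.assoc, ← uN_nat_assoc, Category.assoc, uN_sw_assoc,
      ← MonoidalCategory.whiskerLeft_comp, ← MonoidalCategory.whiskerLeft_comp, uN_inB_assoc,
      ← CobarData.Bm_comp, hac, CobarData.Bm_id, MonoidalCategory.whiskerLeft_id,
      Category.comp_id]
  · rw [eD_mapD, eD_tensC, ← uN_csh, Category.assoc, Category.assoc, Iso.hom_inv_id_assoc,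
      Category.assoc, ← uN_nat_assoc, uN_inB_assoc, ← CobarData.Bm_comp, hac, CobarData.Bm_id,
      Category.comp_id]

lemma comp_rightUnitor_inv {V : T} (i : 𝟙_ T ⟶ V) : i ≫ (ρ_ V).inv = uN i (𝟙_ T) := by
  rw [uN, rightUnitor_inv_naturality, unitors_inv_equal]

/-- **The Leibniz rule for cup products**, for an action `ac : V ⊗ V' ⟶ V'`. -/
theorem dif_cup [IsTriangulated T] {V V' : T} {i : 𝟙_ T ⟶ V} {i' : 𝟙_ T ⟶ V'}
    (ac : V ⊗ V' ⟶ V') (hac : uN i V' ≫ ac = 𝟙 V') {r : ℕ} (hr : 3 ≤ r) {s t σ τ s' t' : ℕ}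
    (ht : s + r = t) (hτ : σ + r = τ) (hs' : s + σ = s') (ht' : t + σ = t') (ht'' : s + τ = t')
    {m b m' w₀ w₁ v₀ v₁ u₀ u₁ : ℤ} (hv₀ : 0 ≤ v₀) (hv₁ : 0 ≤ v₁)
    (e₀ : w₀ + v₀ = u₀) (e₁ : w₁ + v₀ = u₁) (e₂ : w₀ + v₁ = u₁)
    {g₀ : m + 1 + (s : ℤ) = 2 * w₀} {g₁ : m + (t : ℤ) = 2 * w₁}
    {f₀ : b + 1 + (σ : ℤ) = 2 * v₀} {f₁ : b + (τ : ℤ) = 2 * v₁}
    (k₀ : m' + 1 + (s' : ℤ) = 2 * u₀) (k₁ : m' + (t' : ℤ) = 2 * u₁)
    {y : Cob.wt Laz s w₀} {y' : Cob.wt Laz t w₁} {x : Cob.wt Laz σ v₀} {x' : Cob.wt Laz τ v₁}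
    (hy : Dif (cls D U i g₀ y) (cls D U i g₁ y')) (hx : Dif (cls D U i' f₀ x) (cls D U i' f₁ x')) :
    Dif (cls D U i' k₀ (cupW hs' e₀ y x))
      (cls D U i' k₁ (cupW ht' e₁ y' x + ((-1 : ℤ) ^ (s * r)) • cupW ht'' e₂ y x')) := by
  have hy1 := Dif.mapE (ρ_ V).inv hy
  rw [mapE_cls, mapE_cls, comp_rightUnitor_inv] at hy1
  obtain ⟨cy, hcy, hjy⟩ := dif_iff.1 hy1
  obtain ⟨cx, hcx, hjx⟩ := dif_iff.1 hx
  obtain ⟨x₁, c₁, h₁, hx₁, hc₁⟩ := exists_dw_ext i ac hac f₀ f₁ hcx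
  have hco := hx.isCocycle (by omega)
  have h := dif_emul hr ht hτ hs' ht' ht'' (m' := m') (two_mul_even hv₀) (two_mul_even hv₁)
    f₀.symm f₁.symm hcy h₁ (by omega) (by omega) (by omega)
  rw [hjy, emul_cls _ i' hv₀ f₀.symm _ hx₁ hco hs' _ e₀ g₀ k₀,
    emul_cls _ i' hv₀ f₀.symm _ hx₁ hco ht' _ e₁ g₁ k₁] at h
  have h2 := mulW_cls (uN i (𝟙_ T)) hv₁ f₁.symm (eD U _ f₁ c₁) (b := x') (i' := i') (by
    rw [hc₁]
    exact (rep_iff D U i' f₁ cx x').2 hjx) ht'' (show m + 1 + b = m' by omega) e₂ g₀ k₁ y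
  rw [map_add, map_zsmul, ← h2]
  exact h

/-- The couple of the sphere acts on every couple. -/
lemma uN_unit (V : T) : uN (𝟙 (𝟙_ T)) V ≫ (λ_ V).hom = 𝟙 V := by
  rw [uN, id_whiskerRight, Category.comp_id, Iso.inv_hom_id]

/-- A differential of the sphere gives a differential of `V`. -/
lemma Dif.of_sphere {V : T} (i : 𝟙_ T ⟶ V) {s t : ℕ} {m w₀ w₁ : ℤ}
    {g₀ : m + 1 + (s : ℤ) = 2 * w₀} {g₁ : m + (t : ℤ) = 2 * w₁} {y : Cob.wt Laz s w₀}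
    {y' : Cob.wt Laz t w₁} (hy : Dif (cls D U (𝟙 _) g₀ y) (cls D U (𝟙 _) g₁ y')) :
    Dif (cls D U i g₀ y) (cls D U i g₁ y') := by
  have hy1 := Dif.mapE i hy
  rwa [mapE_cls, mapE_cls, Category.id_comp] at hy1

section Moore

variable [MonoidalClosed T] [IsTriangulated T] [HasProducts.{0} T] [StableCat T]
  {p : ℕ} [Fact p.Prime] (hp : p ≠ 2) {M : T} {i : 𝟙_ T ⟶ M} {δ : M ⟶ (𝟙_ T)⟦(1 : ℤ)⟧}
  (hM : Dist ((p : ℤ) • 𝟙 (𝟙_ T)) i δ)

include hM hp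

variable (D) in
include D in
/-- The Moore object has a unital product. -/
lemma exists_prod_M : ∃ ac : M ⊗ M ⟶ M, uN i M ≫ ac = 𝟙 M := by
  have h1 : Dist (M ◁ ((p : ℤ) • 𝟙 (𝟙_ T))) (M ◁ i) _ := dist_whiskerLeft M hM
  have h2 : M ◁ ((p : ℤ) • 𝟙 (𝟙_ T)) = (p : ℤ) • (M ◁ 𝟙 (𝟙_ T)) :=
    (tensorLeft M).map_zsmul
  obtain ⟨a, ha⟩ := h1.desc₂ (ρ_ M).hom (by
    rw [h2, MonoidalCategory.whiskerLeft_id, Preadditive.zsmul_comp, Category.id_comp,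
      ← Category.comp_id (ρ_ M).hom, ← Preadditive.comp_zsmul, kil_M D hp hM, comp_zero])
  refine ⟨(β_ M M).hom ≫ a, ?_⟩
  rw [uN, Category.assoc, BraidedCategory.braiding_naturality_left_assoc, ha,
    braiding_rightUnitor, Iso.inv_hom_id]

/-- **The Leibniz rule in the couple of the Moore object.** -/
theorem Dif.mul {r : ℕ} (hr : 3 ≤ r) {s t σ τ s' t' : ℕ}
    (ht : s + r = t) (hτ : σ + r = τ) (hs' : s + σ = s') (ht' : t + σ = t') (ht'' : s + τ = t')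
    {m b m' w₀ w₁ v₀ v₁ u₀ u₁ : ℤ} (hv₀ : 0 ≤ v₀) (hv₁ : 0 ≤ v₁)
    (e₀ : w₀ + v₀ = u₀) (e₁ : w₁ + v₀ = u₁) (e₂ : w₀ + v₁ = u₁)
    {g₀ : m + 1 + (s : ℤ) = 2 * w₀} {g₁ : m + (t : ℤ) = 2 * w₁}
    {f₀ : b + 1 + (σ : ℤ) = 2 * v₀} {f₁ : b + (τ : ℤ) = 2 * v₁}
    (k₀ : m' + 1 + (s' : ℤ) = 2 * u₀) (k₁ : m' + (t' : ℤ) = 2 * u₁)
    {y : Cob.wt Laz s w₀} {y' : Cob.wt Laz t w₁} {x : Cob.wt Laz σ v₀} {x' : Cob.wt Laz τ v₁}
    (hy : Dif (cls D U i g₀ y) (cls D U i g₁ y')) (hx : Dif (cls D U i f₀ x) (cls D U i f₁ x')) :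
    Dif (cls D U i k₀ (cupW hs' e₀ y x))
      (cls D U i k₁ (cupW ht' e₁ y' x + ((-1 : ℤ) ^ (s * r)) • cupW ht'' e₂ y x')) := by
  obtain ⟨ac, hac⟩ := exists_prod_M D hp hM
  exact dif_cup ac hac hr ht hτ hs' ht' ht'' hv₀ hv₁ e₀ e₁ e₂ k₀ k₁ hy hx

end Moore

end Vale.Agent.P236K.SS
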