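import Vale.Agent.P236K.SS.Cross
import Vale.Agent.P257.H762.Alpha

/-!
# P236K, block SS: the differential `d₉` on a multiple of `α₁`

`L9`: in the couple of the Moore object at the prime three, if `d x = y t₁` and `d₅ y = z t₁`, then
`x t₁` supports a differential which is four steps longer, with target `± z b₀ + e t₁`.
-/

open CategoryTheory MonoidalCategory Limits Pretriangulated MonObj

set_option linter.unusedSectionVars false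

universe v u

namespace Vale.Agent.P236K.SS

open Vale.Agent.P251 Vale.Agent.P251.T Vale.Agent.P251.F Vale.Agent.P251.I
  Vale.Agent.P251.M Vale.Agent.P257.H314 Vale.Agent.P257.H712 Vale.Agent.P251.H
open Vale.Agent.P251.S hiding IC

/-! ### Cochains -/

section Alg

variable {N : Type} [CommRing N] [LawRing N]

lemma cupC_one_one (x y : Cob N 1) : cupC (s' := 2) rfl x y =
    Cob.map (Fin.succAbove (2 : Fin 3)) x * Cob.map (Fin.succAbove (0 : Fin 3)) y := by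
  have h1 : frontG (s := 1) (σ := 1) (s' := 2) rfl = Fin.succAbove (2 : Fin 3) := by
    funext i
    fin_cases i <;> rfl
  have h2 : backG (s := 1) (σ := 1) (s' := 2) rfl = Fin.succAbove (0 : Fin 3) := by
    funext i
    fin_cases i <;> rfl
  rw [cupC, h1, h2]

lemma d_one_eq (x : Cob N 1) : Cob.d 1 x = Cob.map (Fin.succAbove (0 : Fin 3)) x -
    Cob.map (Fin.succAbove (1 : Fin 3)) x + Cob.map (Fin.succAbove (2 : Fin 3)) x := by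
  rw [Cob.d_apply, Fin.sum_univ_three]
  simp only [Fin.val_zero, pow_zero, one_smul, Fin.val_one, pow_one, neg_smul, Fin.val_two,
    even_two, Even.neg_pow, one_pow]
  ring

/-- The anticommutativity of the cup product of cochains of degree one. -/
lemma d_mul_one (x y : Cob N 1) :
    cupC (s' := 2) rfl x y + cupC (s' := 2) rfl y x + Cob.d 1 (x * y) =
      Cob.map (Fin.succAbove (1 : Fin 3)) x * Cob.d 1 y +
        (Cob.map (Fin.succAbove (2 : Fin 3)) y + Cob.map (Fin.succAbove (0 : Fin 3)) y) *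
          Cob.d 1 x := by
  rw [cupC_one_one, cupC_one_one, d_one_eq, d_one_eq, d_one_eq, map_mul, map_mul, map_mul]
  ring

lemma cupC_add_left {s σ s' : ℕ} (h : s + σ = s') (x x' : Cob N s) (y : Cob N σ) :
    cupC h (x + x') y = cupC h x y + cupC h x' y := by
  rw [cupC, cupC, cupC, map_add, add_mul]

lemma cupC_add_right {s σ s' : ℕ} (h : s + σ = s') (x : Cob N s) (y y' : Cob N σ) :
    cupC h x (y + y') = cupC h x y + cupC h x y' := by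
  rw [cupC, cupC, cupC, map_add, mul_add]

lemma cupC_sub_left {s σ s' : ℕ} (h : s + σ = s') (x x' : Cob N s) (y : Cob N σ) :
    cupC h (x - x') y = cupC h x y - cupC h x' y := by
  rw [cupC, cupC, cupC, map_sub, sub_mul]

lemma cupC_sub_right {s σ s' : ℕ} (h : s + σ = s') (x : Cob N s) (y y' : Cob N σ) :
    cupC h x (y - y') = cupC h x y - cupC h x y' := by
  rw [cupC, cupC, cupC, map_sub, mul_sub]

lemma cupC_zsmul_left {s σ s' : ℕ} (h : s + σ = s') (c : ℤ) (x : Cob N s) (y : Cob N σ) :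
    cupC h (c • x) y = c • cupC h x y := by
  rw [cupC, cupC, map_zsmul, smul_mul_assoc]

lemma cupC_one_left {σ : ℕ} (h : 0 + σ = σ) (y : Cob N σ) : cupC h 1 y = y := by
  have h1 : backG h = id := by
    funext k
    apply Fin.ext
    simp [backG]
  rw [cupC, map_one, _root_.one_mul, h1, Cob.map_id]

lemma d_zero_one : Cob.d 0 (1 : Cob N 0) = 0 := by
  rw [Cob.d_apply, Fin.sum_univ_two, map_one, map_one]
  simp

lemma bcls_three (t : Cob Laz 1) :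
    bcls 3 t = cupC (s' := 2) rfl t (t ^ 2) + cupC (s' := 2) rfl (t ^ 2) t := by
  have h : Finset.Ioo 0 3 = {1, 2} := by decide
  rw [bcls, h, Finset.sum_pair (by decide)]
  simp only [cupC_rfl]
  norm_num [Nat.choose]

lemma p_mem_IC {p h : ℕ} (hh : 1 ≤ h) (s : ℕ) : (p : Cob Laz s) ∈ IC p h s := by
  have h1 := vv_mem_Ih (p := p) (h := h) (i := 0) (by omega) Laz.univ
  rw [vv_zero] at h1
  have h2 := Ideal.mem_map_of_mem (MvPolynomial.C : Laz →+* Cob Laz s) h1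
  rwa [map_natCast] at h2

lemma d_sq_mem {h : ℕ} (hh : 1 ≤ h) {t : Cob Laz 1} (ht : Cob.d 1 t = 0) :
    Cob.d 1 (t ^ 2) - cupC (s' := 2) rfl t t ∈ IC 3 h 2 := by
  have h1 := d_mul_one t t
  rw [ht, mul_zero, mul_zero, add_zero] at h1
  have h2 : Cob.d 1 (t ^ 2) - cupC (s' := 2) rfl t t =
      ((3 : ℕ) : Cob Laz 2) * (-cupC (s' := 2) rfl t t) := by
    rw [pow_two]
    push_cast
    linear_combination h1
  rw [h2]
  exact Ideal.mul_mem_right _ _ (p_mem_IC hh 2)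

end Alg

variable {T : Type u} [Category.{v} T] [Preadditive T] [HasZeroObject T] [HasShift T ℤ]
  [∀ n : ℤ, (shiftFunctor T n).Additive] [Pretriangulated T] [MonoidalCategory T]
  [SymmetricCategory T] [TensorTriangulated T] [HasCoproducts.{0} T] {D : MUData T}
  {U : UnitCof D.R}

/-- The suspension is bijective on `E₁`. -/
lemma mulW_id_bij {V : T} {v a : ℤ} (hv : 0 ≤ v) (ha : 2 * v = a + (0 : ℕ)) (s : ℕ) (n n' : ℤ)
    (e : n + a = n') : Function.Bijective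
      ((mulW (D := D) (U := U) (σ := 0) hv ha (𝟙 (V⟦2 * v⟧))).fE s s n n' rfl e) := by
  have e2 : n + (s : ℤ) + 2 * v = n' + (s : ℤ) := by push_cast at ha; omega
  have h1 : IsIso (ξG U (σ := 0) (𝟙 (V⟦2 * v⟧)) s s rfl) := by
    rw [ξG]
    infer_instance
  have key : ∀ y, eE U (𝟙_ T) rfl ((mulW (D := D) (U := U) (σ := 0) hv ha
      (𝟙 (V⟦2 * v⟧))).fE s s n n' rfl e y) = sh _ _ _ e2 (eE U (𝟙_ T) rfl y) ≫
        (csh D.R (2 * v) (U.cobar.B s V)).inv ≫ (D.R ◁ ξG U (σ := 0) (𝟙 (V⟦2 * v⟧)) s s rfl) :=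
    fun y => eE_mulC _ ha _ rfl e rfl rfl e2 y
  constructor
  · intro y y' h
    have h2 := (key y).symm.trans ((congrArg _ h).trans (key y'))
    rw [cancel_mono] at h2
    exact (eE U (𝟙_ T) rfl).injective ((sh _ _ _ e2).injective h2)
  · intro x
    refine ⟨(eE U (𝟙_ T) rfl).symm ((sh _ _ _ e2).symm (eE U (𝟙_ T) rfl x ≫
      inv ((csh D.R (2 * v) (U.cobar.B s V)).inv ≫
        (D.R ◁ ξG U (σ := 0) (𝟙 (V⟦2 * v⟧)) s s rfl)))), (eE U (𝟙_ T) rfl).injective ?_⟩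
    rw [key, AddEquiv.apply_symm_apply, AddEquiv.apply_symm_apply, Category.assoc,
      IsIso.inv_hom_id, Category.comp_id]

/-- The data of a model of `V ⊗ C α₁`. -/
structure AData (D : MUData T) (U : UnitCof D.R) {V : T} (i : 𝟙_ T ⟶ V) (t : Cob.wt Laz 1 2) where
  /-- the object -/
  W : T
  /-- the bottom part -/
  ι : V ⟶ W
  /-- the top part -/
  π : W ⟶ V⟦2 * (2 : ℤ)⟧
  /-- the generator on the top cell -/
  ε : V⟦2 * (2 : ℤ)⟧ ⟶ D.R ⊗ W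
  /-- the extension of `α₁` -/
  δ : W⟦2 * (2 : ℤ)⟧ ⟶ U.cobar.B 1 V
  zero : ι ≫ π = 0
  ses : SES (mapC U (𝟙_ T) ι) (mapC U (𝟙_ T) π)
  ε_π : (i⟦2 * (2 : ℤ)⟧' ≫ ε) ≫ (D.R ◁ π) = -(i⟦2 * (2 : ℤ)⟧' ≫ unitMap D.R _)
  ε_d : (i⟦2 * (2 : ℤ)⟧' ≫ ε) ≫ U.cobar.d 1 W = ph D U 1 2 t ≫ U.cobar.Qm 2 (i ≫ ι)
  rep : Rep D U i ((i ≫ ι)⟦2 * (2 : ℤ)⟧' ≫ δ) t

lemma two_nonneg : (0 : ℤ) ≤ 2 := by norm_num

namespace AData

variable {V : T} {i : 𝟙_ T ⟶ V} {t : Cob.wt Laz 1 2} (A : AData D U i t)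

/-- The product with the generator on the top cell. -/
noncomputable abbrev top {s : ℕ} {n w w' : ℤ} (hw : w + 2 = w') (h : n + (s : ℤ) = 2 * w') :
    Cob.wt Laz s w →+ (CC D U A.W).E s n :=
  clsZ D U (σ := 0) (i⟦2 * (2 : ℤ)⟧' ≫ A.ε) rfl hw h

/-- The suspension. -/
noncomputable abbrev sus (D : MUData T) (U : UnitCof D.R) (V : T) :
    CMap (CC D U V) (CC D U (V⟦2 * (2 : ℤ)⟧)) 0 4 :=
  mulW (σ := 0) two_nonneg (by norm_num) (𝟙 (V⟦2 * (2 : ℤ)⟧))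

/-- The extension of `α₁`. -/
noncomputable abbrev del : CMap (CC D U A.W) (CC D U V) 1 3 :=
  mulW two_nonneg (by norm_num) A.δ

lemma π_top {s : ℕ} {n n' w w' : ℤ} (hw : w + 2 = w') (e : n + 4 = n')
    (h : n + (s : ℤ) = 2 * w) (h' : n' + (s : ℤ) = 2 * w') (z : Cob.wt Laz s w) :
    mapE A.π (A.top hw h' z) = -(sus D U V).fE s s n n' rfl e (cls D U i h z) := by
  rw [mapE_clsZ, mulW_cls' (σ := 0) (s' := s) two_nonneg _ i (𝟙 _)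
    (i⟦2 * (2 : ℤ)⟧' ≫ unitMap D.R _)
    (by rw [CobarData.q_zero, Category.comp_id, Category.comp_id]) rfl e hw h h', ← clsZ_neg,
    ← A.ε_π]
  rfl

lemma del_ι {s s' : ℕ} {n n' w w' : ℤ} (hs : s + 1 = s') (hw : w + 2 = w') (e : n + 3 = n')
    (h : n + (s : ℤ) = 2 * w) (h' : n' + (s' : ℤ) = 2 * w') (z : Cob.wt Laz s w) :
    A.del.fE s s' n n' hs e (mapE A.ι (cls D U i h z)) = cls D U i h' (cupW hs hw z t) := by
  rw [mapE_cls]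
  exact mulW_cls (i ≫ A.ι) two_nonneg _ A.δ A.rep hs e hw h h' z

variable {h₀ : ℕ} (H : Cyc D 3 h₀ i)

include H

lemma d_top {s : ℕ} {n m w w' : ℤ} (hn : n = m + 1) (hw : w + 2 = w')
    (h : n + (s : ℤ) = 2 * w') (h' : m + ((s + 1 : ℕ) : ℤ) = 2 * w') {z : Cob.wt Laz s w}
    (hz : Cob.d s z.1 ∈ IC 3 h₀ (s + 1)) :
    (CC D U A.W).d s n m hn (A.top hw h z) =
      (-1 : ℤ) ^ s • mapE A.ι (cls D U i h' (cupW rfl hw z t)) := by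
  rw [d_clsZ _ hn hw h h', clsZ_eq_zero H (σ := 0) A.ε rfl hw h' hz, zero_add, A.ε_d,
    clsZ_ph two_nonneg, mapE_cls]

variable (hh : 1 ≤ h₀)

include hh

omit A in
lemma van_V {r : ℕ} {m : ℤ} (h : ¬ (4 : ℤ) ∣ m + r + 1) : (CC D U V).Van r m :=
  haveI : Fact (Nat.Prime 3) := ⟨Nat.prime_three⟩
  van_of_alg H fun w hw => algVan_line hh (by
    rintro ⟨h1, -⟩
    push_cast at hw h1
    omega)

omit A in
lemma van_sus {r : ℕ} {m : ℤ} (h : ¬ (4 : ℤ) ∣ m + r + 1) :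
    (CC D U (V⟦2 * (2 : ℤ)⟧)).Van r m :=
  van_of_bij (sus D U V) (mulW_id_bij _ _) (m := m - 4) (by ring) (van_V H hh (by omega))

lemma van_W {r : ℕ} {m : ℤ} (h : ¬ (4 : ℤ) ∣ m + r + 1) : (CC D U A.W).Van r m :=
  A.ses.van (van_V H hh h) (van_sus H hh h)

/-- The value of `δ` on the top cell. -/
lemma exists_del_top (hd : Cob.d 1 t.1 = 0) {c : Cob.wt Laz 1 4} (hc : c.1 = t.1 ^ 2) :
    ∃ y : Cob.wt Laz 1 4, Cob.d 1 y.1 ∈ IC 3 h₀ 2 ∧ ∀ (s : ℕ) (n n' w w' w'' : ℤ)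
      (e : n + 3 = n') (hw : w + 2 = w') (hw' : w + 4 = w'') (h : n + (s : ℤ) = 2 * w')
      (h' : n' + ((s + 1 : ℕ) : ℤ) = 2 * w'') (z : Cob.wt Laz s w),
      A.del.fE s (s + 1) n n' rfl e (A.top hw h z) = cls D U i h' (cupW rfl hw' z (c + y)) := by
  have g1 : (7 : ℤ) + ((1 : ℕ) : ℤ) = 2 * 4 := by norm_num
  have key : ∀ c' : Cob.wt Laz 1 4, eE U (𝟙_ T) g1 (cls D U i g1 c') =
      sh (2 * 2) (2 * 2) (2 * 4) (by norm_num) (i⟦2 * (2 : ℤ)⟧' ≫ A.ε) ≫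
        (csh D.R (2 * 2) A.W).inv ≫ (D.R ◁ A.δ) → ∀ (s : ℕ) (n n' w w' w'' : ℤ)
      (e : n + 3 = n') (hw : w + 2 = w') (hw' : w + 4 = w'') (h : n + (s : ℤ) = 2 * w')
      (h' : n' + ((s + 1 : ℕ) : ℤ) = 2 * w'') (z : Cob.wt Laz s w),
      A.del.fE s (s + 1) n n' rfl e (A.top hw h z) = cls D U i h' (cupW rfl hw' z c') := by
    intro c' hc' s n n' w w' w'' e hw hw' h h' z
    rw [eE_cls, ← Category.assoc] at hc'
    rw [← clsZ_ph (by norm_num)]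
    exact mulW_clsZ two_nonneg _ (by norm_num) _ A.δ _ hc' e hw hw' h h' z
  obtain ⟨c₀, hc₀⟩ := cls_surj H g1 ((eE U (𝟙_ T) g1).symm
    (sh (2 * 2) (2 * 2) (2 * 4) (by norm_num) (i⟦2 * (2 : ℤ)⟧' ≫ A.ε) ≫
      (csh D.R (2 * 2) A.W).inv ≫ (D.R ◁ A.δ)))
  have g2 : (4 : ℤ) + ((0 : ℕ) : ℤ) = 2 * 2 := by norm_num
  have g3 : (3 : ℤ) + ((0 + 1 : ℕ) : ℤ) = 2 * 2 := by norm_num
  have g4 : (6 : ℤ) + ((1 + 1 : ℕ) : ℤ) = 2 * 4 := by norm_num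
  have h1 := key c₀ (by rw [hc₀, AddEquiv.apply_symm_apply]) 0 4 7 0 2 4 (by norm_num)
    (by norm_num) (by norm_num) g2 g1 ⟨1, Cob.isWt_one⟩
  have h2 : ∀ {w : ℤ} (hw : 0 + w = w) (b : Cob.wt Laz 1 w),
      cupW (s' := 0 + 1) rfl hw ⟨1, Cob.isWt_one⟩ b = b :=
    fun _ b => Subtype.ext (cupC_one_left rfl b.1)
  rw [h2] at h1
  have h3 : (CC D U V).IsCocycle (cls D U i g1 c₀ - cls D U i g1 c) := by
    intro l hl
    obtain rfl : l = 6 := by omega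
    rw [map_sub, ← h1, A.del.d_f rfl rfl (by norm_num) (m := 3) (by norm_num) (by norm_num) hl,
      A.d_top H (by norm_num) _ g2 g3 (by rw [d_zero_one]; exact Ideal.zero_mem _), pow_zero,
      one_smul, h2, A.del_ι rfl (w' := 4) (by norm_num) _ g3 g4, d_cls D U i hl g1 g4,
      sub_eq_zero]
    refine (cls_congr H g4 ?_).symm
    rw [Cob.coe_dwt, hc]
    exact d_sq_mem hh hd
  obtain ⟨y, hy, hy'⟩ := exists_cocycle H g1 _ h3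
  refine ⟨y, hy, key (c + y) ?_⟩
  rw [map_add, hy', add_sub_cancel, hc₀, AddEquiv.apply_symm_apply]

omit hh in
lemma top_cocycle (hh : 1 ≤ h₀) (hd : Cob.d 1 t.1 = 0) {c : Cob.wt Laz 1 4} (hc : c.1 = t.1 ^ 2)
    {q : ℕ} {m w w₂ w₄ : ℤ} (f₂ : w + 2 = w₂) (k₅ : w₂ + 2 = w₄) (k₄ : w + 4 = w₄)
    (k₃ : m + ((q + 1 : ℕ) : ℤ) = 2 * w₄) {z : Cob.wt Laz q w}
    (hz : Cob.d q z.1 ∈ IC 3 h₀ (q + 1)) :
    (CC D U A.W).IsCocycle (A.top k₅ k₃ (cupW rfl f₂ z t) +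
      mapE A.ι (cls D U i k₃ (cupW rfl k₄ z c))) := by
  have : Fact (Nat.Prime 3) := ⟨Nat.prime_three⟩
  have hdt : Cob.d 1 t.1 ∈ IC 3 h₀ 2 := by rw [hd]; exact Ideal.zero_mem _
  have hdc : Cob.d 1 c.1 - cupC (s' := 2) rfl t.1 t.1 ∈ IC 3 h₀ 2 := hc ▸ d_sq_mem hh hd
  intro l hl
  have k₇ : l + ((q + 1 + 1 : ℕ) : ℤ) = 2 * w₄ := by push_cast at k₃ ⊢; omega
  have e₂ : q + 2 = q + 1 + 1 := rfl
  rw [map_add, A.d_top H hl k₅ k₃ k₇ (d_cupC_mem rfl hz hdt),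
    (mapC U (𝟙_ T) A.ι).d_e0, d_cls D U i hl k₃ k₇, ← map_zsmul, ← map_zsmul, ← map_add,
    ← map_add, cls_eq_zero H, map_zero]
  change (-1 : ℤ) ^ (q + 1) • cupC (s := q + 1) rfl (cupC rfl z.1 t.1) t.1 +
    Cob.d (q + 1) (cupC rfl z.1 c.1) ∈ _
  rw [d_cupC rfl rfl e₂, cupC_assoc rfl rfl rfl e₂, pow_succ, mul_neg_one, neg_smul,
    add_left_comm, neg_add_eq_sub, ← smul_sub, ← cupC_sub_right]
  exact Ideal.add_mem _ (cupC_mem_left _ hz _)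
    (Submodule.smul_of_tower_mem _ _ (cupC_mem_right _ _ hdc))

omit A H hh in
lemma aCob_final (hd : Cob.d 1 t.1 = 0) {q : ℕ} (e₂ : q + 2 = q + 1 + 1) {w w₆ : ℤ}
    (f₆ : w + 6 = w₆) {z : Cob.wt Laz q w} (hz : Cob.d q z.1 ∈ IC 3 h₀ (q + 1))
    {y : Cob.wt Laz 1 4} (hy : Cob.d 1 y.1 ∈ IC 3 h₀ 2) :
    ACob 3 h₀ w₆ (cupC (s := q + 1) rfl (cupC rfl z.1 t.1) (t.1 ^ 2 + y.1) +
      cupC (s := q + 1) rfl (cupC rfl z.1 (t.1 ^ 2)) t.1 - cupC e₂ z.1 (bcls 3 t.1) +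
      cupC (s := q + 1) rfl (cupC rfl z.1 y.1) t.1) := by
  have : Fact (Nat.Prime 3) := ⟨Nat.prime_three⟩
  have hdt : Cob.d 1 t.1 ∈ IC 3 h₀ 2 := by rw [hd]; exact Ideal.zero_mem _
  have hs1 : (-1 : ℤ) ^ q * (-1) ^ q = 1 := by rw [← mul_pow]; simp
  refine ⟨(-(-1 : ℤ) ^ q) • cupC rfl z.1 (t.1 * y.1),
    (isWt_cupC rfl z.2 (t.2.mul y.2) (by omega)).zsmul _, ?_⟩
  have h8 : cupC (s' := 2) rfl t.1 y.1 + cupC (s' := 2) rfl y.1 t.1 +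
      Cob.d 1 (t.1 * y.1) ∈ IC 3 h₀ 2 := by
    rw [d_mul_one]
    exact Ideal.add_mem _ (Ideal.mul_mem_left _ _ hy) (Ideal.mul_mem_left _ _ hdt)
  have h9 := Ideal.add_mem _ (cupC_mem_right e₂ z.1 h8) (Submodule.smul_of_tower_mem _
    ((-1 : ℤ) ^ q) (cupC_mem_left (s' := q + 1 + 1) rfl hz (t.1 * y.1)))
  convert h9 using 1
  rw [map_zsmul, d_cupC rfl rfl e₂, bcls_three, cupC_add_right, cupC_add_right, cupC_add_right,
    cupC_add_right, cupC_assoc rfl rfl rfl e₂, cupC_assoc rfl rfl rfl e₂,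
    cupC_assoc rfl rfl rfl e₂, cupC_assoc rfl rfl rfl e₂, smul_add, smul_smul, neg_mul, hs1]
  simp only [neg_smul, one_smul]
  abel

/-- The theorem, for given data. -/
theorem dif (hd : Cob.d 1 t.1 = 0) {b : Cob.wt Laz 2 6} (hb : b.1 = bcls 3 t.1) {s r q : ℕ}
    (hsr : s + 1 ≤ r) (hq : r + 4 = q) (e₂ : q + 2 = q + 1 + 1) {m m' m'' w w₂ w₄ w₆ : ℤ}
    (hw : (2 : ℤ) ∣ w) (f₂ : w + 2 = w₂) (f₄ : w₄ + 2 = w₆)
    (f₆ : w + 6 = w₆) (g₂ : m + ((r + 1 : ℕ) : ℤ) = 2 * w₂) (g₃ : m' + 1 + (r : ℤ) = 2 * w)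
    (g₄ : m' + ((q + 1 : ℕ) : ℤ) = 2 * w₂) (g₆ : m'' + ((q + 1 + 1 : ℕ) : ℤ) = 2 * w₆)
    {x : (CC D U V).E s (m + 1)} {y : Cob.wt Laz r w} {z : Cob.wt Laz q w}
    (hy : Cob.d r y.1 ∈ IC 3 h₀ (r + 1)) (hz : Cob.d q z.1 ∈ IC 3 h₀ (q + 1))
    (h1 : Dif x (cls D U i g₂ (cupW rfl f₂ y t)))
    (h2 : Dif (cls D U i g₃ y) (cls D U i g₄ (cupW rfl f₂ z t))) (e : m + 1 + 3 = m'' + 1) :
    ∃ e' : Cob.wt Laz (q + 1) w₄, Cob.d (q + 1) e'.1 ∈ IC 3 h₀ (q + 1 + 1) ∧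
      Dif (A.del.fE s (s + 1) (m + 1) (m'' + 1) rfl e (mapE A.ι x))
        ((-1 : ℤ) ^ (r + 1) • cls D U i g₆ (cupW e₂ f₆ z b) +
          cls D U i g₆ (cupW rfl f₄ e' t)) := by
  have : Fact (Nat.Prime 3) := ⟨Nat.prime_three⟩
  have k₁ : m + 1 + (r : ℤ) = 2 * w₂ := by push_cast at g₂; omega
  have k₂ : m' + 4 = m := by push_cast at g₂ g₄; omega
  have k₃ : m + ((q + 1 : ℕ) : ℤ) = 2 * w₄ := by push_cast at g₂ ⊢; omega
  have k₄ : w + 4 = w₄ := by omega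
  have k₅ : w₂ + 2 = w₄ := by omega
  have k₆ : m + 3 = m'' := by omega
  have hs1 : (-1 : ℤ) ^ r * (-1) ^ r = 1 := by rw [← mul_pow]; simp
  obtain ⟨X, hX, hn⟩ := cross (mapC U (𝟙_ T) A.ι) (mapC U (𝟙_ T) A.π)
    (fun s n y => (mapD_mapD A.ι A.π y).trans (by rw [A.zero, mapD_zero])) hsr
    (t' := q + 1) (by omega) h1 (W := (-1 : ℤ) ^ r • A.top f₂ k₁ y)
    (by rw [map_zsmul, A.d_top H rfl f₂ k₁ g₂ hy, smul_smul, hs1, one_smul])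
    (a₂ := (-1 : ℤ) ^ (r + 1) • (sus D U V).fE _ _ m' m rfl k₂ (cls D U i g₄ (cupW rfl f₂ z t)))
    (by
      have h3 := ((sus D U V).dif (s' := r) (t' := q + 1) rfl rfl k₂ h2).zsmul
        ((-1 : ℤ) ^ (r + 1))
      refine h3.congr_k (congrArg _ ?_)
      rw [CMap.e0, map_zsmul]
      refine (congrArg _ (A.π_top f₂ (n := m' + 1) (by omega) g₃ k₁ y)).trans ?_
      rw [pow_succ, mul_neg_one, neg_smul, smul_neg])
    (fun q hq hq' => A.van_W H hh (by omega))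
  have hcob := isCobdy_of_null (s := q) (Null.of_van (r' := q) (by omega) le_rfl
    (by omega) hn fun q hq hq' => van_sus H hh (by omega))
  let c : Cob.wt Laz 1 4 := ⟨t.1 ^ 2, t.2.pow 2⟩
  have hX₀c := A.top_cocycle H hh hd (c := c) rfl f₂ k₅ k₄ k₃ hz
  obtain ⟨X₀, hX₀⟩ : ∃ X₀ : (CC D U A.W).E (q + 1) m, A.top k₅ k₃ (cupW rfl f₂ z t) +
    mapE A.ι (cls D U i k₃ (cupW rfl k₄ z c)) = X₀ := ⟨_, rfl⟩
  have hπ : (mapC U (𝟙_ T) A.π).e0 X₀ =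
      -(sus D U V).fE _ _ m' m rfl k₂ (cls D U i g₄ (cupW rfl f₂ z t)) := by
    have h3 : mapE A.π (mapE A.ι (cls D U i k₃ (cupW rfl k₄ z c))) = 0 := by
      rw [mapE_cls, mapE_cls, Category.assoc, A.zero, comp_zero]
      apply (eE U (𝟙_ T) k₃).injective
      rw [eE_cls, CobarData.Qm_zero', zero_comp, comp_zero, map_zero]
    rw [← A.π_top k₅ k₂ g₄ k₃, ← hX₀, CMap.e0, map_add]
    exact (congrArg _ h3).trans (add_zero _)
  obtain ⟨y₀, hy₀, hδ⟩ := A.exists_del_top H hh hd (c := c) rfl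
  have hδ' : A.del.fE (q + 1) (q + 1 + 1) m m'' rfl k₆ X₀ =
      cls D U i g₆ (cupW rfl (show w₂ + 4 = w₆ by omega) (cupW rfl f₂ z t) (c + y₀)) +
        cls D U i g₆ (cupW rfl f₄ (cupW rfl k₄ z c) t) := by
    rw [← hX₀, map_add, hδ _ _ _ _ _ w₆ k₆ k₅ (by omega) k₃ g₆, A.del_ι rfl f₄ k₆ k₃ g₆]
  rw [hX₀] at hX₀c
  obtain ⟨e₀, he₀, hc⟩ := A.ses.mid (X := X - (-1 : ℤ) ^ (r + 1) • X₀)
    (IsCocycle.sub hX.isCocycle_target (IsCocycle.zsmul _ hX₀c)) (by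
      rw [CMap.e0, map_sub, map_zsmul]
      rw [CMap.e0] at hπ
      rwa [hπ, smul_neg, sub_neg_eq_add])
  obtain ⟨e₁, he₁, rfl⟩ := exists_cocycle H k₃ e₀ he₀
  refine ⟨e₁ - (-1 : ℤ) ^ (r + 1) • cupW rfl k₄ z y₀, ?_, ?_⟩
  · rw [AddSubgroup.coe_sub, map_sub, AddSubgroup.coe_zsmul, map_zsmul]
    exact Ideal.sub_mem _ he₁ (Submodule.smul_of_tower_mem _ _ (d_cupC_mem rfl hz hy₀))
  have h4 := A.del.dif (s' := s + 1) (t' := q + 1 + 1) rfl rfl k₆ hX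
  have h5 := A.del.null (r' := q + 1) (t' := q + 1 + 1) rfl rfl k₆ (null_of_isCobdy hc)
  have h6 : A.del.fE (q + 1) (q + 1 + 1) m m'' rfl k₆ ((mapC U (𝟙_ T) A.ι).e0
    (cls D U i k₃ e₁)) = _ := A.del_ι rfl f₄ k₆ k₃ g₆ e₁
  rw [map_sub, map_sub, map_zsmul, hδ', h6] at h5
  have h7 : Null (CC D U V) (q + 1)
      (cls D U i g₆ (cupW rfl (show w₂ + 4 = w₆ by omega) (cupW rfl f₂ z t) (c + y₀)) +
        cls D U i g₆ (cupW rfl f₄ (cupW rfl k₄ z c) t) - cls D U i g₆ (cupW e₂ f₆ z b) +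
        cls D U i g₆ (cupW rfl f₄ (cupW rfl k₄ z y₀) t)) := by
    rw [← map_add, ← map_sub, ← map_add]
    refine null_of_aCob H (s := q + 1 + 1) g₆ ?_
    have h8 := aCob_final hd e₂ f₆ hz hy₀
    rw [← hb] at h8
    exact h8
  have h9 : cupW rfl f₄ (e₁ - (-1 : ℤ) ^ (r + 1) • cupW rfl k₄ z y₀) t =
      cupW rfl f₄ e₁ t - (-1 : ℤ) ^ (r + 1) •
        cupW (s' := q + 1 + 1) rfl f₄ (cupW rfl k₄ z y₀) t :=
    Subtype.ext ((cupC_sub_left _ _ _ _).trans (congrArg _ (cupC_zsmul_left _ _ _ _)))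
  refine h4.of_null_target (Null.mono (r := q + 1) (by omega) ?_)
  have h10 := Null.neg (h5.add (Null.zsmul ((-1 : ℤ) ^ (r + 1)) h7))
  rw [h9, map_sub, map_zsmul]
  convert h10 using 1
  simp only [smul_add, smul_sub]
  abel

end AData

/-! ### The Moore object -/

section Moore

variable [MonoidalClosed T] [IsTriangulated T] [HasProducts.{0} T] [StableCat T]
  {M : T} {i : 𝟙_ T ⟶ M} {δ : M ⟶ (𝟙_ T)⟦(1 : ℤ)⟧}
  (hM : Dist (((3 : ℕ) : ℤ) • 𝟙 (𝟙_ T)) i δ)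

omit [MonoidalClosed T] [IsTriangulated T] [HasProducts.{0} T] [StableCat T] in
lemma j_mapD_cls {V : T} (i : 𝟙_ T ⟶ V) {s : ℕ} {n w : ℤ} (h : n + (s : ℤ) = 2 * w)
    {y : (CC D U (𝟙_ T)).D s n} {b : Cob.wt Laz s w}
    (hy : (CC D U (𝟙_ T)).j s n y = cls D U (𝟙 _) h b) :
    (CC D U V).j s n (mapD i y) = cls D U i h b := by
  rw [j_mapD, hy, mapE_cls, Category.id_comp]

variable (D U) in
/-- The class `α₁` in the couple of the sphere. -/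
lemma exists_alpha {t : Cob.wt Laz 1 2} (ht : IsT1 3 t.1) (h : (3 : ℤ) + (1 : ℕ) = 2 * 2) :
    ∃ y : (CC D U (𝟙_ T)).D 1 3, (CC D U (𝟙_ T)).j 1 3 y = cls D U (𝟙 _) h t := by
  have : Fact (Nat.Prime 3) := ⟨Nat.prime_three⟩
  obtain ⟨a, ha⟩ := P257.H762.exists_alpha_one D U (p := 3) (by norm_num) ht (v := 2)
    (by norm_num) t.2
  obtain ⟨y, -, hy⟩ := exists_rep_of_sphE h t a ha
  exact ⟨y, hy⟩

include hM

/-- The square of `α₁` vanishes in filtration one. -/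
lemma alpha_sq {t : Cob.wt Laz 1 2} (hd : Cob.d 1 t.1 = 0) (h : (3 : ℤ) + (1 : ℕ) = 2 * 2)
    {y : (CC D U (𝟙_ T)).D 1 3} (hy : (CC D U (𝟙_ T)).j 1 3 y = cls D U (𝟙 _) h t) :
    (und y)⟦2 * (2 : ℤ)⟧' ≫ eD U (𝟙_ T) h (mapD i y) = 0 := by
  have : Fact (Nat.Prime 3) := ⟨Nat.prime_three⟩
  have H : Cyc D 3 1 i := cyc_modP D (by norm_num) hM
  have hA := acts_of_j i two_nonneg h.symm (mapD i y) (j_mapD_cls i h hy)
  have g1 : (7 : ℤ) + ((1 : ℕ) : ℤ) = 2 * 4 := by norm_num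
  have g2 : (6 : ℤ) + ((1 + 1 : ℕ) : ℤ) = 2 * 4 := by norm_num
  have h1 := eD_proj_mulC (U := U) (P := 𝟙_ T) (two_mul_even two_nonneg) h.symm (mapD i y)
    (s := 1) (s' := 2) (r := 1) (n' := 6) (t' := 7) rfl (by norm_num) le_rfl (by norm_num) h
    (by norm_num) (by norm_num) y
  obtain ⟨y₂, hy₂⟩ : ∃ y₂ : (CC D U M).D 2 6, (mulW two_nonneg h.symm
    (eD U (𝟙_ T) h (mapD i y))).fD 1 2 3 6 rfl (by norm_num) y = y₂ := ⟨_, rfl⟩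
  obtain ⟨c, hc⟩ : ∃ c : Cob.wt Laz 1 4, c.1 = t.1 ^ 2 := ⟨⟨t.1 ^ 2, t.2.pow 2⟩, rfl⟩
  have e7 : (7 : ℤ) = 6 + 1 := rfl
  have h2 : (CC D U M).j 2 6 y₂ = (CC D U M).d 1 7 6 e7 (cls D U i g1 c) := by
    rw [← hy₂, CMap.j_f, hy, hA 1 2 3 6 2 4 rfl _ (by norm_num) h g2, d_cls D U i e7 g1 g2]
    refine (cls_congr H g2 ?_).symm
    rw [Cob.coe_dwt, hc]
    exact d_sq_mem le_rfl hd
  obtain ⟨y₃, hy₃⟩ := (CC D U M).exact_j 2 6
    (y₂ - (CC D U M).k 1 7 6 e7 (cls D U i g1 c)) (by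
      rw [map_sub, h2, Couple.d_apply, sub_self])
  have h3 : Lifts ((CC D U M).i 1 6 y₂) 3 := ⟨by norm_num, y₃, by
    rw [Couple.proj_succ _ _ (show 1 ≤ 2 by norm_num), hy₃, proj_one, map_sub, Couple.i_k,
      sub_zero]⟩
  have h4 : (CC D U M).i 1 6 y₂ = 0 :=
    Lifts.eq_zero (Lifts.of_van (t' := 7) (by norm_num) (by norm_num) h3 fun s hs _ =>
      van_of_alg H fun w hw => algVan_line le_rfl (by
        rintro ⟨-, h5⟩
        push_cast at hw h5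
        omega)) (CC_D_eq_zero (bigCell_M hM) (by norm_num))
  rw [Couple.proj_self] at h1
  have h5 := h1.symm.trans (congrArg _ ((congrArg _ hy₂).trans ((proj_one _ y₂).trans h4)))
  rw [map_zero] at h5
  simp only [sh, AddEquiv.coe_mk, Equiv.coe_fn_mk, Category.assoc] at h5
  rwa [← cancel_epi ((shiftFunctorAdd' T 3 (2 * 2) 7 (by norm_num)).hom.app (𝟙_ T)), comp_zero]

variable (D U) in
theorem exists_aData {t : Cob.wt Laz 1 2} (ht : IsT1 3 t.1) : Nonempty (AData D U i t) := by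
  have : Fact (Nat.Prime 3) := ⟨Nat.prime_three⟩
  have h : (3 : ℤ) + (1 : ℕ) = 2 * 2 := by norm_num
  have e3 : (3 : ℤ) + 1 = 2 * 2 := by norm_num
  obtain ⟨-, hd, -⟩ := BCocycle 3 (by norm_num) t.1 ht
  obtain ⟨y, hy⟩ := exists_alpha D U ht h
  obtain ⟨K, e, π', hK⟩ := exists_cone (und y)
  let c := (shiftFunctorAdd' T 3 1 (2 * 2) e3).app (𝟙_ T)
  have hK' : Dist e (-(π' ≫ c.inv)) (eD U (𝟙_ T) h y ≫ U.bd 0 (𝟙_ T)) :=
    hK.rot.of_iso₃ (-c).hom (by simp) (by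
      rw [Preadditive.neg_iso_hom, Preadditive.neg_comp, Preadditive.comp_neg, neg_neg,
        ← sh_und_one h e3]
      rfl)
  obtain ⟨π₀, hπ₀⟩ : ∃ π₀, -(π' ≫ c.inv) = π₀ := ⟨_, rfl⟩
  rw [hπ₀] at hK'
  have hrep := (rep_iff D U _ h y t).2 hy
  rw [Rep, CobarData.Qm_id, Category.id_comp] at hrep
  obtain ⟨r, ε, hr, hε1, hε2⟩ := cone_data U _ hK' (ph D U 1 2 t) (by
    rw [← ph_d, show Cob.dwt Laz 1 2 t = 0 from Subtype.ext hd, map_zero]) hrep.symm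
  have hMk := kil_M D (p := 3) (by norm_num) hM
  have hW : ((3 : ℕ) : ℤ) • 𝟙 (M ⊗ K) = 0 := P257.H762.Kil.tensor hMk K
  have k1 : e ≫ (λ_ K).inv ≫ (i ▷ K) = i ≫ (ρ_ M).inv ≫ (M ◁ e) := by
    rw [leftUnitor_inv_naturality_assoc, whisker_exchange, rightUnitor_inv_naturality_assoc,
      unitors_inv_equal]
  have k2 : ((λ_ K).inv ≫ (i ▷ K)) ≫ (M ◁ π₀) ≫ (tensorSph (2 * 2) M).hom =
      π₀ ≫ i⟦2 * (2 : ℤ)⟧' := by
    rw [Category.assoc, ← whisker_exchange_assoc, tensorSph_naturality, tensorSph_unit,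
      ← leftUnitor_inv_naturality_assoc, Iso.inv_hom_id_assoc]
  obtain ⟨ε₁, hε₁⟩ := exists_ext_shift hM (2 * 2) (ε ≫ (D.R ◁ ((λ_ K).inv ≫ (i ▷ K)))) (by
    rw [Functor.map_zsmul, CategoryTheory.Functor.map_id, Preadditive.zsmul_comp,
      Category.id_comp, ← Category.comp_id (ε ≫ _), ← Preadditive.comp_zsmul,
      ← MonoidalCategory.whiskerLeft_id, ← P257.H762.whiskerLeft_zsmul', hW,
      MonoidalPreadditive.whiskerLeft_zero, comp_zero])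
  obtain ⟨g₀, hg₀⟩ := exists_ext_shift hK (2 * 2) _ (alpha_sq hM hd h hy)
  obtain ⟨δ₁, hδ₁⟩ : ∃ δ₁ : (M ⊗ K)⟦2 * (2 : ℤ)⟧ ⟶ U.cobar.B 1 M,
      (i ▷ K)⟦2 * (2 : ℤ)⟧' ≫ δ₁ = ((λ_ K).hom)⟦2 * (2 : ℤ)⟧' ≫ g₀ :=
    exists_ext_shift (dist_whiskerRight K hM) (2 * 2) _ (by
      change ((((3 : ℕ) : ℤ) • 𝟙 (𝟙_ T)) ▷ K)⟦2 * (2 : ℤ)⟧' ≫ _ = 0
      rw [P257.H762.whiskerRight_zsmul', Functor.map_zsmul, Preadditive.zsmul_comp,
        zsmul_B hMk])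
  have hD : ∃ h', Dist ((ρ_ M).inv ≫ (M ◁ e)) ((M ◁ π₀) ≫ (tensorSph (2 * 2) M).hom) h' := by
    obtain ⟨h', H'⟩ : ∃ h', Dist (M ◁ e) (M ◁ π₀) h' := ⟨_, dist_whiskerLeft M hK'⟩
    refine ⟨(tensorSph (2 * 2) M).inv ≫ h' ≫ ((ρ_ M).hom)⟦(1 : ℤ)⟧',
      isomorphic_distinguished _ H' _ (Triangle.isoMk _ _ (ρ_ M).symm (Iso.refl _)
        (tensorSph (2 * 2) M).symm ?_ ?_ ?_)⟩
    · exact Category.comp_id _
    · change (_ ≫ _) ≫ (tensorSph (2 * 2) M).inv = 𝟙 _ ≫ (M ◁ π₀)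
      rw [Category.assoc, Iso.hom_inv_id, Category.comp_id, Category.id_comp]
    · change (_ ≫ _ ≫ _) ≫ ((ρ_ M).inv)⟦(1 : ℤ)⟧' = (tensorSph (2 * 2) M).inv ≫ h'
      rw [Category.assoc, Category.assoc, ← Functor.map_comp, Iso.hom_inv_id,
        CategoryTheory.Functor.map_id, Category.comp_id]
  obtain ⟨h', hD⟩ := hD
  refine ⟨⟨M ⊗ K, (ρ_ M).inv ≫ (M ◁ e), (M ◁ π₀) ≫ (tensorSph (2 * 2) M).hom, ε₁, δ₁,
    hD.zero₁₂, ses_of_split hD (((SplitR.of_unit hr).whiskerLeft M).iso_comp (ρ_ M).symm),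
    ?_, ?_, ?_⟩⟩
  · rw [hε₁, Category.assoc, ← MonoidalCategory.whiskerLeft_comp, k2,
      MonoidalCategory.whiskerLeft_comp, reassoc_of% hε1, Preadditive.neg_comp, unitMap_nat]
  · have h1 := U.cobar.d_naturality 1 ((λ_ K).inv ≫ (i ▷ K))
    rw [hε₁, Category.assoc, ← k1, CobarData.Qm_comp, ← reassoc_of% hε2, ← h1]
    rfl
  · rw [← k1, Functor.map_comp, Functor.map_comp, Category.assoc, Category.assoc, hδ₁,
      ← Functor.map_comp_assoc _ (λ_ K).inv, Iso.inv_hom_id, CategoryTheory.Functor.map_id,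
      Category.id_comp, hg₀]
    exact (rep_iff D U i h _ t).2 (j_mapD_cls i h hy)

/-- **The differential `d₉` on a multiple of `α₁`.** -/
theorem L9 {t : Cob.wt Laz 1 2} (ht : IsT1 3 t.1) {b : Cob.wt Laz 2 6} (hb : b.1 = bcls 3 t.1)
    {s s' r r₁ q q₁ q₂ : ℕ} (hsr : s < r) (hq : r + 4 = q) (e₀ : s + 1 = s') (e₁ : r + 1 = r₁)
    (e₂ : q + 1 = q₁) (e₃ : q + 2 = q₂) (e₄ : q₁ + 1 = q₂) {m m' m'' u u' w w₂ w₄ w₆ : ℤ}
    (hw : (2 : ℤ) ∣ w) (f₀ : u + 2 = u') (f₂ : w + 2 = w₂) (f₄ : w₄ + 2 = w₆) (f₆ : w + 6 = w₆)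
    (g₁ : m + 1 + (s : ℤ) = 2 * u) (g₂ : m + (r₁ : ℤ) = 2 * w₂) (g₃ : m' + 1 + (r : ℤ) = 2 * w)
    (g₄ : m' + (q₁ : ℤ) = 2 * w₂) (g₅ : m'' + 1 + (s' : ℤ) = 2 * u')
    (g₆ : m'' + (q₂ : ℤ) = 2 * w₆) {x : Cob.wt Laz s u} {y : Cob.wt Laz r w}
    {z : Cob.wt Laz q w} (hy : Cob.d r y.1 ∈ IC 3 1 (r + 1)) (hz : Cob.d q z.1 ∈ IC 3 1 (q + 1))
    (h1 : Dif (cls D U i g₁ x) (cls D U i g₂ (cupW e₁ f₂ y t)))
    (h2 : Dif (cls D U i g₃ y) (cls D U i g₄ (cupW e₂ f₂ z t))) :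
    ∃ e : Cob.wt Laz q₁ w₄, Cob.d q₁ e.1 ∈ IC 3 1 (q₁ + 1) ∧
      Dif (cls D U i g₅ (cupW e₀ f₀ x t))
        ((-1 : ℤ) ^ (r + 1) • cls D U i g₆ (cupW e₃ f₆ z b) + cls D U i g₆ (cupW e₄ f₄ e t)) := by
  have : Fact (Nat.Prime 3) := ⟨Nat.prime_three⟩
  subst e₀ e₁ e₂ e₄
  obtain ⟨A⟩ := exists_aData D U hM ht
  obtain ⟨-, hd, -⟩ := BCocycle 3 (by norm_num) t.1 ht
  have e : m + 1 + 3 = m'' + 1 := by push_cast at g₅; omega
  obtain ⟨e', h3, h4⟩ := A.dif (cyc_modP D (by norm_num) hM) le_rfl hd hb hsr hq e₃ hw f₂ f₄ f₆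
    g₂ g₃ g₄ g₆ hy hz h1 h2 e
  rw [A.del_ι rfl f₀ e g₁ g₅] at h4
  exact ⟨e', h3, h4⟩

end Moore

end Vale.Agent.P236K.SS
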