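import Vale.Agent.P257.H712.Survive
import Mathlib.Algebra.BigOperators.Group.Finset.Basic

/-!
# P236K, block SS: maps of exact couples and the multiplier lemma

`CMap C C' σ a` is a map of exact couples raising the filtration by `σ` and the stem by `a`.

* `CMap.mult_main`: the multiplier lemma in its general form;
* `CMap.lifts_of_inj_surj`: if `f` is injective on the `E₂`-terms of the stem `m` and surjective on
  the `E₂`-terms of the stem `m + 1`, an element `y` with `j y = 0` whose image lifts far lifts far;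
* `CMap.survive`, `CMap.vanish`: the two ways in which it is used;
* `Dif`: differentials, and their calculus.
-/

universe u v u' v' u'' v''

namespace Vale.Agent.P236K.SS

open Vale.Agent.P251.S Vale.Agent.P257.H712

/-- A map of exact couples of filtration `σ` and degree `a`. -/
structure CMap (C : Couple.{u, v}) (C' : Couple.{u', v'}) (σ : ℕ) (a : ℤ) where
  /-- the map on `D` -/
  fD : ∀ (s s' : ℕ) (n n' : ℤ), s + σ = s' → n + a = n' → (C.D s n →+ C'.D s' n')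
  /-- the map on `E` -/
  fE : ∀ (s s' : ℕ) (n n' : ℤ), s + σ = s' → n + a = n' → (C.E s n →+ C'.E s' n')
  i_f : ∀ (s s' : ℕ) (n n' : ℤ) (h : s + σ = s') (h1 : s + 1 + σ = s' + 1) (e : n + a = n')
    (y : C.D (s + 1) n), C'.i s' n' (fD (s + 1) (s' + 1) n n' h1 e y) = fD s s' n n' h e (C.i s n y)
  j_f : ∀ (s s' : ℕ) (n n' : ℤ) (h : s + σ = s') (e : n + a = n') (y : C.D s n),
    C'.j s' n' (fD s s' n n' h e y) = fE s s' n n' h e (C.j s n y)
  k_f : ∀ (s s' : ℕ) (n n' m m' : ℤ) (h : s + σ = s') (h1 : s + 1 + σ = s' + 1) (e : n + a = n')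
    (e' : m + a = m') (hn : n = m + 1) (hn' : n' = m' + 1) (z : C.E s n),
    C'.k s' n' m' hn' (fE s s' n n' h e z) = fD (s + 1) (s' + 1) m m' h1 e' (C.k s n m hn z)

section Basic

variable {C : Couple.{u, v}}

lemma Null.zero {r t : ℕ} {m : ℤ} (h : r ≤ t) : Null C r (0 : C.E t m) :=
  ⟨h, 0, C.proj_zero' _ _, map_zero _⟩

lemma Null.neg {r t : ℕ} {m : ℤ} {b : C.E t m} (hb : Null C r b) : Null C r (-b) := by
  obtain ⟨h, c, hc, rfl⟩ := hb
  exact ⟨h, -c, by rw [proj_neg, hc, neg_zero], map_neg _ _⟩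

lemma Null.sub {r t : ℕ} {m : ℤ} {b b' : C.E t m} (hb : Null C r b) (hb' : Null C r b') :
    Null C r (b - b') := by
  rw [sub_eq_add_neg]
  exact hb.add (Null.neg hb')

lemma Null.zsmul {r t : ℕ} {m : ℤ} {b : C.E t m} (c : ℤ) (hb : Null C r b) :
    Null C r (c • b) := by
  obtain ⟨h, y, hy, rfl⟩ := hb
  exact ⟨h, c • y, by rw [proj_zsmul, hy, smul_zero], map_zsmul _ _ _⟩

/-- The classes `Null C s` of `E (s + 1)` are the coboundaries. -/
lemma isCobdy_of_null {s : ℕ} {m : ℤ} {b : C.E (s + 1) m} (hb : Null C s b) : C.IsCobdy b := by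
  obtain ⟨h, c, hc, rfl⟩ := hb
  rw [proj_one] at hc
  obtain ⟨z, rfl⟩ := C.exact_i s (m + 1) m rfl c hc
  exact ⟨z, rfl⟩

lemma null_iff_isCobdy {s : ℕ} {m : ℤ} {b : C.E (s + 1) m} : Null C s b ↔ C.IsCobdy b :=
  ⟨isCobdy_of_null, null_of_isCobdy⟩

/-- `k` kills the classes of elements of `D`. -/
lemma Null.k_eq_zero {r t : ℕ} {n m : ℤ} (h : n = m + 1) {b : C.E t n} (hb : Null C r b) :
    C.k t n m h b = 0 := by
  obtain ⟨_, c, -, rfl⟩ := hb
  exact C.k_j _ _ _ _ _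

lemma Lifts.mono {r : ℕ} {m : ℤ} {u : C.D r m} {t t' : ℕ} (hr : r ≤ t) (h : t ≤ t')
    (hu : Lifts u t') : Lifts u t := by
  obtain ⟨h', y, rfl⟩ := hu
  exact ⟨hr, C.proj m h y, proj_proj C _ _ _⟩

lemma Lifts.zero {r : ℕ} {m : ℤ} {t : ℕ} (h : r ≤ t) : Lifts (0 : C.D r m) t :=
  ⟨h, 0, C.proj_zero' _ _⟩

lemma Lifts.eq_zero {r : ℕ} {m : ℤ} {u : C.D r m} {t : ℕ} (hu : Lifts u t)
    (hD : ∀ y : C.D t m, y = 0) : u = 0 := by
  obtain ⟨h, y, rfl⟩ := hu
  rw [hD y, C.proj_zero']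

lemma Lifts.proj {r r' : ℕ} {m : ℤ} {u : C.D r m} {t : ℕ} (h : r' ≤ r) (hu : Lifts u t) :
    Lifts (C.proj m h u) t := by
  obtain ⟨h', y, rfl⟩ := hu
  exact ⟨h.trans h', y, (proj_proj C _ _ _).symm⟩

lemma j_proj {b t : ℕ} {m : ℤ} (h : b + 1 ≤ t) (h' : b ≤ t) (y : C.D t m) :
    C.j b m (C.proj m h' y) = 0 := by
  rw [← C.i_proj m h y, C.j_i]

/-- An element which dies one step down is a boundary, of a cocycle if it lifts one step. -/
lemma exists_k_of_proj {b t : ℕ} {m : ℤ} (h : b + 2 ≤ t) (h1 : b + 1 ≤ t) (h0 : b ≤ t)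
    (z : C.D t m) (hz : C.proj m h0 z = 0) :
    ∃ e : C.E b (m + 1), C.IsCocycle e ∧ C.k b (m + 1) m rfl e = C.proj m h1 z := by
  obtain ⟨e, he⟩ := C.exact_i b (m + 1) m rfl (C.proj m h1 z) (by rw [C.i_proj, hz])
  refine ⟨e, fun l hl => ?_, he⟩
  obtain rfl : l = m := by linarith
  rw [Couple.d_apply, he, j_proj h]

lemma IsCocycle.sub {s : ℕ} {n : ℤ} {x y : C.E s n} (hx : C.IsCocycle x) (hy : C.IsCocycle y) :
    C.IsCocycle (x - y) := fun m h => by rw [map_sub, hx m h, hy m h, sub_zero]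

lemma IsCocycle.add {s : ℕ} {n : ℤ} {x y : C.E s n} (hx : C.IsCocycle x) (hy : C.IsCocycle y) :
    C.IsCocycle (x + y) := fun m h => by rw [map_add, hx m h, hy m h, add_zero]

lemma IsCocycle.zsmul {s : ℕ} {n : ℤ} {x : C.E s n} (c : ℤ) (hx : C.IsCocycle x) :
    C.IsCocycle (c • x) := fun m h => by rw [map_zsmul, hx m h, smul_zero]

lemma isCocycle_zero {s : ℕ} {n : ℤ} : C.IsCocycle (0 : C.E s n) := fun _ _ => map_zero _

lemma Null.isCocycle {r t : ℕ} {m : ℤ} {b : C.E t m} (hb : Null C r b) : C.IsCocycle b := by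
  obtain ⟨_, c, -, rfl⟩ := hb
  exact C.isCocycle_j c

end Basic

namespace CMap

variable {C : Couple.{u, v}} {C' : Couple.{u', v'}} {C'' : Couple.{u'', v''}} {σ : ℕ} {a : ℤ}

/-- The composite of two maps of couples. -/
def comp {σ' σ'' : ℕ} {a' a'' : ℤ} (f : CMap C C' σ a) (g : CMap C' C'' σ' a')
    (hσ : σ + σ' = σ'') (ha : a + a' = a'') : CMap C C'' σ'' a'' where
  fD s s' n n' h e := (g.fD (s + σ) s' (n + a) n' (by omega) (by omega)).comp
    (f.fD s (s + σ) n (n + a) rfl rfl)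
  fE s s' n n' h e := (g.fE (s + σ) s' (n + a) n' (by omega) (by omega)).comp
    (f.fE s (s + σ) n (n + a) rfl rfl)
  i_f s s' n n' h h1 e y := by
    have key : ∀ (b : ℕ) (hb : s + 1 + σ = b) (hb' : b + σ' = s' + 1),
        C''.i s' n' (g.fD b (s' + 1) (n + a) n' hb' (by omega)
          (f.fD (s + 1) b n (n + a) hb rfl y)) =
        g.fD (s + σ) s' (n + a) n' (by omega) (by omega)
          (f.fD s (s + σ) n (n + a) rfl rfl (C.i s n y)) := by
      intro b hb hb'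
      obtain rfl : b = s + σ + 1 := by omega
      rw [g.i_f (s + σ) s' _ _ (by omega), f.i_f s (s + σ) _ _ rfl]
    exact key _ rfl _
  j_f s s' n n' h e y := by
    rw [AddMonoidHom.comp_apply, AddMonoidHom.comp_apply, g.j_f, f.j_f]
  k_f s s' n n' m m' h h1 e e' hn hn' z := by
    have key : ∀ (b : ℕ) (hb : s + 1 + σ = b) (hb' : b + σ' = s' + 1),
        C''.k s' n' m' hn' (g.fE (s + σ) s' (n + a) n' (by omega) (by omega)
          (f.fE s (s + σ) n (n + a) rfl rfl z)) =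
        g.fD b (s' + 1) (m + a) m' hb' (by omega)
          (f.fD (s + 1) b m (m + a) hb rfl (C.k s n m hn z)) := by
      intro b hb hb'
      obtain rfl : b = s + σ + 1 := by omega
      rw [g.k_f (s + σ) s' (n + a) n' (m + a) m' (by omega) hb' (by omega) (by omega)
        (by omega) hn', f.k_f s (s + σ) n (n + a) m (m + a) rfl hb rfl rfl hn]
    exact key _ rfl _

lemma comp_fD {σ' σ'' : ℕ} {a' a'' : ℤ} (f : CMap C C' σ a) (g : CMap C' C'' σ' a')
    (hσ : σ + σ' = σ'') (ha : a + a' = a'') {s s₁ s' : ℕ} {n n₁ n' : ℤ} (h : s + σ'' = s')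
    (e : n + a'' = n') (h₁ : s + σ = s₁) (e₁ : n + a = n₁) (h₂ : s₁ + σ' = s')
    (e₂ : n₁ + a' = n') (y : C.D s n) :
    (f.comp g hσ ha).fD s s' n n' h e y = g.fD s₁ s' n₁ n' h₂ e₂ (f.fD s s₁ n n₁ h₁ e₁ y) := by
  subst h₁ e₁
  rfl

lemma comp_fE {σ' σ'' : ℕ} {a' a'' : ℤ} (f : CMap C C' σ a) (g : CMap C' C'' σ' a')
    (hσ : σ + σ' = σ'') (ha : a + a' = a'') {s s₁ s' : ℕ} {n n₁ n' : ℤ} (h : s + σ'' = s')
    (e : n + a'' = n') (h₁ : s + σ = s₁) (e₁ : n + a = n₁) (h₂ : s₁ + σ' = s')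
    (e₂ : n₁ + a' = n') (y : C.E s n) :
    (f.comp g hσ ha).fE s s' n n' h e y = g.fE s₁ s' n₁ n' h₂ e₂ (f.fE s s₁ n n₁ h₁ e₁ y) := by
  subst h₁ e₁
  rfl

variable (f : CMap C C' σ a)

lemma proj_f {n n' : ℤ} (e : n + a = n') {b c b' c' : ℕ} (hb : b + σ = b') (hc : c + σ = c')
    (h : b ≤ c) (h' : b' ≤ c') (y : C.D c n) :
    C'.proj n' h' (f.fD c c' n n' hc e y) = f.fD b b' n n' hb e (C.proj n h y) := by
  induction c, h using Nat.le_induction generalizing c' with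
  | base =>
    obtain rfl : c' = b' := by omega
    rw [C'.proj_self, C.proj_self]
  | succ c h ih =>
    obtain rfl : c' = c + σ + 1 := by omega
    have h2 : b' ≤ c + σ := by omega
    rw [C.proj_succ n h, ← ih rfl h2, ← f.i_f c (c + σ) n n' rfl hc e, C'.proj_succ n' h2]

lemma d_f {s s' : ℕ} {n n' m m' : ℤ} (h : s + σ = s') (h1 : s + 1 + σ = s' + 1) (e : n + a = n')
    (e' : m + a = m') (hn : n = m + 1) (hn' : n' = m' + 1) (z : C.E s n) :
    C'.d s' n' m' hn' (f.fE s s' n n' h e z) =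
      f.fE (s + 1) (s' + 1) m m' h1 e' (C.d s n m hn z) := by
  rw [Couple.d_apply, Couple.d_apply, f.k_f s s' n n' m m' h h1 e e' hn hn', f.j_f]

lemma isCocycle {s s' : ℕ} {n n' : ℤ} (h : s + σ = s') (e : n + a = n') {z : C.E s n}
    (hz : C.IsCocycle z) : C'.IsCocycle (f.fE s s' n n' h e z) := by
  intro m' hm'
  rw [f.d_f h (by omega) e (m := n - 1) (by omega) (by omega) hm', hz, map_zero]

lemma null {r r' t t' : ℕ} {n n' : ℤ} (hr : r + σ = r') (ht : t + σ = t') (e : n + a = n')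
    {b : C.E t n} (hb : Null C r b) : Null C' r' (f.fE t t' n n' ht e b) := by
  obtain ⟨h, c, hc, rfl⟩ := hb
  exact ⟨by omega, f.fD t t' n n' ht e c, by rw [f.proj_f e hr ht h, hc, map_zero], f.j_f ..⟩

lemma lifts {r r' t t' : ℕ} {n n' : ℤ} (hr : r + σ = r') (ht : t + σ = t') (e : n + a = n')
    {y : C.D r n} (hy : Lifts y t) : Lifts (f.fD r r' n n' hr e y) t' := by
  obtain ⟨h, c, rfl⟩ := hy
  exact ⟨by omega, f.fD t t' n n' ht e c, f.proj_f e hr ht h _ _⟩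

section Main

variable {m m' : ℤ} (e : m + a = m')

/-- The surjectivity hypothesis of the multiplier lemma, at the levels `b < t`. -/
def SurjH (G : ∀ c, C.D c m → Prop) (b t : ℕ) : Prop :=
  ∀ (b' t' : ℕ) (hb : b + σ = b') (ht : t + σ = t') (h : b' + 1 ≤ t') (z' : C'.D t' m')
    (x' : C'.E b' (m' + 1)), C'.IsCocycle x' → C'.k b' (m' + 1) m' rfl x' = C'.proj m' h z' →
    (∃ w : C.D t m, Null C' (t' - 1) (C'.j t' m' z' - f.fE t t' m m' ht e (C.j t m w))) →
    C'.k b' (m' + 1) m' rfl x' = 0 ∨ (G b 0 ∧ ∃ x : C.E b (m + 1), C.IsCocycle x ∧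
      C'.k b' (m' + 1) m' rfl x' =
        f.fD (b + 1) (b' + 1) m m' (by omega) e (C.k b (m + 1) m rfl x))

/-- The injectivity hypothesis of the multiplier lemma, at the levels `c < t`. -/
def InjH (G : ∀ c, C.D c m → Prop) (c t : ℕ) : Prop :=
  ∀ (c' t' : ℕ) (hc : c + 1 + σ = c') (ht : t + σ = t') (h : c + 1 ≤ t) (w : C.D t m),
    G c (C.proj m (Nat.le_of_succ_le h) w) →
    Null C' (t' - 1) (f.fE t t' m m' ht e (C.j t m w)) →
    ∃ z : C.D t m, f.fD (c + 1) c' m m' hc e (C.proj m h z) = 0 ∧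
      C.proj m (Nat.le_of_succ_le h) z = 0 ∧ C.j t m z = C.j t m w

/-- The conclusion of the multiplier lemma. -/
def Concl (G : ∀ c, C.D c m → Prop) (c₀ t : ℕ) : Prop :=
  ∀ (c c' t' : ℕ) (hc : c + 1 + σ = c') (_ : t + σ = t') (h : c + 1 ≤ t), c₀ ≤ c → c + 2 ≤ t →
    ∀ y : C.D (c + 1) m, G c (C.i c m y) → C.j (c + 1) m y = 0 →
      Lifts (f.fD (c + 1) c' m m' hc e y) t' →
      ∃ w : C.D t m, f.fD (c + 1) c' m m' hc e (C.proj m h w) = f.fD (c + 1) c' m m' hc e y ∧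
        C.proj m (Nat.le_of_succ_le h) w = C.i c m y

variable {f e} {G : ∀ c, C.D c m → Prop} {c₀ : ℕ}

/-- Elements of the target which die at the level `b` come from the source. -/
lemma descend {t t' : ℕ} (ht : t + σ = t') (hL : f.Concl e G c₀ t)
    (hS : ∀ b, c₀ + 1 ≤ b → b + 2 ≤ t → f.SurjH e G b t) (d : ℕ) :
    ∀ (b b' : ℕ) (_ : b + σ = b') (h : b ≤ t) (h' : b' ≤ t'), b + 1 + d = t → c₀ + 1 ≤ b →
      ∀ z' : C'.D t' m', C'.proj m' h' z' = 0 →
      (∃ w : C.D t m, Null C' (t' - 1) (C'.j t' m' z' - f.fE t t' m m' ht e (C.j t m w))) →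
      ∃ z : C.D t m, C.proj m h z = 0 ∧
        Null C' (t' - 1) (C'.j t' m' z' - f.fE t t' m m' ht e (C.j t m z)) := by
  induction d with
  | zero =>
    intro b b' hb h h' hd _ z' hz' _
    refine ⟨0, C.proj_zero' _ _, ?_⟩
    rw [map_zero, map_zero, sub_zero]
    obtain rfl : b' = t' - 1 := by omega
    exact ⟨h', z', hz', rfl⟩
  | succ d ih =>
    intro b b' hb h h' hd hc z' hz' hw
    have h1 : b + 1 ≤ t := by omega
    have h1' : b' + 1 ≤ t' := by omega
    obtain ⟨x', hx', hk⟩ := exists_k_of_proj (by omega) h1' h' z' hz'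
    rcases hS b hc (by omega) b' t' hb ht h1' z' x' hx' hk hw with h0 | ⟨hG, x, hx, hfx⟩
    · obtain ⟨z, hz, hn⟩ := ih (b + 1) (b' + 1) (by omega) h1 h1' (by omega) (by omega) z'
        (by rw [← hk, h0]) hw
      exact ⟨z, by rw [← C.i_proj m h1, hz, map_zero], hn⟩
    · obtain ⟨w, hw1, hw2⟩ := hL b (b' + 1) t' (by omega) ht h1 (by omega) (by omega)
        (C.k b (m + 1) m rfl x) (by rw [C.i_k]; exact hG) (hx m rfl)
        ⟨h1', z', by rw [← hk, hfx]⟩
      rw [C.i_k] at hw2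
      obtain ⟨z, hz, hn⟩ := ih (b + 1) (b' + 1) (by omega) h1 h1' (by omega) (by omega)
        (z' - f.fD t t' m m' ht e w) (by
          rw [proj_sub, f.proj_f e (by omega) ht h1, hw1, ← hfx, hk, sub_self]) (by
          obtain ⟨w₀, hw₀⟩ := hw
          refine ⟨w₀ - w, ?_⟩
          rw [map_sub, f.j_f, map_sub, map_sub]
          convert hw₀ using 1
          abel)
      refine ⟨w + z, ?_, ?_⟩
      · rw [proj_add, hw2, ← C.i_proj m h1, hz, map_zero, add_zero]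
      · rw [map_sub, f.j_f] at hn
        rw [map_add, map_add]
        convert hn using 1
        abel

/-- **The multiplier lemma.** -/
theorem mult_main (T : ℕ) (hS : ∀ b t, c₀ + 1 ≤ b → b + 2 ≤ t → t < T → f.SurjH e G b t)
    (hI : ∀ c t, c₀ ≤ c → c + 2 ≤ t → t < T → f.InjH e G c t) :
    ∀ t, t ≤ T → f.Concl e G c₀ t := by
  intro t
  induction t with
  | zero => intro _ c c' t' _ _ h; omega
  | succ t ih =>
    intro hT c c' t' hc ht h hc₀ h2 y hG hj hl
    rcases Nat.lt_or_ge t (c + 2) with h3 | h3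
    · obtain rfl : t = c + 1 := by omega
      obtain ⟨w, rfl⟩ := C.exact_j _ _ _ hj
      refine ⟨w, by rw [proj_one], ?_⟩
      rw [← C.i_proj m h, proj_one]
    · obtain rfl : t' = t + σ + 1 := by omega
      have hL := ih (by omega)
      have h4 : c + 1 ≤ t := by omega
      have h4' : c' ≤ t + σ := by omega
      obtain ⟨w, hw1, hw2⟩ := hL c c' (t + σ) hc rfl h4 hc₀ h3 y hG hj
        (Lifts.mono h4' (Nat.le_succ _) hl)
      obtain ⟨_, w', hw'⟩ := hl
      obtain ⟨z, hz, hn⟩ := descend rfl hL (fun b hb hb' => hS b t hb hb' (by omega))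
        (t - (c + 2)) (c + 1) c' hc h4 h4' (by omega) (by omega)
        (f.fD t (t + σ) m m' rfl e w - C'.i _ _ w') (by
          rw [proj_sub, f.proj_f e hc rfl h4, hw1, ← C'.proj_succ m' h4', hw', sub_self])
        ⟨w, by
          rw [map_sub, C'.j_i, sub_zero, f.j_f, sub_self]
          exact Null.zero (by omega)⟩
      have hz' : C.proj m (Nat.le_of_succ_le h4) z = 0 := by
        rw [← C.i_proj m h4, hz, map_zero]
      obtain ⟨z₁, hz1, hz2, hz3⟩ := hI c t hc₀ h3 (by omega) c' (t + σ) hc rfl h4 (w - z)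
        (by rw [proj_sub, hz', sub_zero, hw2]; exact hG) (by
          rw [map_sub, C'.j_i, sub_zero, f.j_f] at hn
          rwa [map_sub, map_sub])
      obtain ⟨w₂, hw₂⟩ := C.exact_j t m (w - z - z₁) (by rw [map_sub, hz3, sub_self])
      refine ⟨w₂, ?_, ?_⟩
      · rw [C.proj_succ m h4, hw₂, proj_sub, proj_sub, hz, sub_zero, map_sub, hz1, sub_zero, hw1]
      · rw [C.proj_succ m (Nat.le_of_succ_le h4), hw₂, proj_sub, proj_sub, hz', hz2, sub_zero,
          sub_zero, hw2]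

end Main

/-! ### The plain form -/

/-- `f` is injective on the `E₂`-term at `(t, m)`. -/
def Inj (t : ℕ) (m : ℤ) : Prop :=
  ∀ (t' : ℕ) (m' : ℤ) (ht : t + σ = t') (e : m + a = m') (b : C.E t m), C.IsCocycle b →
    Null C' (t' - 1) (f.fE t t' m m' ht e b) → Null C (t - 1) b

/-- `f` is surjective on the `E₂`-term at `(b, n)`. -/
def Surj (b : ℕ) (n : ℤ) : Prop :=
  ∀ (b' : ℕ) (n' : ℤ) (hb : b + σ = b') (e : n + a = n') (x' : C'.E b' n'), C'.IsCocycle x' →
    ∃ x : C.E b n, C.IsCocycle x ∧ Null C' (b' - 1) (x' - f.fE b b' n n' hb e x)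

variable {f}

lemma Inj.injH {m m' : ℤ} (e : m + a = m') {G : ∀ c, C.D c m → Prop} {c t : ℕ} (h2 : c + 2 ≤ t)
    (h : f.Inj t m) : f.InjH e G c t := by
  intro c' t' hc ht h1 w _ hn
  obtain ⟨h3, z, hz, hj⟩ := h t' m' ht e _ (C.isCocycle_j w) hn
  have h4 : C.proj m h1 z = 0 := by
    rw [← proj_proj C (show c + 1 ≤ t - 1 by omega) h3, hz, C.proj_zero']
  exact ⟨z, by rw [h4, map_zero], by rw [← C.i_proj m h1, h4, map_zero], hj⟩

lemma Surj.surjH {m m' : ℤ} (e : m + a = m') {G : ∀ c, C.D c m → Prop} {b t : ℕ} (hG : G b 0)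
    (h : f.Surj b (m + 1)) : f.SurjH e G b t := by
  intro b' t' hb ht h1 z' x' hx' _ _
  obtain ⟨x, hx, hn⟩ := h b' (m' + 1) hb (by omega) x' hx'
  refine Or.inr ⟨hG, x, hx, ?_⟩
  have h2 := Null.k_eq_zero (m := m') rfl hn
  rw [map_sub, sub_eq_zero] at h2
  rw [h2, f.k_f b b' (m + 1) (m' + 1) m m' hb (by omega) (by omega) e rfl rfl]

/-- If the target group vanishes the surjectivity hypothesis holds. -/
lemma surjH_of_van {m m' : ℤ} (e : m + a = m') {G : ∀ c, C.D c m → Prop} {b t : ℕ}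
    (h : ∀ s, b + σ = s + 1 → C'.Van s (m' + 1)) (hb : 1 ≤ b + σ) : f.SurjH e G b t := by
  intro b' t' hb' ht h1 z' x' hx' _ _
  obtain ⟨s, rfl⟩ : ∃ s, b' = s + 1 := ⟨b' - 1, by omega⟩
  exact Or.inl ((h s hb' x' hx').k_eq_zero m' rfl)

lemma Inj.comp {σ' σ'' : ℕ} {a' a'' : ℤ} {g : CMap C' C'' σ' a'} (hσ : σ + σ' = σ'')
    (ha : a + a' = a'') {t : ℕ} {m : ℤ} (hf : f.Inj t m) (hg : g.Inj (t + σ) (m + a)) :
    (f.comp g hσ ha).Inj t m := by
  intro t' m' ht e b hb hn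
  exact hf (t + σ) (m + a) rfl rfl b hb
    (hg t' m' (by omega) (by omega) _ (f.isCocycle rfl rfl hb) hn)

lemma Surj.comp {σ' σ'' : ℕ} {a' a'' : ℤ} {g : CMap C' C'' σ' a'} (hσ : σ + σ' = σ'')
    (ha : a + a' = a'') {b : ℕ} {n : ℤ} (hb0 : 1 ≤ b + σ) (hf : f.Surj b n)
    (hg : g.Surj (b + σ) (n + a)) : (f.comp g hσ ha).Surj b n := by
  intro b' n' hb e x'' hx''
  obtain ⟨x', hx', hn'⟩ := hg b' n' (by omega) (by omega) x'' hx''
  obtain ⟨x, hx, hn⟩ := hf (b + σ) (n + a) rfl rfl x' hx'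
  refine ⟨x, hx, ?_⟩
  have h1 := g.null (r' := b' - 1) (t' := b') (n' := n') (by omega) (by omega) (by omega) hn
  have h2 := hn'.add h1
  rw [map_sub, sub_add_sub_cancel] at h2
  exact h2

lemma inj_of_van {s : ℕ} {m : ℤ} (h : C.Van s m) : f.Inj (s + 1) m :=
  fun _ _ _ _ b hb _ => null_of_isCobdy (h b hb)

lemma surj_of_van {b : ℕ} {n : ℤ} (hb : 1 ≤ b + σ) (h : ∀ s, b + σ = s + 1 → C'.Van s (n + a)) :
    f.Surj b n := by
  intro b' n' hb' e x' hx'
  subst e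
  obtain ⟨s, rfl⟩ : ∃ s, b' = s + 1 := ⟨b' - 1, by omega⟩
  refine ⟨0, isCocycle_zero, ?_⟩
  rw [map_zero, sub_zero]
  exact null_of_isCobdy (h s hb' x' hx')

/-- The plain multiplier lemma. -/
theorem lifts_of_inj_surj {m m' : ℤ} (e : m + a = m') {c c' T T' : ℕ} (hc : c + 1 + σ = c')
    (hT : T + σ = T') (h2 : c + 2 ≤ T)
    (hS : ∀ b, c + 1 ≤ b → b + 3 ≤ T → f.Surj b (m + 1))
    (hI : ∀ t, c + 2 ≤ t → t < T → f.Inj t m) (y : C.D (c + 1) m) (hj : C.j (c + 1) m y = 0)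
    (hl : Lifts (f.fD (c + 1) c' m m' hc e y) T') : Lifts (C.i c m y) T := by
  obtain ⟨w, -, hw⟩ := mult_main (f := f) (e := e) (G := fun _ _ => True) (c₀ := c) T
    (fun b t hb hb' ht => (hS b hb (by omega)).surjH e trivial)
    (fun c₁ t h1 h3 ht => (hI t (by omega) ht).injH e h3) T le_rfl c c' T' hc hT (by omega)
    le_rfl h2 y trivial hj hl
  exact ⟨by omega, w, hw⟩

/-- The multiplier lemma for an element `u` which lifts one step. -/
theorem lifts_of_lifts {m m' : ℤ} (e : m + a = m') {c c' T T' : ℕ} (hc : c + σ = c')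
    (hT : T + σ = T') (h2 : c + 2 ≤ T)
    (hS : ∀ b, c ≤ b → b + 2 ≤ T → f.Surj b (m + 1))
    (hI : ∀ t, c + 1 ≤ t → t < T → f.Inj t m) (u : C.D c m) (hu : Lifts u (c + 1))
    (hl : Lifts (f.fD c c' m m' hc e u) T') : Lifts u T := by
  obtain ⟨h0, y, rfl⟩ := hu
  obtain ⟨h1, w', hw'⟩ := hl
  have h3 : c' + 1 ≤ T' := by omega
  have hc1 : c + 1 + σ = c' + 1 := by omega
  rw [proj_one] at hw' ⊢
  have key : ∀ y₁ : C.D (c + 1) m, C.i c m y₁ = C.i c m y → ∃ e' : C'.E c' (m' + 1),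
      C'.k c' (m' + 1) m' rfl e' = f.fD (c + 1) (c' + 1) m m' hc1 e y₁ - C'.proj m' h3 w' := by
    intro y₁ hy₁
    refine C'.exact_i c' (m' + 1) m' rfl _ ?_
    rw [map_sub, f.i_f c c' m m' hc, hy₁, C'.i_proj, hw', sub_self]
  obtain ⟨e', he'⟩ := key y rfl
  have hn : Null C c (C.j (c + 1) m y) := by
    refine hI (c + 1) le_rfl (by omega) (c' + 1) m' hc1 e _ (C.isCocycle_j y) ?_
    refine null_of_isCobdy (s := c') ⟨e', ?_⟩
    rw [Couple.d_apply, he', map_sub, j_proj (by omega), sub_zero, f.j_f]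
  obtain ⟨_, z, hz, hjz⟩ := hn
  rw [proj_one] at hz
  have hy₁ : C.i c m (y - z) = C.i c m y := by rw [map_sub, hz, sub_zero]
  have hj₁ : C.j (c + 1) m (y - z) = 0 := by rw [map_sub, hjz, sub_self]
  obtain ⟨e₁, he₁⟩ := key (y - z) hy₁
  have hco : C'.IsCocycle e₁ := by
    intro l hl
    obtain rfl : l = m' := by linarith
    rw [Couple.d_apply, he₁, map_sub, j_proj (by omega), sub_zero, f.j_f, hj₁, map_zero]
  obtain ⟨x, hx, hn'⟩ := hS c le_rfl h2 c' (m' + 1) hc (by omega) e₁ hco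
  have h4 := Null.k_eq_zero (m := m') rfl hn'
  rw [map_sub, sub_eq_zero, f.k_f c c' (m + 1) (m' + 1) m m' hc hc1 (by omega) e rfl rfl,
    he₁] at h4
  have h5 : C.i c m (y - z - C.k c (m + 1) m rfl x) = C.i c m y := by
    rw [map_sub, C.i_k, sub_zero, hy₁]
  rw [← h5]
  refine lifts_of_inj_surj e hc1 hT h2 (fun b hb hb' => hS b (by omega) (by omega))
    (fun t ht ht' => hI t (by omega) ht') _ ?_ ⟨h3, w', ?_⟩
  · rw [map_sub, hj₁, zero_sub, neg_eq_zero]
    exact hx m rfl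
  · rw [map_sub, ← h4, sub_sub_cancel]

/-- **Survival.** The boundary of a cocycle `x` lifts as far as the boundary of its image. -/
theorem survive_lifts {m m' : ℤ} (e : m + a = m') {r r' T T' : ℕ} (hr : r + σ = r')
    (hT : T + σ = T') (h2 : r + 3 ≤ T)
    (hS : ∀ b, r + 1 ≤ b → b + 2 ≤ T → f.Surj b (m + 1))
    (hI : ∀ t, r + 2 ≤ t → t < T → f.Inj t m) (x : C.E r (m + 1)) (hx : C.IsCocycle x)
    (hl : Lifts (C'.k r' (m' + 1) m' rfl (f.fE r r' (m + 1) (m' + 1) hr (by omega) x)) T') :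
    Lifts (C.k r (m + 1) m rfl x) T := by
  refine lifts_of_lifts e (c' := r' + 1) (by omega) hT h2 hS hI _ (lifts_two rfl x hx) ?_
  rwa [← f.k_f r r' (m + 1) (m' + 1) m m' hr (by omega) (by omega) e rfl rfl]

/-- **Survival.** A cocycle whose image is a boundary is a permanent cycle. -/
theorem survive {m m' : ℤ} (e : m + a = m') {r r' T : ℕ} (hr : r + σ = r') (h2 : r + 3 ≤ T)
    (hS : ∀ b, r + 1 ≤ b → b + 2 ≤ T → f.Surj b (m + 1))
    (hI : ∀ t, r + 2 ≤ t → t < T → f.Inj t m) (hD : ∀ y : C.D T m, y = 0)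
    (x : C.E r (m + 1)) (hx : C.IsCocycle x) {q : ℕ}
    (hn : Null C' q (f.fE r r' (m + 1) (m' + 1) hr (by omega) x)) :
    ∃ y : C.D r (m + 1), C.j r (m + 1) y = x := by
  refine exists_j_eq rfl x T (survive_lifts e hr rfl h2 hS hI x hx ?_) hD
  rw [Null.k_eq_zero rfl hn]
  exact Lifts.zero (by omega)

/-- **Vanishing.** An element whose image dies one step down dies one step down. -/
theorem vanish {m m' : ℤ} (e : m + a = m') {c c' T : ℕ} (hc : c + σ = c') (h2 : c + 2 ≤ T)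
    (hS : ∀ b, c ≤ b → b + 2 ≤ T → f.Surj b (m + 1))
    (hI : ∀ t, c + 1 ≤ t → t < T → f.Inj t m) (hD : ∀ y : C.D T m, y = 0)
    (y : C.D (c + 1) m)
    (hy : C'.i c' m' (f.fD (c + 1) (c' + 1) m m' (by omega) e y) = 0) : C.i c m y = 0 := by
  refine Lifts.eq_zero (lifts_of_lifts e hc rfl h2 hS hI _ ⟨_, y, proj_one C y⟩ ?_) hD
  rw [← f.i_f c c' m m' hc (by omega) e, hy]
  exact Lifts.zero (by omega)

/-- **Vanishing**, for an element of higher filtration whose image is zero. -/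
theorem vanish' {m m' : ℤ} (e : m + a = m') {c c' T : ℕ} (hc : c + 1 + σ = c') (h2 : c + 2 ≤ T)
    (hS : ∀ b, c + 1 ≤ b → b + 3 ≤ T → f.Surj b (m + 1))
    (hI : ∀ t, c + 2 ≤ t → t < T → f.Inj t m) (hD : ∀ y : C.D T m, y = 0)
    (y : C.D (c + 1) m) (hj : C.j (c + 1) m y = 0) (hy : f.fD (c + 1) c' m m' hc e y = 0) :
    C.i c m y = 0 := by
  refine Lifts.eq_zero (lifts_of_inj_surj e hc rfl h2 hS hI y hj ?_) hD
  rw [hy]
  exact Lifts.zero (by omega)

end CMap

/-! ### Differentials -/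

section Diff

variable {C : Couple.{u, v}}

/-- `Dif x z`: the class `x` supports a differential with target `z` (`d_(t-s) x = z`). -/
def Dif {s t : ℕ} {m : ℤ} (x : C.E s (m + 1)) (z : C.E t m) : Prop :=
  ∃ h : s + 1 ≤ t, ∃ y : C.D t m, C.proj m h y = C.k s (m + 1) m rfl x ∧ C.j t m y = z

variable {s t : ℕ} {m : ℤ}

lemma Dif.add {x x' : C.E s (m + 1)} {z z' : C.E t m} (h : Dif x z) (h' : Dif x' z') :
    Dif (x + x') (z + z') := by
  obtain ⟨h1, y, hy, rfl⟩ := h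
  obtain ⟨_, y', hy', rfl⟩ := h'
  exact ⟨h1, y + y', by rw [proj_add, hy, hy', map_add], map_add _ _ _⟩

lemma Dif.zsmul {x : C.E s (m + 1)} {z : C.E t m} (c : ℤ) (h : Dif x z) :
    Dif (c • x) (c • z) := by
  obtain ⟨h1, y, hy, rfl⟩ := h
  exact ⟨h1, c • y, by rw [proj_zsmul, hy, map_zsmul], map_zsmul _ _ _⟩

lemma Dif.neg {x : C.E s (m + 1)} {z : C.E t m} (h : Dif x z) : Dif (-x) (-z) := by
  simpa using h.zsmul (-1)

lemma Dif.sub {x x' : C.E s (m + 1)} {z z' : C.E t m} (h : Dif x z) (h' : Dif x' z') :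
    Dif (x - x') (z - z') := by
  rw [sub_eq_add_neg, sub_eq_add_neg]
  exact h.add h'.neg

lemma Dif.zero (h : s + 1 ≤ t) : Dif (0 : C.E s (m + 1)) (0 : C.E t m) :=
  ⟨h, 0, by rw [C.proj_zero', map_zero], map_zero _⟩

lemma Dif.sum {ι : Type} (A : Finset ι) (h : s + 1 ≤ t) {x : ι → C.E s (m + 1)}
    {z : ι → C.E t m} (hx : ∀ i ∈ A, Dif (x i) (z i)) : Dif (∑ i ∈ A, x i) (∑ i ∈ A, z i) := by
  classical
  induction A using Finset.induction_on with
  | empty => simpa using Dif.zero h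
  | insert i A hi ih =>
    rw [Finset.sum_insert hi, Finset.sum_insert hi]
    exact (hx i (Finset.mem_insert_self _ _)).add
      (ih fun j hj => hx j (Finset.mem_insert_of_mem hj))

/-- The target of a differential. -/
lemma Dif.null {x : C.E s (m + 1)} {z : C.E t m} (h : Dif x z) : Null C s z := by
  obtain ⟨h1, y, hy, rfl⟩ := h
  exact ⟨by omega, y, by rw [← C.i_proj m h1, hy, C.i_k], rfl⟩

lemma exists_dif_of_null {z : C.E t m} (h1 : s + 1 ≤ t) (h : Null C s z) :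
    ∃ x : C.E s (m + 1), Dif x z := by
  obtain ⟨_, y, hy, rfl⟩ := h
  obtain ⟨x, hx⟩ := C.exact_i s (m + 1) m rfl (C.proj m h1 y) (by rw [C.i_proj, hy])
  exact ⟨x, h1, y, hx.symm, rfl⟩

lemma Dif.lifts {x : C.E s (m + 1)} {z : C.E t m} (h : Dif x z) :
    Lifts (C.k s (m + 1) m rfl x) t := by
  obtain ⟨h1, y, hy, -⟩ := h
  exact ⟨h1, y, hy⟩

lemma exists_dif_of_lifts {x : C.E s (m + 1)} (h : Lifts (C.k s (m + 1) m rfl x) t) :
    ∃ z : C.E t m, Dif x z := by
  obtain ⟨h1, y, hy⟩ := h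
  exact ⟨_, h1, y, hy, rfl⟩

lemma Dif.isCocycle_target {x : C.E s (m + 1)} {z : C.E t m} (h : Dif x z) : C.IsCocycle z :=
  Null.isCocycle h.null

lemma Dif.isCocycle {x : C.E s (m + 1)} {z : C.E t m} (h : Dif x z) (h2 : s + 2 ≤ t) :
    C.IsCocycle x := by
  obtain ⟨h1, y, hy, -⟩ := h
  intro l hl
  obtain rfl : l = m := by linarith
  rw [Couple.d_apply, ← hy, j_proj h2]

/-- The source only matters through its boundary. -/
lemma Dif.congr_k {x x' : C.E s (m + 1)} {z : C.E t m} (h : Dif x z)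
    (hk : C.k s (m + 1) m rfl x' = C.k s (m + 1) m rfl x) : Dif x' z := by
  obtain ⟨h1, y, hy, hz⟩ := h
  exact ⟨h1, y, hy.trans hk.symm, hz⟩

lemma Dif.of_null_source {x x' : C.E s (m + 1)} {z : C.E t m} {q : ℕ} (h : Dif x z)
    (hn : Null C q (x' - x)) : Dif x' z := by
  have h1 := Null.k_eq_zero (m := m) rfl hn
  rw [map_sub, sub_eq_zero] at h1
  exact h.congr_k h1

/-- The indeterminacy of the target. -/
lemma dif_zero_iff {z : C.E t m} : Dif (0 : C.E s (m + 1)) z ↔ Null C (s + 1) z := by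
  constructor
  · rintro ⟨h, y, hy, rfl⟩
    exact ⟨h, y, by rw [hy, map_zero], rfl⟩
  · rintro ⟨h, y, hy, rfl⟩
    exact ⟨h, y, by rw [hy, map_zero], rfl⟩

lemma Dif.of_null_target {x : C.E s (m + 1)} {z z' : C.E t m} (h : Dif x z)
    (hn : Null C (s + 1) (z' - z)) : Dif x z' := by
  simpa using h.add (dif_zero_iff.2 hn)

lemma Dif.unique {x : C.E s (m + 1)} {z z' : C.E t m} (h : Dif x z) (h' : Dif x z') :
    Null C (s + 1) (z - z') := by
  have h1 := h.sub h'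
  rw [sub_self] at h1
  exact dif_zero_iff.1 h1

/-- The target of a differential on a permanent cycle. -/
lemma Dif.null_of_k {x : C.E s (m + 1)} {z : C.E t m} (h : Dif x z)
    (hk : C.k s (m + 1) m rfl x = 0) : Null C (s + 1) z :=
  dif_zero_iff.1 (h.congr_k (by rw [hk, map_zero]))

/-- If the target is killed by a shorter differential the source lives longer. -/
lemma Dif.lifts_succ {x : C.E s (m + 1)} {z : C.E t m} (h : Dif x z) (hn : Null C (s + 1) z) :
    Lifts (C.k s (m + 1) m rfl x) (t + 1) := by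
  obtain ⟨h1, y, hy, hz⟩ := h.of_null_target (z' := 0) (by simpa using Null.neg hn)
  obtain ⟨y', rfl⟩ := C.exact_j _ _ _ hz
  exact ⟨by omega, y', by rw [C.proj_succ m h1, hy]⟩

lemma Dif.null_of_lifts {x : C.E s (m + 1)} {z : C.E t m} (h : Dif x z)
    (hl : Lifts (C.k s (m + 1) m rfl x) (t + 1)) : Null C (s + 1) z := by
  obtain ⟨h1, y', hy'⟩ := hl
  have h2 : s + 1 ≤ t := h.1
  have h3 : Dif x (0 : C.E t m) :=
    ⟨h2, C.i t m y', by rw [← C.proj_succ m h2, hy'], C.j_i _ _ _⟩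
  simpa using h.unique h3

/-- A class killed from filtration `s` is killed from filtration `s + 1` if the cocycles of
filtration `s` which live long enough have null differentials. -/
lemma Null.succ_of_dif {z : C.E t m} (h1 : s + 1 ≤ t) (hz : Null C s z)
    (h : ∀ x : C.E s (m + 1), Dif x z → Null C (s + 1) z) : Null C (s + 1) z := by
  obtain ⟨x, hx⟩ := exists_dif_of_null h1 hz
  exact h x hx

/-- The same when the `E₂`-term of the source vanishes. -/
lemma Null.succ_of_van {z : C.E t m} (h1 : s + 3 ≤ t) (hz : Null C (s + 1) z)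
    (hv : C.Van s (m + 1)) : Null C (s + 2) z :=
  Null.succ_of_dif (by omega) hz fun x hx =>
    hx.null_of_k ((hv x (hx.isCocycle (by omega))).k_eq_zero m rfl)

lemma Null.of_van {r r' : ℕ} {z : C.E t m} (hr : r ≤ r') (h1 : r' + 1 ≤ t) (h0 : 1 ≤ r)
    (hz : Null C r z) (hv : ∀ s, r ≤ s + 1 → s + 1 < r' → C.Van s (m + 1)) : Null C r' z := by
  induction r', hr using Nat.le_induction with
  | base => exact hz
  | succ r' hr ih =>
    obtain ⟨s, rfl⟩ : ∃ s, r' = s + 1 := ⟨r' - 1, by omega⟩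
    exact Null.succ_of_van (by omega) (ih (by omega) fun s hs hs' => hv s hs (by omega))
      (hv s hr (by omega))

/-- Maps of couples preserve the differentials. -/
lemma CMap.dif {C' : Couple.{u', v'}} {σ : ℕ} {a : ℤ} (f : CMap C C' σ a) {s' t' : ℕ} {m' : ℤ}
    (hs : s + σ = s') (ht : t + σ = t') (e : m + a = m') {x : C.E s (m + 1)} {z : C.E t m}
    (h : Dif x z) :
    Dif (f.fE s s' (m + 1) (m' + 1) hs (by omega) x) (f.fE t t' m m' ht e z) := by
  obtain ⟨h1, y, hy, rfl⟩ := h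
  refine ⟨by omega, f.fD t t' m m' ht e y, ?_, f.j_f ..⟩
  rw [f.proj_f e (by omega) ht h1, hy,
    f.k_f s s' (m + 1) (m' + 1) m m' hs (by omega) (by omega) e rfl rfl]

end Diff

end Vale.Agent.P236K.SS
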