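import Vale.Agent.P236K.SS.Und

/-!
# P236K, block SS: crossing differentials and the cone of a class of filtration one

* `cross`: the crossing lemma for three exact couples;
* `cupG_d0`: the Leibniz rule for the cup product with a cochain of degree zero;
* `cone_data`: the cone `W` of `g ≫ bd` for `g : X ⟶ B 1 V`;
* `clsZ`: the class of the product of a cochain of `Cob Laz` with a cochain with values in `W`.
-/

open CategoryTheory MonoidalCategory Limits Pretriangulated MonObj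

set_option linter.unusedSectionVars false

universe v u u₁ v₁ u₂ v₂ u₃ v₃

namespace Vale.Agent.P236K.SS

open Vale.Agent.P251 Vale.Agent.P251.T Vale.Agent.P251.F Vale.Agent.P251.I
  Vale.Agent.P251.M Vale.Agent.P257.H314 Vale.Agent.P257.H712 Vale.Agent.P251.H
open Vale.Agent.P251.S hiding IC

/-! ### Pure exact couples -/

section Couples

variable {C : Couple.{u₁, v₁}} {C' : Couple.{u₂, v₂}} {C'' : Couple.{u₃, v₃}}

/-- A map of degree zero on `E`. -/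
abbrev CMap.e0 (f : CMap C C' 0 0) {s : ℕ} {n : ℤ} (x : C.E s n) : C'.E s n :=
  f.fE s s n n rfl (add_zero n) x

/-- A map of degree zero on `D`. -/
abbrev CMap.d0 (f : CMap C C' 0 0) {s : ℕ} {n : ℤ} (x : C.D s n) : C'.D s n :=
  f.fD s s n n rfl (add_zero n) x

lemma CMap.proj_d0 (f : CMap C C' 0 0) {r s : ℕ} {n : ℤ} (h : r ≤ s) (x : C.D s n) :
    C'.proj n h (f.d0 x) = f.d0 (C.proj n h x) := f.proj_f (add_zero n) rfl rfl h h x

lemma CMap.k_e0 (f : CMap C C' 0 0) {s : ℕ} {n m : ℤ} (h : n = m + 1) (x : C.E s n) :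
    C'.k s n m h (f.e0 x) = f.d0 (C.k s n m h x) :=
  f.k_f s s n n m m rfl rfl (add_zero n) (add_zero m) h h x

/-- **The crossing lemma.** -/
theorem cross (ι : CMap C C' 0 0) (π : CMap C' C'' 0 0)
    (h0 : ∀ (s : ℕ) (n : ℤ) (y : C.D s n), π.d0 (ι.d0 y) = 0) {s t t' : ℕ} {m : ℤ}
    (hs : s + 1 ≤ t) (ht : t + 2 ≤ t') {w : C.E s (m + 1)} {a₁ : C.E (t + 1) m} (h1 : Dif w a₁)
    {W : C'.E t (m + 1)} (hW : C'.d t (m + 1) m rfl W = ι.e0 a₁) {a₂ : C''.E t' m}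
    (h2 : Dif (π.e0 W) a₂) (hv : ∀ r, t + 1 ≤ r → r + 1 < t' → C'.Van r m) :
    ∃ X : C'.E t' m, Dif (ι.e0 w) X ∧ Null C'' (t + 1) (π.e0 X + a₂) := by
  obtain ⟨hs1, y, hy, rfl⟩ := h1
  obtain ⟨ht1, y₁, hy₁, rfl⟩ := h2
  obtain ⟨y', hy'⟩ := C'.exact_j (t + 1) m (ι.d0 y - C'.k t (m + 1) m rfl W) (by
    rw [map_sub, ι.j_f, ← Couple.d_apply, hW, sub_self])
  obtain ⟨_, z, hz⟩ := Lifts.of_van (u := ι.d0 y - C'.k t (m + 1) m rfl W) (t := t + 2) le_rfl ht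
    ⟨by omega, y', by rw [proj_one, hy']⟩ fun r hr hr' => hv r (by omega) hr'
  refine ⟨C'.j t' m z, ⟨by omega, z, ?_, rfl⟩, ht1, π.d0 z + y₁, ?_, ?_⟩
  · rw [← proj_proj C' hs1 ht1, hz, proj_sub, proj_k C' rfl hs1 hs, sub_zero, ι.proj_d0, hy,
      ι.k_e0]
  · rw [proj_add, π.proj_d0, hz, hy₁, π.k_e0, CMap.d0, map_sub]
    exact (sub_add_cancel _ _).trans (h0 _ _ y)
  · rw [map_add, π.j_f]

/-- The `E₁`-terms form short exact sequences. -/
structure SES (ι : CMap C C' 0 0) (π : CMap C' C'' 0 0) : Prop where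
  inj : ∀ (s : ℕ) (n : ℤ) (x : C.E s n), ι.e0 x = 0 → x = 0
  exact : ∀ (s : ℕ) (n : ℤ) (y : C'.E s n), π.e0 y = 0 → ∃ x, ι.e0 x = y
  surj : ∀ (s : ℕ) (n : ℤ) (z : C''.E s n), ∃ y, π.e0 y = z

variable {ι : CMap C C' 0 0} {π : CMap C' C'' 0 0}

lemma CMap.d_e0 (f : CMap C C' 0 0) {s : ℕ} {n m : ℤ} (h : n = m + 1) (x : C.E s n) :
    C'.d s n m h (f.e0 x) = f.e0 (C.d s n m h x) :=
  f.d_f rfl rfl (add_zero n) (add_zero m) h h x

/-- Exactness of the long exact sequence in the middle. -/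
lemma SES.mid (H : SES ι π) {r : ℕ} {m : ℤ} {X : C'.E (r + 1) m} (hX : C'.IsCocycle X)
    (h : C''.IsCobdy (π.e0 X)) :
    ∃ e : C.E (r + 1) m, C.IsCocycle e ∧ C'.IsCobdy (X - ι.e0 e) := by
  obtain ⟨y, hy⟩ := h
  obtain ⟨Y, rfl⟩ := H.surj _ _ y
  obtain ⟨e, he⟩ := H.exact _ _ (X - C'.d r (m + 1) m rfl Y) (by
    rw [CMap.e0, map_sub, sub_eq_zero]
    exact hy.symm.trans (π.d_e0 rfl Y))
  refine ⟨e, fun l hl => H.inj _ _ _ ?_, Y, by rw [he, sub_sub_cancel]⟩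
  rw [← ι.d_e0, he, map_sub, hX l hl, C'.d_d, sub_zero]

lemma SES.van (H : SES ι π) {r : ℕ} {m : ℤ} (h : C.Van r m) (h'' : C''.Van r m) :
    C'.Van r m := by
  intro X hX
  obtain ⟨e, he, Y, hY⟩ := H.mid hX (h'' _ (π.isCocycle rfl (add_zero m) hX))
  obtain ⟨x, rfl⟩ := h e he
  exact ⟨Y + ι.e0 x, by rw [map_add, hY, ι.d_e0, sub_add_cancel]⟩

/-- Vanishing is transported along maps which are bijective on `E₁`. -/
lemma van_of_bij {a : ℤ} (f : CMap C C' 0 a)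
    (hf : ∀ (s : ℕ) (n n' : ℤ) (e : n + a = n'), Function.Bijective (f.fE s s n n' rfl e))
    {r : ℕ} {m m' : ℤ} (e : m + a = m') (h : C.Van r m) : C'.Van r m' := by
  intro X hX
  obtain ⟨x, rfl⟩ := (hf _ m m' e).2 X
  obtain ⟨y, rfl⟩ := h x fun l hl => (hf _ l (l + a) rfl).1 (by
    rw [← f.d_f rfl rfl e rfl hl (by omega), hX, map_zero])
  exact ⟨f.fE r r (m + 1) (m' + 1) rfl (by omega) y, f.d_f rfl rfl _ e rfl rfl y⟩

end Couples

/-! ### The Leibniz rule for a cochain of degree zero -/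

section Cobar

variable {C : Type u} [Category.{v} C] [Preadditive C] (K : CobarData C)

lemma cupG_one {Y' Y : C} (s : ℕ) (z : Y' ⟶ K.Q 2 Y) :
    cupG K 1 s (s + 1) rfl z = K.Qm s (K.M.map z ≫ K.mu (K.M.obj Y)) :=
  cupG_zero K s (Y := K.M.obj Y) z

lemma cupG_d0 {Y' Y : C} (s : ℕ) (z : Y' ⟶ K.Q 1 Y) :
    cupG K 0 s s rfl z ≫ K.d (s + 1) Y = K.d (s + 1) Y' ≫ cupG K 0 (s + 1) (s + 1) rfl z +
      (-1 : ℤ) ^ s • cupG K 1 s (s + 1) rfl (z ≫ K.d 1 Y) := by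
  have h1 : K.d 1 Y = K.un (K.M.obj Y) - K.M.map (K.un Y) := by
    rw [K.d_succ 0 Y, sub_eq_add_neg]
    simp only [zero_add, pow_one, neg_smul, one_smul]
    rfl
  have h2 : K.M.map (z ≫ K.d 1 Y) ≫ K.mu (K.M.obj Y) =
      K.M.map z - (K.M.map z ≫ K.mu Y) ≫ K.M.map (K.un Y) := by
    rw [h1, Preadditive.comp_sub, Functor.map_sub, Preadditive.sub_comp, Functor.map_comp,
      Functor.map_comp, Category.assoc, Category.assoc, Category.assoc, K.right_unit,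
      Category.comp_id, K.mu_nat]
  have h3 : K.un Y' ≫ K.M.map z ≫ K.mu Y = z := by
    rw [← K.un_nat_assoc, K.left_unit, Category.comp_id]
  have h4 : K.lam (s + 1) Y' ≫ K.Qm (s + 1) (K.M.map z ≫ K.mu Y) = K.Qm s (K.M.map z) := by
    rw [CobarData.lam, ← CobarData.Qm_comp, h3]
    rfl
  have h5 : K.Qm s (K.M.map z ≫ K.mu Y) ≫ K.lam (s + 1) Y =
      K.Qm s ((K.M.map z ≫ K.mu Y) ≫ K.M.map (K.un Y)) := (K.Qm_comp s _ _).symm
  rw [cupG_zero, cupG_zero, cupG_one, h2, K.d_succ s Y, K.d_succ s Y', Preadditive.comp_add,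
    Preadditive.add_comp, Preadditive.comp_zsmul, Preadditive.zsmul_comp, h4, h5,
    CobarData.Qm_sub, K.d_naturality, pow_succ, mul_neg_one, neg_smul, neg_smul, smul_sub]
  abel

lemma Qm_cupG_of_unit {Y Y' : C} (s : ℕ) {f : Y ⟶ Y'} {h : Y' ⟶ K.Q 1 Y} (hf : f ≫ h = K.un Y) :
    K.Qm (s + 1) f ≫ cupG K 0 s s rfl h = 𝟙 _ := by
  rw [cupG_pre, hf, cupG_zero, K.right_unit, CobarData.Qm_id]

/-- A cocycle of degree one whose image in the `E₁`-term is zero is zero. -/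
lemma eq_zero_of_q_one {P Y : C} (z : P ⟶ K.Q 2 Y) (hd : z ≫ K.d 2 Y = 0)
    (hq : z ≫ K.q 1 Y = 0) : z = 0 := by
  obtain ⟨c', h1, h2⟩ := K.exists_cobdy (F := preadditiveCoyoneda.obj (Opposite.op P)) 0 Y z hd 0
    (by rw [map_zero]; exact hq)
  rw [CobarData.q_zero, CobarData.ev_id] at h2
  rw [h2, map_zero] at h1
  exact h1.symm

end Cobar

/-! ### The cone of a class of filtration one -/

variable {T : Type u} [Category.{v} T] [Preadditive T] [HasZeroObject T] [HasShift T ℤ]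
  [∀ n : ℤ, (shiftFunctor T n).Additive] [Pretriangulated T] [MonoidalCategory T]
  [SymmetricCategory T] [TensorTriangulated T]

section Cone

variable {R : T} [MonObj R] (U : UnitCof R)

lemma exists_dist_Q (s : ℕ) {X Y Z : T} {f : X ⟶ Y} {g : Y ⟶ Z} {h : Z ⟶ X⟦(1 : ℤ)⟧}
    (H : Dist f g h) : ∃ h', Dist (U.cobar.Qm s f) (U.cobar.Qm s g) h' := by
  induction s generalizing X Y Z with
  | zero => exact ⟨h, H⟩
  | succ s ih => exact ih (dist_whiskerLeft R H)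

/-- The cone `W` of `g ≫ bd`: the generator `ε` on the top cell and its coboundary. -/
theorem cone_data {X V W : T} (g : X ⟶ U.cobar.B 1 V) {ι : V ⟶ W} {π : W ⟶ X}
    (H : Dist ι π (g ≫ U.bd 0 V)) (z : X ⟶ U.cobar.Q 2 V) (hz : z ≫ U.cobar.d 2 V = 0)
    (hq : z ≫ U.cobar.q 1 V = g ≫ unitMap R _) :
    ∃ (h : W ⟶ R ⊗ V) (ε : X ⟶ R ⊗ W), ι ≫ h = unitMap R V ∧
      ε ≫ (R ◁ π) = -unitMap R X ∧ ε ≫ U.cobar.d 1 W = z ≫ U.cobar.Qm 2 ι := by
  obtain ⟨h, h1, h2⟩ : ∃ h : W ⟶ R ⊗ V, ι ≫ h = 𝟙 _ ≫ unitMap R V ∧ π ≫ g = h ≫ (U.ρ ▷ V) :=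
    H.map₂ (U.triangle_distinguished V) (𝟙 _) g (by
      rw [CategoryTheory.Functor.map_id, Category.comp_id]
      rfl)
  rw [Category.id_comp] at h1
  have h3 : h ≫ U.cobar.d 1 V = π ≫ z := by
    rw [← sub_eq_zero]
    apply eq_zero_of_q_one U.cobar
    · rw [Preadditive.sub_comp, Category.assoc, CobarData.d_d, comp_zero, Category.assoc, hz,
        comp_zero, sub_zero]
    · rw [Preadditive.sub_comp, Category.assoc, CobarData.d_q, CobarData.q_zero,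
        Category.id_comp, Category.assoc, hq]
      change h ≫ (U.ρ ▷ V) ≫ unitMap R _ - _ = 0
      rw [reassoc_of% h2, sub_self]
  have hr (s : ℕ) := Qm_cupG_of_unit U.cobar s (f := ι) (h := h) h1
  obtain ⟨σ, hσ1, hσ2⟩ : ∃ σ : R ⊗ X ⟶ R ⊗ W, σ ≫ (R ◁ π) = 𝟙 _ ∧
      (R ◁ π) ≫ σ = 𝟙 (R ⊗ W) - cupG U.cobar 0 0 0 rfl h ≫ (R ◁ ι) :=
    exists_section_of_retraction _ (dist_whiskerLeft R H) (cupG U.cobar 0 0 0 rfl h) (hr 0)
  have h4 : σ ≫ cupG U.cobar 0 0 0 rfl h = 0 := by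
    have h5 : (R ◁ ι) ≫ cupG U.cobar 0 0 0 rfl h = 𝟙 _ := hr 0
    have h6 : σ ≫ cupG U.cobar 0 0 0 rfl h =
        σ ≫ ((R ◁ π) ≫ σ) ≫ cupG U.cobar 0 0 0 rfl h := by
      rw [Category.assoc, reassoc_of% hσ1]
    rw [h6, hσ2, Preadditive.sub_comp, Category.assoc, h5, Category.id_comp,
      Category.comp_id, sub_self, comp_zero]
  have h6 : (-(unitMap R X ≫ σ)) ≫ (R ◁ π) = -unitMap R X := by
    rw [Preadditive.neg_comp, Category.assoc, hσ1, Category.comp_id]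
  refine ⟨h, -(unitMap R X ≫ σ), h1, h6, ?_⟩
  obtain ⟨h', H'⟩ := exists_dist_Q U 2 H
  have h7 : ι ≫ π = 0 := H.zero₁₂
  obtain ⟨x, hx⟩ := H'.lift₂ ((-(unitMap R X ≫ σ)) ≫ U.cobar.d 1 W - z ≫ U.cobar.Qm 2 ι) (by
    rw [Preadditive.sub_comp, Category.assoc, ← U.cobar.d_naturality 1 π, Category.assoc,
      ← CobarData.Qm_comp, h7, CobarData.Qm_zero', comp_zero, sub_zero, ← Category.assoc]
    refine (congrArg (· ≫ U.cobar.d 1 X) h6).trans ?_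
    rw [Preadditive.neg_comp, neg_eq_zero]
    exact U.cobar.d_d 0 X)
  have h8 := cupG_d0 U.cobar 0 h
  rw [pow_zero, one_smul, h3, ← cupG_pre, ← sub_eq_iff_eq_add] at h8
  have h9 : x = 0 := by
    rw [← Category.comp_id x, ← hr 1, ← Category.assoc, hx, Preadditive.sub_comp, Category.assoc,
      Category.assoc, hr 1, Category.comp_id, ← h8, Preadditive.comp_sub, Preadditive.neg_comp,
      Category.assoc, reassoc_of% h4, zero_comp, comp_zero, neg_zero, zero_sub, ← Category.assoc]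
    refine (congrArg (fun f => -(f ≫ cupG U.cobar 1 0 1 rfl z) - z) h6).trans ?_
    have h10 : unitMap R X ≫ cupG U.cobar 1 0 1 rfl z = z := by
      rw [cupG_one]
      change unitMap R X ≫ (R ◁ z) ≫ mulMap R _ = z
      rw [← unitMap_nat_assoc, unitMap_mulMap, Category.comp_id]
    simp only [Preadditive.neg_comp, h10, neg_neg, sub_self]
  rw [← sub_eq_zero, ← hx, h9, zero_comp]

variable (R) in
/-- `R ⊗ f` is a split monomorphism. -/
def SplitR {X Y : T} (f : X ⟶ Y) : Prop := ∃ r : R ⊗ Y ⟶ R ⊗ X, (R ◁ f) ≫ r = 𝟙 _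

lemma SplitR.of_unit {X Y : T} {f : X ⟶ Y} {h : Y ⟶ R ⊗ X} (hf : f ≫ h = unitMap R X) :
    SplitR R f :=
  ⟨(R ◁ h) ≫ mulMap R X, by
    rw [← MonoidalCategory.whiskerLeft_comp_assoc, hf, whiskerLeft_unitMap_mulMap]⟩

lemma SplitR.whiskerLeft {X Y : T} {f : X ⟶ Y} (h : SplitR R f) (A : T) : SplitR R (A ◁ f) := by
  obtain ⟨r, hr⟩ := h
  refine ⟨(α_ R A Y).inv ≫ ((β_ R A).hom ▷ Y) ≫ (α_ A R Y).hom ≫ (A ◁ r) ≫ (α_ A R X).inv ≫
    ((β_ R A).inv ▷ X) ≫ (α_ R A X).hom, ?_⟩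
  rw [associator_inv_naturality_right_assoc, whisker_exchange_assoc,
    associator_naturality_right_assoc, ← MonoidalCategory.whiskerLeft_comp_assoc, hr]
  simp

lemma SplitR.iso_comp {X' X Y : T} {f : X ⟶ Y} (h : SplitR R f) (e : X' ≅ X) :
    SplitR R (e.hom ≫ f) := by
  obtain ⟨r, hr⟩ := h
  exact ⟨r ≫ (R ◁ e.inv), by
    rw [MonoidalCategory.whiskerLeft_comp, Category.assoc, reassoc_of% hr,
      ← MonoidalCategory.whiskerLeft_comp, Iso.hom_inv_id, MonoidalCategory.whiskerLeft_id]⟩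

lemma SplitR.Bm {X Y : T} {f : X ⟶ Y} (h : SplitR R f) (s : ℕ) : SplitR R (U.cobar.Bm s f) := by
  induction s generalizing X Y with
  | zero => exact h
  | succ s ih => exact ih (h.whiskerLeft U.J)

variable {U} {P : T}

lemma mapD_mapD {X Y Z : T} (f : X ⟶ Y) (g : Y ⟶ Z) {s : ℕ} {n : ℤ} (y : (TC U P X).D s n) :
    mapD g (mapD f y) = mapD (f ≫ g) y := by
  apply (eD U P rfl).injective
  rw [eD_mapD, eD_mapD, eD_mapD, CobarData.Bm_comp, Category.assoc]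

lemma mapD_zero {X Y : T} {s : ℕ} {n : ℤ} (y : (TC U P X).D s n) : mapD (0 : X ⟶ Y) y = 0 := by
  apply (eD U P rfl).injective
  rw [eD_mapD, CobarData.Bm_zero', comp_zero, map_zero]

/-- The short exact sequences of the `E₁`-terms of a triangle which is split by `R`. -/
lemma ses_of_split {X Y Z : T} {f : X ⟶ Y} {g : Y ⟶ Z} {h : Z ⟶ X⟦(1 : ℤ)⟧} (H : Dist f g h)
    (hf : SplitR R f) : SES (mapC U P f) (mapC U P g) where
  inj s n x hx := by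
    obtain ⟨r, hr⟩ := hf.Bm U s
    have h1 := eE_mapE f rfl x
    rw [show mapE f x = 0 from hx, map_zero] at h1
    apply (eE U P rfl).injective
    rw [← Category.comp_id (eE U P rfl x), ← hr, ← Category.assoc, ← h1, zero_comp, map_zero]
  exact s n y hy := by
    have h1 := eE_mapE g rfl y
    rw [show mapE g y = 0 from hy, map_zero] at h1
    obtain ⟨x, hx⟩ := exact_W U s H _ h1.symm
    refine ⟨(eE U P rfl).symm x, (eE U P rfl).injective ?_⟩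
    exact (eE_mapE f rfl _).trans (by rw [AddEquiv.apply_symm_apply, hx])
  surj s n z := by
    obtain ⟨r, hr⟩ := hf.Bm U s
    obtain ⟨h', H'⟩ := exists_dist_B U s H
    obtain ⟨σ, hσ, -⟩ : ∃ σ : R ⊗ U.cobar.B s Z ⟶ R ⊗ U.cobar.B s Y,
        σ ≫ (R ◁ U.cobar.Bm s g) = 𝟙 _ ∧ _ :=
      exists_section_of_retraction _ (dist_whiskerLeft R H') r hr
    refine ⟨(eE U P rfl).symm (eE U P rfl z ≫ σ), (eE U P rfl).injective ?_⟩
    exact (eE_mapE g rfl _).trans (by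
      rw [AddEquiv.apply_symm_apply, Category.assoc, hσ, Category.comp_id])

@[reassoc]
lemma κQ_add (k l m : ℤ) (h : k + l = m) (s : ℕ) (Y : T) :
    (shiftFunctorAdd' T k l m h).hom.app (U.cobar.Q s Y) ≫ (U.κQ k s Y)⟦l⟧' ≫
      U.κQ l s (Y⟦k⟧) =
    U.κQ m s Y ≫ U.cobar.Qm s ((shiftFunctorAdd' T k l m h).hom.app Y) := by
  induction s generalizing Y with
  | zero =>
    have h1 : (U.κQ k 0 Y)⟦l⟧' = 𝟙 _ := CategoryTheory.Functor.map_id _ _
    refine (congrArg (_ ≫ ·) ((congrArg (· ≫ U.κQ l 0 (Y⟦k⟧)) h1).trans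
      (Category.id_comp _))).trans ?_
    exact (Category.comp_id _).trans (Category.id_comp _).symm
  | succ s ih =>
    have h1 := reassoc_of% ih (R ⊗ Y)
    have h2 := U.κQ_nat l s (csh R k Y).inv
    have h3 : (shiftFunctorAdd' T k l m h).hom.app (R ⊗ Y) ≫ ((csh R k Y).inv)⟦l⟧' ≫
        (csh R l (Y⟦k⟧)).inv =
        (csh R m Y).inv ≫ (R ◁ (shiftFunctorAdd' T k l m h).hom.app Y) := by
      have h4 := (tensorLeft R).commShiftIso_add' h
      have h5 : (csh R m Y).inv = _ := congrArg (fun e => e.inv.app Y) h4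
      rw [h5, Functor.CommShift.isoAdd'_inv_app]
      simp only [Category.assoc]
      congr 2
      have h6 : (R ◁ (shiftFunctorAdd' T k l m h).inv.app Y) ≫
          (R ◁ (shiftFunctorAdd' T k l m h).hom.app Y) = 𝟙 _ := by
        rw [← MonoidalCategory.whiskerLeft_comp, Iso.inv_hom_id_app]
        exact MonoidalCategory.whiskerLeft_id _ _
      exact (Category.comp_id _).symm.trans (congrArg _ h6.symm)
    rw [UnitCof.κQ_succ, UnitCof.κQ_succ, UnitCof.κQ_succ, Functor.map_comp, Category.assoc,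
      Category.assoc, reassoc_of% h2]
    refine (h1 _).trans ?_
    rw [← CobarData.Qm_comp, ← CobarData.Qm_comp, h3, CobarData.Qm_comp]
    rfl

/-- A multiplier of filtration one applied to a product with a cochain of degree zero. -/
lemma cupG_mul {l : ℤ} {X W V : T} (ε : X ⟶ R ⊗ W) (δ : W⟦l⟧ ⟶ U.cobar.B 1 V)
    (χ : X⟦l⟧ ⟶ U.cobar.Q 2 V)
    (hχ : χ ≫ U.cobar.q 1 V = ε⟦l⟧' ≫ (csh R l W).inv ≫ (R ◁ δ)) (s : ℕ) :
    (cupG U.cobar 0 s s rfl ε ≫ U.cobar.q s W)⟦l⟧' ≫ (csh R l (U.cobar.B s W)).inv ≫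
      (R ◁ ξG U δ s (s + 1) rfl) =
    U.κQ l (s + 1) X ≫ cupG U.cobar 1 s (s + 1) rfl χ ≫ U.cobar.q (s + 1) V := by
  have h1 : ξG U δ s (s + 1) rfl = U.κB l s W ≫ U.cobar.Bm s δ :=
    congrArg _ (Category.comp_id _)
  have h2 : χ ≫ (R ◁ (U.ρ ▷ V)) = ε⟦l⟧' ≫ (csh R l W).inv ≫ (R ◁ δ) :=
    (congrArg _ (Category.comp_id _).symm).trans hχ
  have h3 : ((R ◁ ε) ≫ mulMap R W)⟦l⟧' ≫ (csh R l W).inv ≫ (R ◁ δ) =
      (csh R l X).inv ≫ ((R ◁ χ) ≫ mulMap R (R ⊗ V)) ≫ (R ◁ (U.ρ ▷ V)) := by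
    have h4 : (mulMap R W)⟦l⟧' ≫ (csh R l W).inv = (csh R l (R ⊗ W)).inv ≫
        (R ◁ (csh R l W).inv) ≫ mulMap R (W⟦l⟧) := by
      rw [Iso.comp_inv_eq, Category.assoc, Category.assoc, mulMap_csh,
        ← MonoidalCategory.whiskerLeft_comp_assoc, Iso.inv_hom_id,
        MonoidalCategory.whiskerLeft_id, Category.id_comp, Iso.inv_hom_id_assoc]
    rw [Functor.map_comp, Category.assoc, reassoc_of% h4, csh_inv_nat_assoc, ← mulMap_nat,
      Category.assoc, ← mulMap_nat, ← MonoidalCategory.whiskerLeft_comp_assoc,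
      ← MonoidalCategory.whiskerLeft_comp_assoc, ← MonoidalCategory.whiskerLeft_comp_assoc, h2,
      Category.assoc]
  have h5 := U.κQ_nat l s ((R ◁ ε) ≫ mulMap R W)
  have h6 := U.cobar.q_naturality s δ
  calc _ = (U.cobar.Qm s ((R ◁ ε) ≫ mulMap R W))⟦l⟧' ≫ (U.κQ l s (R ⊗ W) ≫
        U.cobar.Qm s (csh R l W).inv) ≫ U.cobar.Qm s (R ◁ δ) ≫ U.cobar.q s (U.J ⊗ V) := by
        rw [h1, cupG_zero, Functor.map_comp, MonoidalCategory.whiskerLeft_comp, Category.assoc,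
          ← U.κQ_q_assoc, ← h6]
        rfl
    _ = U.κQ l s (R ⊗ X) ≫ U.cobar.Qm s (((R ◁ ε) ≫ mulMap R W)⟦l⟧' ≫ (csh R l W).inv ≫
        (R ◁ δ)) ≫ U.cobar.q s (U.J ⊗ V) := by
        rw [Category.assoc, reassoc_of% h5, CobarData.Qm_comp, CobarData.Qm_comp]
        simp only [Category.assoc]
    _ = _ := by
        rw [h3, cupG_one, CobarData.Qm_comp, CobarData.Qm_comp, UnitCof.κQ_succ,
          CobarData.q_succ]
        simp only [Category.assoc]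
        rfl

end Cone

/-! ### Products with cochains with values in `W` -/

section ClsZ

variable [HasCoproducts.{0} T] (D : MUData T) (U : UnitCof D.R) {V W : T}

/-- The class of the product of `z` with the cochain `ζ`. -/
noncomputable def clsZ {σ : ℕ} {v : ℤ} (ζ : (𝟙_ T)⟦2 * v⟧ ⟶ U.cobar.Q (σ + 1) W) {s s' : ℕ}
    (hs : s + σ = s') {n w w' : ℤ} (hw : w + v = w') (h : n + (s' : ℤ) = 2 * w') :
    Cob.wt Laz s w →+ (CC D U W).E s' n :=
  (eE U (𝟙_ T) h).symm.toAddMonoidHom.comp (AddMonoidHom.mk'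
    (fun z => sh (2 * w) (2 * v) (2 * w') (by omega) (ph D U s w z) ≫ cupS U ζ s s' hs ≫
      U.cobar.q s' W) fun z z' => by rw [map_add, map_add, Preadditive.add_comp])

variable {D U} {σ : ℕ} {v : ℤ} {s s' : ℕ} {n w w' : ℤ}

lemma eE_clsZ (ζ : (𝟙_ T)⟦2 * v⟧ ⟶ U.cobar.Q (σ + 1) W) (hs : s + σ = s') (hw : w + v = w')
    (h : n + (s' : ℤ) = 2 * w') (z : Cob.wt Laz s w) :
    eE U (𝟙_ T) h (clsZ D U ζ hs hw h z) =
      sh (2 * w) (2 * v) (2 * w') (by omega) (ph D U s w z) ≫ cupS U ζ s s' hs ≫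
        U.cobar.q s' W :=
  AddEquiv.apply_symm_apply _ _

lemma clsZ_ph (hv : 0 ≤ v) (i : 𝟙_ T ⟶ W) (b : Cob.wt Laz σ v) (hs : s + σ = s')
    (hw : w + v = w') (h : n + (s' : ℤ) = 2 * w') (z : Cob.wt Laz s w) :
    clsZ D U (ph D U σ v b ≫ U.cobar.Qm (σ + 1) i) hs hw h z = cls D U i h (cupW hs hw z b) := by
  apply (eE U (𝟙_ T) h).injective
  rw [eE_clsZ, eE_cls, ph_cup D U hs hv hw (by omega), cupS, cupS, ← cupG_nat]
  simp only [Category.assoc]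

lemma mapE_clsZ {W' : T} (f : W ⟶ W') (ζ : (𝟙_ T)⟦2 * v⟧ ⟶ U.cobar.Q (σ + 1) W)
    (hs : s + σ = s') (hw : w + v = w') (h : n + (s' : ℤ) = 2 * w') (z : Cob.wt Laz s w) :
    mapE f (clsZ D U ζ hs hw h z) = clsZ D U (ζ ≫ U.cobar.Qm (σ + 1) f) hs hw h z := by
  apply (eE U (𝟙_ T) h).injective
  rw [eE_mapE, eE_clsZ, eE_clsZ, cupS, cupS, ← cupG_nat]
  simp only [Category.assoc]
  rw [U.cobar.q_naturality]

lemma clsZ_neg (ζ : (𝟙_ T)⟦2 * v⟧ ⟶ U.cobar.Q 1 W) (hw : w + v = w')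
    (h : n + (s : ℤ) = 2 * w') (z : Cob.wt Laz s w) :
    clsZ D U (σ := 0) (-ζ) rfl hw h z = -clsZ D U (σ := 0) ζ rfl hw h z := by
  apply (eE U (𝟙_ T) h).injective
  rw [map_neg, eE_clsZ, eE_clsZ, cupS, cupS, cupG_zero, cupG_zero, Functor.map_neg,
    Preadditive.neg_comp, CobarData.Qm_neg]
  simp only [Preadditive.comp_neg, Preadditive.neg_comp]

/-- A multiplier acts by the product with a representing cochain. -/
lemma mulW_cls' {a : ℤ} (hv : 0 ≤ v) (ha : 2 * v = a + σ) (i : 𝟙_ T ⟶ V)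
    (g : V⟦2 * v⟧ ⟶ U.cobar.B σ W) (ζ : (𝟙_ T)⟦2 * v⟧ ⟶ U.cobar.Q (σ + 1) W)
    (hζ : ζ ≫ U.cobar.q σ W = (i⟦2 * v⟧' ≫ g) ≫ unitMap D.R _) {n' : ℤ} (hs : s + σ = s')
    (e : n + a = n') (hw : w + v = w') (h : n + (s : ℤ) = 2 * w) (h' : n' + (s' : ℤ) = 2 * w')
    (z : Cob.wt Laz s w) :
    (mulW hv ha g).fE s s' n n' hs e (cls D U i h z) = clsZ D U ζ hs hw h' z := by
  have e2 : 2 * w + 2 * v = 2 * w' := by omega
  apply (eE U (𝟙_ T) h').injective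
  rw [mulW, eE_mulC _ ha g hs e h h' e2, eE_cls', eE_clsZ, sh_comp, Functor.map_comp,
    Category.assoc, Category.assoc, csh_inv_nat_assoc, ← MonoidalCategory.whiskerLeft_comp,
    ξG_pre, cupS_q U ζ _ hζ]

/-- The Leibniz rule. -/
lemma d_clsZ (ε : (𝟙_ T)⟦2 * v⟧ ⟶ U.cobar.Q 1 W) {m : ℤ} (hn : n = m + 1) (hw : w + v = w')
    (h : n + (s : ℤ) = 2 * w') (h' : m + ((s + 1 : ℕ) : ℤ) = 2 * w') (z : Cob.wt Laz s w) :
    (CC D U W).d s n m hn (clsZ D U (σ := 0) ε rfl hw h z) =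
      clsZ D U (σ := 0) ε rfl hw h' (Cob.dwt Laz s w z) +
        (-1 : ℤ) ^ s • clsZ D U (σ := 1) (ε ≫ U.cobar.d 1 W) rfl hw h' z := by
  apply (eE U (𝟙_ T) h').injective
  rw [eE_d hn h h', map_add, map_zsmul, eE_clsZ, eE_clsZ, eE_clsZ, ph_d, sh_comp, cupS, cupS,
    cupS]
  simp only [Category.assoc]
  rw [← U.cobar.d_q, reassoc_of% cupG_d0 U.cobar s ε, U.κQ_d_assoc]
  simp only [Preadditive.add_comp, Preadditive.comp_add, Preadditive.zsmul_comp,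
    Preadditive.comp_zsmul, Category.assoc]

/-- If `ε` extends over `V` the product only depends on the class of `z` modulo `I_h`. -/
lemma clsZ_eq_zero {p h₀ : ℕ} {i : 𝟙_ T ⟶ V} (H : Cyc D p h₀ i)
    (ε : V⟦2 * v⟧ ⟶ U.cobar.Q (σ + 1) W) (hs : s + σ = s') (hw : w + v = w')
    (h : n + (s' : ℤ) = 2 * w') {z : Cob.wt Laz s w} (hz : z.1 ∈ IC p h₀ s) :
    clsZ D U (i⟦2 * v⟧' ≫ ε) hs hw h z = 0 := by
  apply (eE U (𝟙_ T) h).injective
  rw [eE_clsZ, cupS, ← cupG_pre, Category.assoc, Category.assoc, ← U.κQ_nat_assoc,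
    ← Category.assoc, ← sh_comp, (phQ_ker H s w z).2 hz, map_zero, zero_comp, map_zero]

/-- A multiplier of filtration one applied to `clsZ`. -/
lemma mulW_clsZ {v' v'' a : ℤ} (hv : 0 ≤ v') (ha : 2 * v' = a + (1 : ℕ)) (hvv : v + v' = v'')
    (ε : (𝟙_ T)⟦2 * v⟧ ⟶ U.cobar.Q 1 W) (δ : W⟦2 * v'⟧ ⟶ U.cobar.B 1 V)
    (ζ : (𝟙_ T)⟦2 * v''⟧ ⟶ U.cobar.Q 2 V)
    (hζ : ζ ≫ U.cobar.q 1 V = sh (2 * v) (2 * v') (2 * v'') (by omega) ε ≫
      (csh D.R (2 * v') W).inv ≫ (D.R ◁ δ)) {n' w'' : ℤ} (e : n + a = n') (hw : w + v = w')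
    (hw' : w + v'' = w'') (h : n + (s : ℤ) = 2 * w') (h' : n' + ((s + 1 : ℕ) : ℤ) = 2 * w'')
    (z : Cob.wt Laz s w) :
    (mulW hv ha δ).fE s (s + 1) n n' rfl e (clsZ D U (σ := 0) ε rfl hw h z) =
      clsZ D U (σ := 1) ζ rfl hw' h' z := by
  have e1 : 2 * v + 2 * v' = 2 * v'' := by omega
  have e2 : 2 * w' + 2 * v' = 2 * w'' := by omega
  have h1 := cupG_mul ε δ ((shiftFunctorAdd' T _ _ _ e1).inv.app (𝟙_ T) ≫ ζ) (by
    rw [Category.assoc, hζ]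
    simp only [sh, AddEquiv.coe_mk, Equiv.coe_fn_mk, Category.assoc,
      Iso.inv_hom_id_app_assoc]) s
  apply (eE U (𝟙_ T) h').injective
  rw [mulW, eE_mulC _ ha δ rfl e h h' e2, eE_clsZ, eE_clsZ, cupS, cupS, Category.assoc,
    sh_comp, sh_sh _ _ _ _ _ _ e1 _ _ (by omega), Functor.map_comp, Category.assoc,
    Category.assoc, Category.assoc, h1, κQ_add_assoc, ← Category.assoc (U.cobar.Qm _ _),
    cupG_pre, Iso.hom_inv_id_app_assoc, Category.assoc]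

end ClsZ

end Vale.Agent.P236K.SS
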