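import Vale.Agent.P236K.SS.One
import Vale.Agent.P236K.SS.Leib

/-!
# P236K, block SS: the seeds of the computation of `d₅`

* `exists_d5`: every cocycle supports a `d₅` (sparseness);
* `d5_zero_of_van`: `d₅ x = 0` if the target group vanishes;
* `seed_b1`: `d₅ b₁ = u β₁ ^ 3 α₁` with a unit `u`.
-/

open CategoryTheory MonoidalCategory Limits Pretriangulated MonObj

set_option linter.unusedSectionVars false

universe v u

namespace Vale.Agent.P236K.SS

open Vale.Agent.P251 Vale.Agent.P251.T Vale.Agent.P251.F Vale.Agent.P251.I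
  Vale.Agent.P251.M Vale.Agent.P257.H314 Vale.Agent.P257.H712 Vale.Agent.P251.H
open Vale.Agent.P251.S hiding IC

variable {T : Type u} [Category.{v} T] [Preadditive T] [HasZeroObject T] [HasShift T ℤ]
  [∀ n : ℤ, (shiftFunctor T n).Additive] [Pretriangulated T] [MonoidalCategory T]
  [SymmetricCategory T] [TensorTriangulated T] [HasCoproducts.{0} T] {D : MUData T}
  {U : UnitCof D.R}

section Cyc

variable {V : T} {i : 𝟙_ T ⟶ V} (H : Cyc D 3 1 i)

include H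

lemma three_cls {s : ℕ} {n w : ℤ} (h : n + (s : ℤ) = 2 * w) (z : Cob.wt Laz s w) :
    (3 : ℤ) • cls D U i h z = 0 := by
  rw [← map_zsmul]
  exact cls_eq_zero H h ((mem_IC_three_iff _).2 ⟨z, rfl⟩)

/-- A differential only depends on the classes. -/
lemma Dif.congr_aCob {s t : ℕ} {m w w' : ℤ} (h2 : s + 2 ≤ t) {g : m + 1 + (s : ℤ) = 2 * w}
    {g' : m + (t : ℤ) = 2 * w'} {x y : Cob.wt Laz s w} {x' y' : Cob.wt Laz t w'}
    (h : Dif (cls D U i g x) (cls D U i g' x')) (hy : ACob 3 1 w (y - x).1)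
    (hy' : ACob 3 1 w' (y' - x').1) : Dif (cls D U i g y) (cls D U i g' y') := by
  have h1 := null_of_aCob (U := U) H g hy
  have h3 := null_of_aCob (U := U) H g' hy'
  rw [map_sub] at h1 h3
  exact (h.of_null_source h1).of_null_target (h3.mono (by omega))

/-- Sparseness: a class which is killed from filtration `r` is killed from a filtration `r'`. -/
lemma Null.of_sparse {r r' t : ℕ} {m : ℤ} {z : (CC D U V).E t m} (hr : r ≤ r') (h1 : r' + 1 ≤ t)
    (hz : Null (CC D U V) r z) (h4 : ∀ s : ℕ, r ≤ s → s < r' → ¬ (4 : ℤ) ∣ m + 1 + s) :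
    Null (CC D U V) r' z :=
  Null.of_alg H hr h1 hz fun s w hs hs' hw => algVan_three (by
    have := h4 s hs hs'
    omega)

lemma Lifts.of_sparse {r t t' : ℕ} {m : ℤ} {u : (CC D U V).D r m} (h1 : r + 1 ≤ t) (ht : t ≤ t')
    (hu : Lifts u t) (h4 : ∀ s : ℕ, t ≤ s → s < t' → ¬ (4 : ℤ) ∣ m + s) : Lifts u t' :=
  Lifts.of_alg H h1 ht hu fun s w hs hs' hw => algVan_three (by
    have := h4 s hs hs'
    omega)

/-- Every cocycle supports a `d₅`. -/
theorem exists_d5 {s t : ℕ} (ht : s + 5 = t) {m w w' : ℤ} (hw : 2 ∣ w)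
    (g : m + 1 + (s : ℤ) = 2 * w) (g' : m + (t : ℤ) = 2 * w') (x : Cob.wt Laz s w)
    (hx : Cob.d s x.1 ∈ IC 3 1 (s + 1)) : ∃ x' : Cob.wt Laz t w',
      Cob.d t x'.1 ∈ IC 3 1 (t + 1) ∧ Dif (cls D U i g x) (cls D U i g' x') := by
  obtain ⟨z, hz⟩ := exists_dif_of_lifts (Lifts.of_sparse H (t' := t) le_rfl (by omega)
    (lifts_two rfl _ (isCocycle_cls (U := U) H g hx)) fun s' h1 h2 => by omega)
  obtain ⟨x', hx', rfl⟩ := exists_cocycle H g' z hz.isCocycle_target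
  exact ⟨x', hx', hz⟩

/-- The target of `d₅` is unique. -/
theorem d5_unique {s t : ℕ} (ht : s + 5 = t) {m w w' : ℤ} {g : m + 1 + (s : ℤ) = 2 * w}
    {g' : m + (t : ℤ) = 2 * w'} (hw : 2 ∣ w) {x : Cob.wt Laz s w} {x' x'' : Cob.wt Laz t w'}
    (hx' : Cob.d t x'.1 ∈ IC 3 1 (t + 1)) (hx'' : Cob.d t x''.1 ∈ IC 3 1 (t + 1))
    (h' : Dif (cls D U i g x) (cls D U i g' x')) (h'' : Dif (cls D U i g x) (cls D U i g' x'')) :
    ACob 3 1 w' (x' - x'').1 := by
  have h1 := h'.unique h''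
  rw [← map_sub] at h1
  refine aCob_of_null H g' (z := x' - x'') ?_
    (Null.of_sparse H (r' := t - 1) (by omega) (by omega) h1 fun s' h1 h2 => by omega)
  change Cob.d t (x'.1 - x''.1) ∈ _
  rw [map_sub]
  exact sub_mem hx' hx''

/-- `d₅ x = 0` if the target group vanishes. -/
theorem d5_zero_of_van {s t : ℕ} (ht : s + 5 = t) {m w w' : ℤ} (hw : 2 ∣ w)
    (g : m + 1 + (s : ℤ) = 2 * w) (g' : m + (t : ℤ) = 2 * w') (hV : AlgVan 3 1 t w')
    (x : Cob.wt Laz s w) (hx : Cob.d s x.1 ∈ IC 3 1 (s + 1)) :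
    Dif (cls D U i g x) (cls D U i g' 0) := by
  obtain ⟨x', hx', h⟩ := exists_d5 (U := U) H ht hw g g' x hx
  refine h.of_null_target ?_
  rw [map_zero, zero_sub]
  exact Null.neg ((null_of_aCob H g' (aCob_of_algVan hV x'.2 hx')).mono (by omega))

/-- The target of a differential supports the zero differential. -/
lemma Dif.target_zero {s t t' : ℕ} {m : ℤ} (ht : t + 1 ≤ t') {x : (CC D U V).E s (m + 1 + 1)}
    {z : (CC D U V).E t (m + 1)} (h : Dif x z) : Dif z (0 : (CC D U V).E t' m) :=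
  (Dif.zero ht).congr_k (by rw [Null.k_eq_zero rfl h.null, map_zero])

end Cyc

variable [MonoidalClosed T] [IsTriangulated T] [HasProducts.{0} T] [StableCat T]
  {M : T} {i : 𝟙_ T ⟶ M} {δ : M ⟶ (𝟙_ T)⟦(1 : ℤ)⟧}
  (hM : Dist ((3 : ℤ) • 𝟙 (𝟙_ T)) i δ) {t : Cob Laz 1} (ht : IsT1 3 t)

include hM

variable (D U) in
/-- **The Toda differential** on a given generator. -/
theorem seed_b1 (hA : J1Alg) (F : SpaceFunctor T) (h : (33 : ℤ) + ((7 : ℕ) : ℤ) = 2 * 20)
    (h' : (33 : ℤ) + 1 + ((2 : ℕ) : ℤ) = 2 * 18) (x : Cob.wt Laz 2 18)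
    (hx : Cob.d 2 x.1 ∈ IC 3 1 3) (hn : ¬ ACob 3 1 18 x.1) :
    ∃ u : ℤ, (u = 1 ∨ u = -1) ∧ Dif (cls D U i h' x) (cls D U i h (u • b3tW ht)) := by
  obtain ⟨e, he, hd⟩ := toda_dif D U hM ht F h h'
  obtain ⟨c, hc⟩ := (hA t ht).2 x.1 e.1 x.2 hx e.2 he hn
  have H : Cyc D 3 1 i := cycM hM
  have h1 : Dif (c • cls D U i h' x) (cls D U i h (b3tW ht)) := by
    refine hd.of_null_source (q := 1) ?_
    have h2 := Null.neg (null_of_aCob (U := U) H h' (z := e - c • x) hc)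
    rwa [map_sub, map_zsmul, neg_sub] at h2
  have h3 : ∀ (k r : ℤ), (3 * k + r) • cls D U i h' x = r • cls D U i h' x := fun k r => by
    rw [add_smul, mul_comm, ← smul_smul, three_cls H, smul_zero, zero_add]
  obtain ⟨k, hk | hk | hk⟩ : ∃ k : ℤ, c = 3 * k + 0 ∨ c = 3 * k + 1 ∨ c = 3 * k + -1 :=
    ⟨(c + 1) / 3, by omega⟩
  · rw [hk, h3, zero_smul] at h1
    exact absurd (dif_zero_iff.1 h1) (toda_not_null hM ht h (hA t ht).1)
  · rw [hk, h3, one_smul] at h1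
    exact ⟨1, Or.inl rfl, by rwa [one_smul]⟩
  · rw [hk, h3] at h1
    refine ⟨-1, Or.inr rfl, ?_⟩
    have h4 := h1.zsmul (-1)
    rw [smul_smul] at h4
    rw [map_zsmul]
    simpa using h4

end Vale.Agent.P236K.SS
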