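import Vale.Agent.P236K.SS.Und
import Vale.Agent.P257.H820.TowV
import Vale.Agent.P257.H712.IBo

/-!
# P236K, block SS: exchanging the factors of the tower

* `inB X s Z : X ⊗ B s Z ⟶ B s (X ⊗ Z)`, `swp s r Z : B s (B r Z) ⟶ B r (B s Z)`;
* `sr_swp`: on cocycles of the `E₁`-term `swp s r` acts by `(-1)^(s r)`, up to coboundaries;
* `tensC X`: the map of couples `TC P Z ⟶ TC (X ⊗ P) (X ⊗ Z)`.
-/

open CategoryTheory MonoidalCategory Limits Pretriangulated MonObj Opposite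

set_option linter.unusedSectionVars false

universe v u

namespace Vale.Agent.P236K.SS

open Vale.Agent.P251 Vale.Agent.P251.T Vale.Agent.P251.S Vale.Agent.P257.H712
  Vale.Agent.P257.H820

variable {T : Type u} [Category.{v} T] [Preadditive T] [HasZeroObject T] [HasShift T ℤ]
  [∀ n : ℤ, (shiftFunctor T n).Additive] [Pretriangulated T] [MonoidalCategory T]
  [SymmetricCategory T] [TensorTriangulated T] {R : T} [MonObj R] (U : UnitCof R)

/-- Moving a factor in. -/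
def inB (X : T) : ∀ (s : ℕ) (Z : T), X ⊗ U.cobar.B s Z ⟶ U.cobar.B s (X ⊗ Z)
  | 0, _ => 𝟙 _
  | s + 1, Z => inB X s (U.J ⊗ Z) ≫ U.cobar.Bm s (sw X U.J Z)

lemma inB_succ (X : T) (s : ℕ) (Z : T) :
    inB U X (s + 1) Z = inB U X s (U.J ⊗ Z) ≫ U.cobar.Bm s (sw X U.J Z) := rfl

/-- The exchange of two blocks of factors. -/
def swp : ∀ (s r : ℕ) (Z : T), U.cobar.B s (U.cobar.B r Z) ⟶ U.cobar.B r (U.cobar.B s Z)
  | 0, _, _ => 𝟙 _
  | s + 1, r, Z => U.cobar.Bm s (inB U U.J r Z) ≫ swp s r (U.J ⊗ Z)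

lemma swp_succ (s r : ℕ) (Z : T) :
    swp U (s + 1) r Z = U.cobar.Bm s (inB U U.J r Z) ≫ swp U s r (U.J ⊗ Z) := rfl

/-! ### Coboundaries -/

/-- `c` is a coboundary of the `E₁`-complex. -/
def Cb : ∀ (n : ℕ) (Z : T) {Q : T}, (Q ⟶ R ⊗ U.cobar.B n Z) → Prop
  | 0, _, _, c => c = 0
  | n + 1, Z, Q, c => ∃ e : Q ⟶ R ⊗ U.cobar.B n Z, c = e ≫ U.cobar.D n Z

variable {U}

lemma Cb.zero (n : ℕ) (Z Q : T) : Cb U n Z (0 : Q ⟶ _) := by
  cases n with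
  | zero => rfl
  | succ n => exact ⟨0, zero_comp.symm⟩

lemma Cb.add {n : ℕ} {Z Q : T} {c c' : Q ⟶ R ⊗ U.cobar.B n Z} (h : Cb U n Z c)
    (h' : Cb U n Z c') : Cb U n Z (c + c') := by
  cases n with
  | zero =>
    obtain rfl : c = 0 := h
    rwa [zero_add]
  | succ n =>
    obtain ⟨e, rfl⟩ := h
    obtain ⟨e', rfl⟩ := h'
    exact ⟨e + e', (Preadditive.add_comp _ _ _ _ _ _).symm⟩

lemma Cb.zsmul {n : ℕ} {Z Q : T} {c : Q ⟶ R ⊗ U.cobar.B n Z} (a : ℤ) (h : Cb U n Z c) :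
    Cb U n Z (a • c) := by
  cases n with
  | zero =>
    obtain rfl : c = 0 := h
    exact smul_zero a
  | succ n =>
    obtain ⟨e, rfl⟩ := h
    exact ⟨a • e, (Preadditive.zsmul_comp _ _ _).symm⟩

lemma Cb.inner {n : ℕ} {Z Q : T} {c : Q ⟶ R ⊗ U.cobar.B n (U.J ⊗ Z)}
    (h : Cb U n (U.J ⊗ Z) c) : Cb U (n + 1) Z c := by
  cases n with
  | zero =>
    obtain rfl : c = 0 := h
    exact Cb.zero _ _ _
  | succ n => exact h

lemma null_of_cb {P Z : T} {t : ℕ} {m w : ℤ} (h : m + (t : ℤ) = w) (z : (TC U P Z).E t m)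
    (hz : Cb U t Z (eE U P h z)) : Null (TC U P Z) (t - 1) z := by
  cases t with
  | zero =>
    obtain rfl : z = 0 := (eE U P h).map_eq_zero_iff.1 hz
    exact Null.zero le_rfl
  | succ t =>
    obtain ⟨e, he⟩ := hz
    have h1 : m + 1 + (t : ℤ) = w := by push_cast at h; omega
    refine null_of_isCobdy (s := t) ⟨(eE U P h1).symm e, (eE U P h).injective ?_⟩
    rw [eE_d rfl h1 h, AddEquiv.apply_symm_apply, he]

variable (U) in
/-- On cocycles `ψ = ε φ` up to coboundaries. -/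
def SR (n : ℕ) (Z : T) (ε : ℤ) {W : T} (φ ψ : W ⟶ U.cobar.B n Z) : Prop :=
  ∀ (Q : T) (c : Q ⟶ R ⊗ W), (c ≫ (R ◁ φ)) ≫ U.cobar.D n Z = 0 →
    (c ≫ (R ◁ ψ)) ≫ U.cobar.D n Z = 0 ∧ Cb U n Z (c ≫ (R ◁ ψ) - ε • c ≫ (R ◁ φ))

namespace SR

variable {n : ℕ} {Z W : T}

lemma of_eq {φ ψ : W ⟶ U.cobar.B n Z} (h : φ = ψ) : SR U n Z 1 φ ψ := fun Q c hc => by
  subst h
  rw [one_smul, sub_self]
  exact ⟨hc, Cb.zero _ _ _⟩

lemma trans {ε ε' : ℤ} {φ ψ χ : W ⟶ U.cobar.B n Z} (h : SR U n Z ε φ ψ)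
    (h' : SR U n Z ε' ψ χ) : SR U n Z (ε' * ε) φ χ := fun Q c hc => by
  obtain ⟨h1, h2⟩ := h Q c hc
  obtain ⟨h3, h4⟩ := h' Q c h1
  refine ⟨h3, ?_⟩
  have h5 := h4.add (h2.zsmul ε')
  rwa [smul_sub, smul_smul, sub_add_sub_cancel] at h5

lemma pre {ε : ℤ} {φ ψ : W ⟶ U.cobar.B n Z} (h : SR U n Z ε φ ψ) {W' : T} (g : W' ⟶ W) :
    SR U n Z ε (g ≫ φ) (g ≫ ψ) := fun Q c hc => by
  rw [MonoidalCategory.whiskerLeft_comp, ← Category.assoc c] at hc ⊢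
  rw [MonoidalCategory.whiskerLeft_comp, ← Category.assoc c]
  exact h Q _ hc

lemma inner {ε : ℤ} {φ ψ : W ⟶ U.cobar.B n (U.J ⊗ Z)} (h : SR U n (U.J ⊗ Z) ε φ ψ) :
    SR U (n + 1) Z ε φ ψ := fun Q c hc => ⟨(h Q c hc).1, (h Q c hc).2.inner⟩

lemma reindex {ε : ℤ} (σ : ℕ) {n' : ℕ} (e : n + σ = n')
    {φ ψ : W ⟶ U.cobar.B n (U.cobar.B σ Z)} (h : SR U n (U.cobar.B σ Z) ε φ ψ) :
    SR U n' Z ε (φ ≫ eB U.cobar σ n n' e Z) (ψ ≫ eB U.cobar σ n n' e Z) := by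
  induction σ generalizing Z n' with
  | zero =>
    obtain rfl : n = n' := e
    rw [eB_zero, Category.comp_id, Category.comp_id]
    exact h
  | succ σ ih =>
    obtain ⟨n', rfl⟩ : ∃ r, n' = r + 1 := ⟨n' - 1, by omega⟩
    exact (ih (Z := U.J ⊗ Z) (by omega) h).inner

end SR

lemma lam_q (s : ℕ) (Y : T) : U.cobar.lam (s + 1) Y ≫ U.cobar.q (s + 1) Y = 0 := by
  rw [CobarData.q_succ, CobarData.lam_Qρ_assoc, zero_comp]

lemma lam_q' (s : ℕ) (Y : T) : U.cobar.lam (s + 1) (R ⊗ Y) ≫ U.cobar.q (s + 2) Y = 0 := by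
  have h1 : unitMap R (R ⊗ Y) ≫ (R ◁ (U.ρ ▷ Y)) ≫ (U.ρ ▷ (U.J ⊗ Y)) = 0 := by
    rw [← unitMap_nat_assoc]
    exact (congrArg _ (U.cobar.un_ρ (U.J ⊗ Y))).trans comp_zero
  have h2 : U.cobar.lam (s + 1) (R ⊗ Y) ≫ U.cobar.q (s + 2) Y =
      U.cobar.Qm (s + 1) (unitMap R (R ⊗ Y) ≫ (R ◁ (U.ρ ▷ Y)) ≫ (U.ρ ▷ (U.J ⊗ Y))) ≫
        U.cobar.q s (U.J ⊗ U.J ⊗ Y) := by
    rw [CobarData.Qm_comp, CobarData.Qm_comp, Category.assoc, Category.assoc]
    rfl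
  rw [h2, h1, CobarData.Qm_zero', zero_comp]

/-- The exchange of the two inner factors acts by `-1`. -/
lemma sr_swap (n : ℕ) (Z : T) :
    SR U (n + 2) Z (-1) (𝟙 _) (U.cobar.Bm n (sw U.J U.J Z)) := by
  intro Q c hc
  rw [MonoidalCategory.whiskerLeft_id, Category.comp_id] at hc ⊢
  refine ⟨?_, ?_⟩
  · have h := U.cobar.D_naturality n (sw U.J U.J Z)
    refine ((Category.assoc _ _ _).trans (congrArg (c ≫ ·) h)).trans ?_
    exact (Category.assoc _ _ _).symm.trans ((congrArg (· ≫ _) hc).trans zero_comp)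
  obtain ⟨a, ha, rfl⟩ : ∃ a : Q ⟶ U.cobar.Q (n + 3) Z, a ≫ U.cobar.d (n + 3) Z = 0 ∧
      a ≫ U.cobar.q (n + 2) Z = c :=
    U.cobar.exists_cocycle (F := preadditiveCoyoneda.obj (op Q)) (n + 2) Z c hc
  let m : R ⊗ R ⊗ R ⊗ Z ⟶ R ⊗ R ⊗ Z := (R ◁ sw R R Z) ≫ mulMap R (R ⊗ Z)
  have m1 : unitMap R (R ⊗ R ⊗ Z) ≫ m = sw R R Z := by
    rw [← unitMap_nat_assoc, unitMap_mulMap, Category.comp_id]
  have m2 : (R ◁ unitMap R (R ⊗ Z)) ≫ m = mulMap R Z ≫ (R ◁ unitMap R Z) := by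
    rw [← MonoidalCategory.whiskerLeft_comp_assoc, unitMap_sw, mulMap_nat]
  have m3 : (R ◁ (R ◁ unitMap R Z)) ≫ m = 𝟙 _ := by
    rw [← MonoidalCategory.whiskerLeft_comp_assoc, whisker_unitMap_sw,
      whiskerLeft_unitMap_mulMap]
  have m4 : U.cobar.e3 Z ≫ m = sw R R Z - mulMap R Z ≫ (R ◁ unitMap R Z) + 𝟙 _ := by
    rw [← m1, ← m2, ← m3, ← Preadditive.sub_comp, ← Preadditive.add_comp]
    rfl
  have q2 : U.cobar.q (n + 2) Z = U.cobar.Qm (n + 1) ((R ◁ (U.ρ ▷ Z)) ≫ (U.ρ ▷ (U.J ⊗ Z))) ≫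
      U.cobar.q n (U.J ⊗ U.J ⊗ Z) := by
    rw [CobarData.Qm_comp, Category.assoc]
    rfl
  have e1 : U.cobar.Qm (n + 1) (sw R R Z) ≫ U.cobar.q (n + 2) Z =
      U.cobar.q (n + 2) Z ≫ (R ◁ U.cobar.Bm n (sw U.J U.J Z)) := by
    rw [q2, ← CobarData.Qm_comp_assoc, ← sw_nat_left_assoc, ← sw_nat_mid,
      ← whisker_exchange_assoc, ← Category.assoc (R ◁ (U.ρ ▷ Z)), CobarData.Qm_comp_assoc,
      U.cobar.q_naturality, Category.assoc]
  have e2 : U.cobar.Qm (n + 1) (mulMap R Z ≫ (R ◁ unitMap R Z)) ≫ U.cobar.q (n + 2) Z = 0 := by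
    rw [CobarData.Qm_comp, Category.assoc]
    exact (congrArg _ (lam_q (n + 1) Z)).trans comp_zero
  have e3 : U.cobar.d n (R ⊗ R ⊗ Z) ≫ U.cobar.q (n + 2) Z =
      U.cobar.q (n + 1) Z ≫ U.cobar.D (n + 1) Z := by
    rw [← U.cobar.d_q, CobarData.d_succ, CobarData.d_succ, Preadditive.add_comp,
      Preadditive.add_comp, Preadditive.zsmul_comp, Preadditive.zsmul_comp, lam_q, lam_q',
      smul_zero, smul_zero, add_zero, add_zero]
  have e4 : U.cobar.d (n + 3) Z ≫ U.cobar.Qm (n + 1) m ≫ U.cobar.q (n + 2) Z =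
      (U.cobar.Qm n m ≫ U.cobar.q (n + 1) Z) ≫ U.cobar.D (n + 1) Z + (-1 : ℤ) ^ (n + 1) •
        (U.cobar.q (n + 2) Z ≫ (R ◁ U.cobar.Bm n (sw U.J U.J Z)) + U.cobar.q (n + 2) Z) := by
    have h1 := U.cobar.d_naturality n m
    have h2 : U.cobar.Qm n (R ◁ U.cobar.e3 Z) ≫ U.cobar.Qm (n + 1) m =
        U.cobar.Qm (n + 1) (U.cobar.e3 Z ≫ m) := (U.cobar.Qm_comp (n + 1) _ _).symm
    rw [CobarData.d_add_three, Preadditive.add_comp, Preadditive.zsmul_comp, reassoc_of% h2, m4,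
      CobarData.Qm_add, CobarData.Qm_sub, Preadditive.add_comp, Preadditive.sub_comp, e1, e2,
      CobarData.Qm_id, Category.id_comp, sub_zero, Category.assoc, ← e3]
    exact congrArg (· + _) ((reassoc_of% h1) _).symm
  have e5 := congrArg (a ≫ ·) e4
  simp only [Preadditive.comp_add, Preadditive.comp_zsmul] at e5
  rw [reassoc_of% ha, zero_comp] at e5
  refine ⟨(-(-1 : ℤ) ^ (n + 1)) • (a ≫ U.cobar.Qm n m ≫ U.cobar.q (n + 1) Z), ?_⟩
  have e6 := eq_neg_of_add_eq_zero_left e5.symm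
  rw [← Category.assoc a] at e6
  rw [Preadditive.zsmul_comp, e6, neg_smul,
    neg_smul, smul_neg, neg_neg, smul_smul, ← mul_pow, one_smul, sub_neg_eq_add, Category.assoc]
  simp

lemma sr_inB (n r N : ℕ) (h : n + r = N) (h' : n + 1 + r = N + 1) (Z : T) :
    SR U (N + 1) Z ((-1) ^ r) (eB U.cobar r (n + 1) (N + 1) h' Z)
      (U.cobar.Bm n (inB U U.J r Z) ≫ eB U.cobar r n N h (U.J ⊗ Z)) := by
  induction r generalizing Z N with
  | zero =>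
    obtain rfl : n = N := h
    refine SR.of_eq ?_
    have h2 : U.cobar.Bm n (inB U U.J 0 Z) = 𝟙 _ := U.cobar.Bm_id _ _
    exact ((Category.comp_id _).trans h2).symm
  | succ r ih =>
    obtain ⟨N, rfl⟩ : ∃ r, N = r + 1 := ⟨N - 1, by omega⟩
    have h₁ : n + r = N := by omega
    have h1 := (ih N h₁ (by omega) (U.J ⊗ Z)).inner
    have h2 := (sr_swap (U := U) N Z).pre (U.cobar.Bm n (inB U U.J r (U.J ⊗ Z)) ≫
      eB U.cobar r n N h₁ (U.J ⊗ U.J ⊗ Z))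
    rw [Category.comp_id] at h2
    have h3 := h1.trans h2
    rw [← pow_succ', Category.assoc, ← eB_nat, ← CobarData.Bm_comp_assoc] at h3
    exact h3

/-- **The sign of the exchange of two blocks.** -/
theorem sr_swp (s r N : ℕ) (h : s + r = N) (h' : r + s = N) (Z : T) :
    SR U N Z ((-1) ^ (s * r)) (eB U.cobar r s N h Z)
      (swp U s r Z ≫ eB U.cobar s r N h' Z) := by
  induction s generalizing Z N with
  | zero =>
    obtain rfl : r = N := h'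
    rw [zero_mul, pow_zero, eB_zero_left]
    exact SR.of_eq (Category.comp_id _).symm
  | succ s ih =>
    obtain ⟨N, rfl⟩ : ∃ r, N = r + 1 := ⟨N - 1, by omega⟩
    have h₁ : s + r = N := by omega
    have h1 := sr_inB (U := U) s r N h₁ h Z
    have h2 := ((ih N h₁ (by omega) (U.J ⊗ Z)).inner).pre (U.cobar.Bm s (inB U U.J r Z))
    have h3 := h1.trans h2
    rw [← pow_add, ← Category.assoc, ← Nat.succ_mul] at h3
    exact h3

/-! ### Tensoring with an object -/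

lemma sw_bdry (X Z : T) : sw X U.J Z ≫ U.bdry (X ⊗ Z) =
    (X ◁ U.bdry Z) ≫ (csh X 1 Z).hom := by
  obtain ⟨F, ⟨L⟩⟩ := exists_link U
  rw [L.bdry_eq, L.bdry_eq, L.χ_hom, L.χ_hom, Category.assoc, ← sw_nat_mid_assoc, sw_shR'_assoc,
    ← Functor.map_comp, sw_ep, MonoidalCategory.whiskerLeft_comp,
    MonoidalCategory.whiskerLeft_comp, Category.assoc, Category.assoc, csh_nat]

@[reassoc]
lemma inB_k (X : T) (s : ℕ) (Z : T) : (X ◁ U.cobar.k s Z) ≫ inB U X (s + 1) Z =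
    sw X R _ ≫ (R ◁ inB U X s Z) ≫ U.cobar.k s (X ⊗ Z) := by
  induction s generalizing Z with
  | zero =>
    have h0 : inB U X 1 Z = sw X U.J Z := Category.id_comp _
    have h1 : R ◁ inB U X 0 Z = 𝟙 _ := MonoidalCategory.whiskerLeft_id _ _
    rw [h0, h1, Category.id_comp]
    exact sw_nat_mid X U.ρ Z
  | succ s ih =>
    have h1 := U.cobar.k_naturality s (sw X U.J Z)
    have h3 := reassoc_of% ih (U.J ⊗ Z)
    rw [inB_succ U X (s + 1)]
    refine (h3 _).trans ?_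
    rw [← h1, inB_succ, MonoidalCategory.whiskerLeft_comp, Category.assoc]
    rfl

@[reassoc]
lemma inB_bd (X : T) (s : ℕ) (Z : T) : inB U X (s + 1) Z ≫ U.bd s (X ⊗ Z) =
    (X ◁ U.bd s Z) ≫ (csh X 1 _).hom ≫ (inB U X s Z)⟦(1 : ℤ)⟧' := by
  induction s generalizing Z with
  | zero =>
    have h0 : inB U X 1 Z = sw X U.J Z := Category.id_comp _
    have h1 : (inB U X 0 Z)⟦(1 : ℤ)⟧' = 𝟙 _ := CategoryTheory.Functor.map_id _ _
    rw [h0, h1, Category.comp_id]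
    exact sw_bdry X Z
  | succ s ih =>
    have h1 := U.bd_naturality s (sw X U.J Z)
    have h3 := reassoc_of% ih (U.J ⊗ Z)
    rw [inB_succ U X (s + 1), Category.assoc]
    refine (congrArg _ h1).trans ((h3 _).trans ?_)
    rw [inB_succ, Functor.map_comp]
    rfl

@[reassoc]
lemma uN_inB {V : T} (i : 𝟙_ T ⟶ V) (s : ℕ) (Z : T) :
    uN i (U.cobar.B s Z) ≫ inB U V s Z = U.cobar.Bm s (uN i Z) := by
  induction s generalizing Z with
  | zero => exact Category.comp_id _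
  | succ s ih =>
    have h := reassoc_of% ih (U.J ⊗ Z)
    rw [inB_succ]
    refine (h _).trans ?_
    rw [← CobarData.Bm_comp, uN_sw]
    rfl

/-- Tensoring a map out of `P⟦t⟧`. -/
noncomputable def tn (X : T) {P A B : T} (φ : X ⊗ A ⟶ B) (t : ℤ) :
    (P⟦t⟧ ⟶ A) →+ ((X ⊗ P)⟦t⟧ ⟶ B) :=
  AddMonoidHom.mk' (fun y => (csh X t P).inv ≫ (X ◁ y) ≫ φ) fun x y => by
    rw [MonoidalPreadditive.whiskerLeft_add, Preadditive.add_comp, Preadditive.comp_add]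

lemma tn_apply (X : T) {P A B : T} (φ : X ⊗ A ⟶ B) (t : ℤ) (y : P⟦t⟧ ⟶ A) :
    tn X φ t y = (csh X t P).inv ≫ (X ◁ y) ≫ φ := rfl

lemma sh_tn (X : T) {P A B : T} (φ : X ⊗ A ⟶ B) {t t' : ℤ} (h : t + 1 = t') (y : P⟦t⟧ ⟶ A) :
    sh t 1 t' h (tn X φ t y) =
      (csh X t' P).inv ≫ (X ◁ sh t 1 t' h y) ≫ (csh X 1 A).hom ≫ φ⟦(1 : ℤ)⟧' := by
  have h1 := csh_inv_add X P t t' h
  have h4 : (csh X t' P).inv ≫ (X ◁ (shiftFunctorAdd' T t 1 t' h).hom.app P) ≫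
      (csh X 1 (P⟦t⟧)).hom = (shiftFunctorAdd' T t 1 t' h).hom.app (X ⊗ P) ≫
        ((csh X t P).inv)⟦(1 : ℤ)⟧' := by
    rw [Iso.inv_comp_eq, ← cancel_epi (X ◁ (shiftFunctorAdd' T t 1 t' h).inv.app P),
      ← MonoidalCategory.whiskerLeft_comp_assoc, Iso.inv_hom_id_app,
      MonoidalCategory.whiskerLeft_id, Category.id_comp, reassoc_of% h1,
      Iso.inv_hom_id_app_assoc, ← Functor.map_comp, Iso.hom_inv_id,
      CategoryTheory.Functor.map_id, Category.comp_id]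
  simp only [tn_apply, sh, AddEquiv.coe_mk, Equiv.coe_fn_mk, MonoidalCategory.whiskerLeft_comp,
    Category.assoc, Functor.map_comp]
  rw [csh_nat_assoc, reassoc_of% h4]

lemma cst_tn (X : T) {P A B : T} (φ : X ⊗ A ⟶ B) {t t' : ℤ} (h : t = t') (y : P⟦t⟧ ⟶ A) :
    cst _ _ h (tn X φ t y) = tn X φ t' (cst _ _ h y) := by
  subst h
  rfl

variable (U) in
/-- Tensoring with `X`, as a map of couples. -/
noncomputable def tensC (X P Z : T) : CMap (TC U P Z) (TC U (X ⊗ P) (X ⊗ Z)) 0 0 where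
  fD s s' n n' h e := ((eD U (X ⊗ P) (show n' + (s' : ℤ) = n + s by omega)).symm.toAddMonoidHom).comp
    ((tn X (inB U X s Z ≫ eB U.cobar 0 s s' h _) _).comp (eD U P rfl).toAddMonoidHom)
  fE s s' n n' h e := ((eE U (X ⊗ P) (show n' + (s' : ℤ) = n + s by omega)).symm.toAddMonoidHom).comp
    ((tn X (sw X R _ ≫ (R ◁ (inB U X s Z ≫ eB U.cobar 0 s s' h _))) _).comp
      (eE U P rfl).toAddMonoidHom)
  i_f s s' n n' h h1 e y := by
    obtain rfl : s = s' := h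
    obtain rfl : n = n' := by omega
    have h2 : n + (s : ℤ) + 1 = n + ((s + 1 : ℕ) : ℤ) := by push_cast; ring
    apply (eD U (X ⊗ P) rfl).injective
    apply (sh _ 1 _ h2).injective
    rw [eD_i rfl rfl h2]
    change (tn X (inB U X (s + 1) Z ≫ 𝟙 _) _ (eD U P rfl y)) ≫ _ =
      sh _ 1 _ h2 (tn X (inB U X s Z ≫ 𝟙 _) _ (eD U P rfl ((TC U P Z).i s n y)))
    rw [sh_tn, eD_i rfl rfl h2, tn_apply, Category.comp_id, Category.comp_id, Category.assoc,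
      Category.assoc, inB_bd, MonoidalCategory.whiskerLeft_comp_assoc]
  j_f s s' n n' h e y := by
    obtain rfl : s = s' := h
    obtain rfl : n = n' := by omega
    apply (eE U (X ⊗ P) rfl).injective
    rw [eE_j]
    change (tn X (inB U X s Z ≫ 𝟙 _) _ (eD U P rfl y)) ≫ _ =
      tn X (sw X R _ ≫ (R ◁ (inB U X s Z ≫ 𝟙 _))) _ (eE U P rfl ((TC U P Z).j s n y))
    rw [eE_j, tn_apply, tn_apply, MonoidalCategory.whiskerLeft_comp_assoc,
      whisker_unitMap_sw_assoc, ← unitMap_nat, Category.assoc, Category.assoc]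
  k_f s s' n n' m m' h h1 e e' hn hn' z := by
    obtain rfl : s = s' := h
    obtain rfl : n = n' := by omega
    obtain rfl : m = m' := by omega
    have h2 : n + (s : ℤ) = m + ((s + 1 : ℕ) : ℤ) := by push_cast; omega
    apply (eD U (X ⊗ P) rfl).injective
    rw [eD_k hn h2 rfl]
    change _ = tn X (inB U X (s + 1) Z ≫ 𝟙 _) _ (eD U P rfl ((TC U P Z).k s n m hn z))
    have h3 : ∀ w : (TC U (X ⊗ P) (X ⊗ Z)).E s n, eE U (X ⊗ P) h2 w =
      cst _ _ h2 (eE U (X ⊗ P) rfl w) := fun w => by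
        generalize m + ((s + 1 : ℕ) : ℤ) = t at h2
        subst h2
        rfl
    have h4 : eE U P h2 z = cst _ _ h2 (eE U P rfl z) := by
      generalize m + ((s + 1 : ℕ) : ℤ) = t at h2
      subst h2
      rfl
    rw [eD_k hn h2 rfl, h3, h4]
    change cst _ _ h2 (tn X (sw X R _ ≫ (R ◁ (inB U X s Z ≫ 𝟙 _))) _ (eE U P rfl z)) ≫ _ = _
    rw [cst_tn, tn_apply, tn_apply, Category.comp_id, Category.comp_id,
      MonoidalCategory.whiskerLeft_comp_assoc, inB_k]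
    simp only [Category.assoc]

lemma eD_tensC (X : T) {P Z : T} {s : ℕ} {n t : ℤ} (h : n + (s : ℤ) = t)
    (y : (TC U P Z).D s n) :
    eD U (X ⊗ P) h ((tensC U X P Z).fD s s n n rfl (add_zero n) y) =
      (csh X t P).inv ≫ (X ◁ eD U P h y) ≫ inB U X s Z := by
  subst h
  exact (tn_apply X (inB U X s Z ≫ 𝟙 _) _ (eD U P rfl y)).trans (by rw [Category.comp_id])

lemma eE_tensC (X : T) {P Z : T} {s : ℕ} {n t : ℤ} (h : n + (s : ℤ) = t)
    (y : (TC U P Z).E s n) :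
    eE U (X ⊗ P) h ((tensC U X P Z).fE s s n n rfl (add_zero n) y) =
      (csh X t P).inv ≫ (X ◁ eE U P h y) ≫ sw X R _ ≫ (R ◁ inB U X s Z) := by
  subst h
  exact (tn_apply X (sw X R _ ≫ (R ◁ (inB U X s Z ≫ 𝟙 _))) _ (eE U P rfl y)).trans
    (by rw [Category.comp_id])

end Vale.Agent.P236K.SS
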