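import Vale.Agent.P236K.SS.CMap
import Vale.Agent.P251.S.AmitsurCup
import Vale.Agent.P251.H.Dist

/-!
# P236K, block SS: maps of towers

* `TMor X Y σ k`: maps of towers raising the filtration by `σ` and the internal degree by `k`,
  `TMor.cmap`: the induced map of exact couples;
* `mulT g`: the map of towers given by `g : Y⟦k⟧ ⟶ B σ Z` (`k` even), `mulC g` on the couples
  `TC U P Y`;
* `cupG`: the cup product with a cochain of any degree, `cupG_q`: it induces `mulC g` on `E₁`;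
* `mulC_mulC`: composition; `i_mulC_eq_zero`: if `i g = 0` then `i (y g) = 0`.
-/

open CategoryTheory MonoidalCategory Limits Pretriangulated MonObj

set_option linter.unusedSectionVars false

universe v u

namespace Vale.Agent.P236K.SS

open Vale.Agent.P251.S Vale.Agent.P251.T Vale.Agent.P257.H712

section TMor

variable {T : Type u} [Category.{v} T] [Preadditive T] [HasZeroObject T] [HasShift T ℤ]
  [∀ n : ℤ, (shiftFunctor T n).Additive] [Pretriangulated T]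

/-- A map of towers of filtration `σ` and internal degree `k`. -/
structure TMor (X Y : Tow T) (σ : ℕ) (k : ℤ) where
  /-- the map on `J` -/
  f : ∀ s s', s + σ = s' → ((X.J s)⟦k⟧ ⟶ Y.J s')
  /-- the map on `W` -/
  g : ∀ s s', s + σ = s' → ((X.W s)⟦k⟧ ⟶ Y.W s')
  comm_a : ∀ s s' (h : s + σ = s'), (X.a s)⟦k⟧' ≫ g s s' h = f s s' h ≫ Y.a s'
  comm_b : ∀ s s' (h : s + σ = s') (h1 : s + 1 + σ = s' + 1),
    (X.b s)⟦k⟧' ≫ f (s + 1) (s' + 1) h1 = g s s' h ≫ Y.b s'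
  comm_c : ∀ s s' (h : s + σ = s') (h1 : s + 1 + σ = s' + 1),
    f (s + 1) (s' + 1) h1 ≫ Y.c s' = (X.c s)⟦k⟧' ≫
      (shiftFunctorComm T (1 : ℤ) k).hom.app (X.J s) ≫ (f s s' h)⟦(1 : ℤ)⟧'

/-- Shift and compose. -/
noncomputable def shc {P A B : T} {k : ℤ} (φ : A⟦k⟧ ⟶ B) (t t' : ℤ) (h : t + k = t') :
    (P⟦t⟧ ⟶ A) →+ (P⟦t'⟧ ⟶ B) :=
  AddMonoidHom.mk' (fun y => sh t k t' h y ≫ φ) fun x y => by
    rw [map_add, Preadditive.add_comp]

lemma shc_apply {P A B : T} {k : ℤ} (φ : A⟦k⟧ ⟶ B) (t t' : ℤ) (h : t + k = t') (y : P⟦t⟧ ⟶ A) :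
    shc φ t t' h y = sh t k t' h y ≫ φ := rfl

namespace TMor

variable {X Y : Tow T} {σ : ℕ} {k : ℤ} (φ : TMor X Y σ k) (P : T) {a : ℤ} (hk : k = a + σ)

lemma deg (hk : k = a + σ) {s s' : ℕ} {n n' : ℤ} (h : s + σ = s') (e : n + a = n') :
    n + (s : ℤ) + k = n' + (s' : ℤ) := by
  rw [hk, ← h, ← e]; push_cast; ring

/-- The map of exact couples of a map of towers. -/
noncomputable def cmap : CMap (X.couple P) (Y.couple P) σ a where
  fD s s' n n' h e := shc (P := P) (φ.f s s' h) _ _ (deg hk h e)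
  fE s s' n n' h e := shc (P := P) (φ.g s s' h) _ _ (deg hk h e)
  i_f s s' n n' h h1 e y := by
    have key : ∀ y : P⟦n + ((s + 1 : ℕ) : ℤ)⟧ ⟶ X.J (s + 1),
        Y.iMap P s' n' (sh (P := P) _ k _ (deg hk h1 e) y ≫ φ.f (s + 1) (s' + 1) h1) =
          sh (P := P) _ k _ (deg hk h e) (X.iMap P s n y) ≫ φ.f s s' h := by
      intro y
      rw [Tow.iMap_apply, Tow.iMap_apply, AddEquiv.symm_apply_eq, sh_comp, Category.assoc,
        φ.comm_c s s' h]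
      have h2 : n + (s : ℤ) + 1 = n + ((s + 1 : ℕ) : ℤ) := by push_cast; ring
      have h4 : n' + (s' : ℤ) + 1 = n' + ((s' + 1 : ℕ) : ℤ) := by push_cast; ring
      have key := sh_sh_comm (P := P) (n + (s : ℤ)) 1 k _ _ _ h2 (deg hk h1 e) (deg hk h e) h4
        ((sh (n + (s : ℤ)) 1 _ h2).symm (y ≫ X.c s))
      rw [AddEquiv.apply_symm_apply, sh_comp, Category.assoc] at key
      rw [← key]
      simp only [Category.assoc]
    exact key y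
  j_f s s' n n' h e y := by
    have key : ∀ y : P⟦n + (s : ℤ)⟧ ⟶ X.J s,
        (sh (P := P) _ k _ (deg hk h e) y ≫ φ.f s s' h) ≫ Y.a s' =
          sh (P := P) _ k _ (deg hk h e) (y ≫ X.a s) ≫ φ.g s s' h := by
      intro y
      rw [sh_comp, Category.assoc, Category.assoc, φ.comm_a]
    exact key y
  k_f s s' n n' m m' h h1 e e' hn hn' z := by
    have e1 : n + (s : ℤ) = m + ((s + 1 : ℕ) : ℤ) := by rw [hn]; push_cast; ring
    have e2 : n' + (s' : ℤ) = m' + ((s' + 1 : ℕ) : ℤ) := by rw [hn']; push_cast; ring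
    have key : ∀ z : P⟦n + (s : ℤ)⟧ ⟶ X.W s,
        cst P _ e2 ((sh (P := P) _ k _ (deg hk h e) z ≫ φ.g s s' h) ≫ Y.b s') =
          sh (P := P) _ k _ (deg hk h1 e') (cst P _ e1 (z ≫ X.b s)) ≫
            φ.f (s + 1) (s' + 1) h1 := by
      intro z
      rw [Category.assoc, ← φ.comm_b s s' h h1, ← Category.assoc, ← sh_comp, cst_comp, cst_sh,
        sh_cst]
    exact key z

lemma eD_fD {s s' : ℕ} {n n' t t' : ℤ} (h : s + σ = s') (e : n + a = n') (h1 : n + (s : ℤ) = t)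
    (h2 : n' + (s' : ℤ) = t') (ht : t + k = t') (y : (X.couple P).D s n) :
    Y.eD P h2 ((φ.cmap P hk).fD s s' n n' h e y) = sh t k t' ht (X.eD P h1 y) ≫ φ.f s s' h := by
  subst h1 h2
  rfl

lemma eE_fE {s s' : ℕ} {n n' t t' : ℤ} (h : s + σ = s') (e : n + a = n') (h1 : n + (s : ℤ) = t)
    (h2 : n' + (s' : ℤ) = t') (ht : t + k = t') (y : (X.couple P).E s n) :
    Y.eE P h2 ((φ.cmap P hk).fE s s' n n' h e y) = sh t k t' ht (X.eE P h1 y) ≫ φ.g s s' h := by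
  subst h1 h2
  rfl

end TMor

end TMor

/-! ### Reindexing and cup products in a cobar datum -/

section Cobar

variable {C : Type u} [Category.{v} C] [Preadditive C] (K : CobarData C)

/-- `B s (B σ Y) = B (s + σ) Y`. -/
def eB : ∀ (σ s s' : ℕ), s + σ = s' → ∀ Y : C, K.B s (K.B σ Y) ⟶ K.B s' Y
  | 0, s, s', h, Y => eqToHom (by rw [← h]; rfl)
  | _ + 1, _, 0, h, _ => absurd h (by omega)
  | σ + 1, s, s' + 1, h, Y => eB σ s s' (by omega) (K.G.obj Y)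

lemma eB_zero (s : ℕ) (Y : C) : eB K 0 s s rfl Y = 𝟙 _ := rfl

lemma eB_succ (σ s s' : ℕ) (h : s + (σ + 1) = s' + 1) (h' : s + σ = s') (Y : C) :
    eB K (σ + 1) s (s' + 1) h Y = eB K σ s s' h' (K.G.obj Y) := rfl

lemma eB_zero_left (σ : ℕ) (h : 0 + σ = σ) (Y : C) : eB K σ 0 σ h Y = 𝟙 (K.B σ Y) := by
  induction σ generalizing Y with
  | zero => rfl
  | succ σ ih => exact ih (by omega) (K.G.obj Y)

instance isIso_eB (σ s s' : ℕ) (h : s + σ = s') (Y : C) : IsIso (eB K σ s s' h Y) := by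
  induction σ generalizing Y s' with
  | zero =>
    subst h
    exact inferInstanceAs (IsIso (𝟙 _))
  | succ σ ih =>
    obtain ⟨s', rfl⟩ : ∃ r, s' = r + 1 := ⟨s' - 1, by omega⟩
    exact ih s' (by omega) (K.G.obj Y)

@[reassoc]
lemma eB_nat (σ s s' : ℕ) (h : s + σ = s') {Y Z : C} (f : Y ⟶ Z) :
    K.Bm s (K.Bm σ f) ≫ eB K σ s s' h Z = eB K σ s s' h Y ≫ K.Bm s' f := by
  induction σ generalizing Y Z s' with
  | zero =>
    subst h
    exact (Category.comp_id _).trans (Category.id_comp _).symm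
  | succ σ ih =>
    obtain ⟨s', rfl⟩ : ∃ r, s' = r + 1 := ⟨s' - 1, by omega⟩
    exact ih s' (by omega) (K.G.map f)

@[reassoc]
lemma k_eB (σ s s' : ℕ) (h : s + σ = s') (h1 : s + 1 + σ = s' + 1) (Y : C) :
    K.k s (K.B σ Y) ≫ eB K σ (s + 1) (s' + 1) h1 Y = K.M.map (eB K σ s s' h Y) ≫ K.k s' Y := by
  induction σ generalizing Y s' with
  | zero =>
    subst h
    have h2 : K.M.map (eB K 0 s s rfl Y) = 𝟙 _ := K.M.map_id _
    exact (Category.comp_id _).trans ((Category.id_comp _).symm.trans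
      (congrArg (· ≫ K.k s Y) h2.symm))
  | succ σ ih =>
    obtain ⟨s', rfl⟩ : ∃ r, s' = r + 1 := ⟨s' - 1, by omega⟩
    exact ih s' (by omega) (by omega) (K.G.obj Y)

/-- Associativity of the reindexing. -/
lemma eB_assoc (τ σ ρ s s₁ s' : ℕ) (hρ : σ + τ = ρ) (h₁ : s + σ = s₁) (h₂ : s₁ + τ = s')
    (h : s + ρ = s') (Y : C) :
    eB K σ s s₁ h₁ (K.B τ Y) ≫ eB K τ s₁ s' h₂ Y =
      K.Bm s (eB K τ σ ρ hρ Y) ≫ eB K ρ s s' h Y := by
  induction τ generalizing Y s' ρ with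
  | zero =>
    subst h₂ hρ
    have h2 : K.Bm s (eB K 0 σ σ rfl Y) = 𝟙 _ := K.Bm_id _ _
    exact (Category.comp_id _).trans ((Category.id_comp _).symm.trans
      (congrArg (· ≫ eB K σ s s₁ h₁ Y) h2.symm))
  | succ τ ih =>
    obtain ⟨s', rfl⟩ : ∃ r, s' = r + 1 := ⟨s' - 1, by omega⟩
    obtain ⟨ρ, rfl⟩ : ∃ r, ρ = r + 1 := ⟨ρ - 1, by omega⟩
    exact ih ρ s' (by omega) (by omega) (by omega) (K.G.obj Y)

/-- The cup product (on the inner side) with a cochain of degree `σ`. -/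
def cupG {Y' : C} : ∀ (σ s s' : ℕ), s + σ = s' → ∀ {Y : C}, (Y' ⟶ K.Q (σ + 1) Y) →
    (K.Q (s + 1) Y' ⟶ K.Q (s' + 1) Y)
  | 0, s, s', h, Y, z => K.Qm s (K.M.map z ≫ K.mu Y) ≫ eqToHom (by rw [← h])
  | _ + 1, _, 0, h, _, _ => absurd h (by omega)
  | σ + 1, s, s' + 1, h, Y, z => cupG σ s s' (by omega) (Y := K.M.obj Y) z

lemma cupG_zero {Y' Y : C} (s : ℕ) (z : Y' ⟶ K.Q 1 Y) :
    cupG K 0 s s rfl z = K.Qm s (K.M.map z ≫ K.mu Y) := Category.comp_id _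

lemma cupG_nat {Y' : C} (σ s s' : ℕ) (h : s + σ = s') {Y Z : C} (z : Y' ⟶ K.Q (σ + 1) Y)
    (f : Y ⟶ Z) : cupG K σ s s' h z ≫ K.Qm (s' + 1) f =
      cupG K σ s s' h (z ≫ K.Qm (σ + 1) f) := by
  induction σ generalizing Y Z s' with
  | zero =>
    obtain rfl : s = s' := h
    rw [cupG_zero, cupG_zero, CobarData.Qm_succ, ← CobarData.Qm_comp, Category.assoc,
      ← K.mu_nat, ← Functor.map_comp_assoc]
    rfl
  | succ σ ih =>
    obtain ⟨s', rfl⟩ : ∃ r, s' = r + 1 := ⟨s' - 1, by omega⟩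
    exact ih s' (by omega) (Y := K.M.obj Y) z (K.M.map f)

lemma cupG_pre {Y'' Y' : C} (σ s s' : ℕ) (h : s + σ = s') {Y : C} (z : Y' ⟶ K.Q (σ + 1) Y)
    (f : Y'' ⟶ Y') : K.Qm (s + 1) f ≫ cupG K σ s s' h z = cupG K σ s s' h (f ≫ z) := by
  induction σ generalizing Y s' with
  | zero =>
    obtain rfl : s = s' := h
    rw [cupG_zero, cupG_zero, CobarData.Qm_succ, ← CobarData.Qm_comp, Functor.map_comp,
      Category.assoc]
  | succ σ ih =>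
    obtain ⟨s', rfl⟩ : ∃ r, s' = r + 1 := ⟨s' - 1, by omega⟩
    exact ih s' (by omega) (Y := K.M.obj Y) z

/-- The cup product with `z` induces the map of the tower given by `x`. -/
lemma cupG_q {Y' : C} (σ s s' : ℕ) (h : s + σ = s') {Y : C} (z : Y' ⟶ K.Q (σ + 1) Y)
    (x : Y' ⟶ K.B σ Y) (hz : z ≫ K.q σ Y = x ≫ K.un (K.B σ Y)) :
    cupG K σ s s' h z ≫ K.q s' Y = K.q s Y' ≫ K.M.map (K.Bm s x ≫ eB K σ s s' h Y) := by
  induction σ generalizing Y s' with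
  | zero =>
    obtain rfl : s = s' := h
    have h1 : z = x ≫ K.un Y := (Category.comp_id z).symm.trans hz
    have h2 : K.M.map z ≫ K.mu Y = K.M.map x := by
      rw [h1]
      exact (congrArg (· ≫ K.mu Y) (K.M.map_comp x (K.un Y))).trans
        ((Category.assoc _ _ _).trans ((congrArg (K.M.map x ≫ ·) (K.right_unit Y)).trans
          (Category.comp_id _)))
    rw [cupG_zero, h2, eB_zero, Category.comp_id]
    exact K.q_naturality s x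
  | succ σ ih =>
    obtain ⟨s', rfl⟩ : ∃ r, s' = r + 1 := ⟨s' - 1, by omega⟩
    have h' : s + σ = s' := by omega
    have h1 := cupG_nat K σ s s' h' (Y := K.M.obj Y) z (K.ρ Y)
    have h2 := ih s' h' (Y := K.G.obj Y) (z ≫ K.Qm (σ + 1) (K.ρ Y)) x (by
      rw [Category.assoc]; exact hz)
    rw [← h1, Category.assoc] at h2
    exact h2

end Cobar

/-! ### The tower of a monoid -/

section Mul

variable {T : Type u} [Category.{v} T] [Preadditive T] [HasZeroObject T] [HasShift T ℤ]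
  [∀ n : ℤ, (shiftFunctor T n).Additive] [Pretriangulated T] [MonoidalCategory T]
  [SymmetricCategory T] [TensorTriangulated T] {R : T} [MonObj R] (U : UnitCof R)

/-- The couple of the tower of `Y`, for the test object `P`. -/
noncomputable abbrev TC (P Y : T) : Couple.{v, v} := (U.tow Y).couple P

@[reassoc]
lemma eB_bd (σ s s' : ℕ) (h : s + σ = s') (h1 : s + 1 + σ = s' + 1) (Y : T) :
    eB U.cobar σ (s + 1) (s' + 1) h1 Y ≫ U.bd s' Y =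
      U.bd s (U.cobar.B σ Y) ≫ (eB U.cobar σ s s' h Y)⟦(1 : ℤ)⟧' := by
  induction σ generalizing Y s' with
  | zero =>
    subst h
    have h2 : (eB U.cobar 0 s s rfl Y)⟦(1 : ℤ)⟧' = 𝟙 _ := CategoryTheory.Functor.map_id _ _
    exact (Category.id_comp _).trans ((Category.comp_id _).symm.trans
      (congrArg (U.bd s Y ≫ ·) h2.symm))
  | succ σ ih =>
    obtain ⟨s', rfl⟩ : ∃ r, s' = r + 1 := ⟨s' - 1, by omega⟩
    exact ih s' (by omega) (by omega) (U.J ⊗ Y)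

@[reassoc]
lemma κB_k (k : ℤ) (s : ℕ) (Y : T) :
    (U.cobar.k s Y)⟦k⟧' ≫ U.κB k (s + 1) Y =
      (csh R k (U.cobar.B s Y)).inv ≫ (R ◁ U.κB k s Y) ≫ U.cobar.k s (Y⟦k⟧) := by
  induction s generalizing Y with
  | zero =>
    have h0 : U.κB k 1 Y = (csh U.J k Y).inv := Category.id_comp _
    have h1 : R ◁ U.κB k 0 Y = 𝟙 _ := MonoidalCategory.whiskerLeft_id _ _
    rw [h0, h1, Category.id_comp]
    exact csh_inv_tlMap U.ρ k Y
  | succ s ih =>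
    have h1 := U.cobar.k_naturality s (csh U.J k Y).inv
    have h2 : U.κB k (s + 1 + 1) Y = U.κB k (s + 1) (U.J ⊗ Y) ≫
      U.cobar.Bm (s + 1) (csh U.J k Y).inv := rfl
    have h3 := reassoc_of% ih (U.J ⊗ Y)
    rw [h2]
    refine (h3 _).trans ?_
    rw [← h1, UnitCof.κB_succ, MonoidalCategory.whiskerLeft_comp, Category.assoc]
    rfl

@[reassoc]
lemma κB_eB (k : ℤ) (σ s s' : ℕ) (h : s + σ = s') (Y : T) :
    (eB U.cobar σ s s' h Y)⟦k⟧' ≫ U.κB k s' Y = U.κB k s (U.cobar.B σ Y) ≫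
      U.cobar.Bm s (U.κB k σ Y) ≫ eB U.cobar σ s s' h (Y⟦k⟧) := by
  induction σ generalizing Y s' with
  | zero =>
    subst h
    have h1 : (eB U.cobar 0 s s rfl Y)⟦k⟧' = 𝟙 _ := CategoryTheory.Functor.map_id _ _
    have h2 : U.cobar.Bm s (U.κB k 0 Y) = 𝟙 _ := U.cobar.Bm_id _ _
    refine (congrArg (· ≫ U.κB k s Y) h1).trans ((Category.id_comp _).trans ?_)
    refine Eq.trans ?_ (congrArg (U.κB k s Y ≫ ·)
      (congrArg (· ≫ eB U.cobar 0 s s rfl (Y⟦k⟧)) h2.symm))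
    exact ((congrArg (U.κB k s Y ≫ ·) (Category.id_comp _)).trans (Category.comp_id _)).symm
  | succ σ ih =>
    obtain ⟨s', rfl⟩ : ∃ r, s' = r + 1 := ⟨s' - 1, by omega⟩
    have h' : s + σ = s' := by omega
    have h1 := reassoc_of% ih s' h' (U.J ⊗ Y)
    have h2 := eB_nat U.cobar σ s s' h' (csh U.J k Y).inv
    rw [UnitCof.κB_succ, UnitCof.κB_succ, CobarData.Bm_comp, Category.assoc]
    refine (h1 _).trans ?_
    rw [← h2]
    rfl

instance isIso_Bm (s : ℕ) {X Y : T} (f : X ⟶ Y) [IsIso f] : IsIso (U.cobar.Bm s f) :=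
  ⟨U.cobar.Bm s (inv f), by rw [← CobarData.Bm_comp, IsIso.hom_inv_id, CobarData.Bm_id],
    by rw [← CobarData.Bm_comp, IsIso.inv_hom_id, CobarData.Bm_id]⟩

instance isIso_κB (k : ℤ) (s : ℕ) (Y : T) : IsIso (U.κB k s Y) := by
  induction s generalizing Y with
  | zero => exact inferInstanceAs (IsIso (𝟙 _))
  | succ s ih =>
    rw [UnitCof.κB_succ]
    have := ih (U.J ⊗ Y)
    infer_instance

/-- The maps of the stages. -/
noncomputable def ξG {k : ℤ} {σ : ℕ} {Y Z : T} (g : Y⟦k⟧ ⟶ U.cobar.B σ Z) (s s' : ℕ)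
    (h : s + σ = s') : (U.cobar.B s Y)⟦k⟧ ⟶ U.cobar.B s' Z :=
  U.κB k s Y ≫ U.cobar.Bm s g ≫ eB U.cobar σ s s' h Z

lemma ξG_zero {k : ℤ} {σ : ℕ} {Y Z : T} (g : Y⟦k⟧ ⟶ U.cobar.B σ Z) (h : 0 + σ = σ) :
    ξG U g 0 σ h = g := by
  rw [ξG, eB_zero_left]
  exact (Category.id_comp _).trans (Category.comp_id _)

/-- The map of towers given by `g : Y⟦k⟧ ⟶ B σ Z`, `k` even. -/
noncomputable def mulT {k : ℤ} (hk : ∃ n : ℕ, k = 2 * (n : ℤ)) {σ : ℕ} {Y Z : T}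
    (g : Y⟦k⟧ ⟶ U.cobar.B σ Z) : TMor (U.tow Y) (U.tow Z) σ k where
  f s s' h := ξG U g s s' h
  g s s' h := (csh R k (U.cobar.B s Y)).inv ≫ (R ◁ ξG U g s s' h)
  comm_a s s' h := by
    change (unitMap R (U.cobar.B s Y))⟦k⟧' ≫ (csh R k (U.cobar.B s Y)).inv ≫
      (R ◁ ξG U g s s' h) = ξG U g s s' h ≫ unitMap R _
    rw [← unitMap_csh_assoc, Iso.hom_inv_id_assoc, unitMap_nat]
  comm_b s s' h h1 := by
    change (U.cobar.k s Y)⟦k⟧' ≫ ξG U g (s + 1) (s' + 1) h1 =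
      ((csh R k (U.cobar.B s Y)).inv ≫ (R ◁ ξG U g s s' h)) ≫ U.cobar.k s' Z
    have h2 := U.cobar.k_naturality s g
    have h3 := k_eB U.cobar σ s s' h h1 Z
    rw [ξG, ξG, κB_k_assoc, ← reassoc_of% h2, h3, MonoidalCategory.whiskerLeft_comp,
      MonoidalCategory.whiskerLeft_comp]
    simp only [Category.assoc]
  comm_c s s' h h1 := by
    change ξG U g (s + 1) (s' + 1) h1 ≫ U.bd s' Z = (U.bd s Y)⟦k⟧' ≫
      (shiftFunctorComm T (1 : ℤ) k).hom.app (U.cobar.B s Y) ≫ (ξG U g s s' h)⟦(1 : ℤ)⟧'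
    obtain ⟨n, rfl⟩ := hk
    rw [ξG, ξG, Category.assoc, Category.assoc, eB_bd U σ s s' h, U.bd_naturality_assoc,
      reassoc_of% U.κB_bd n s Y, Functor.map_comp, Functor.map_comp]

variable (P : T)

/-- The map of couples given by `g : Y⟦k⟧ ⟶ B σ Z`, `k` even. -/
noncomputable def mulC {k : ℤ} (hk : ∃ n : ℕ, k = 2 * (n : ℤ)) {σ : ℕ} {a : ℤ} (ha : k = a + σ)
    {Y Z : T} (g : Y⟦k⟧ ⟶ U.cobar.B σ Z) : CMap (TC U P Y) (TC U P Z) σ a :=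
  (mulT U hk g).cmap P ha

/-- `D` in internal degree `t`. -/
noncomputable def eD {Y : T} {s : ℕ} {n t : ℤ} (h : n + (s : ℤ) = t) :
    (TC U P Y).D s n ≃+ (P⟦t⟧ ⟶ U.cobar.B s Y) := (U.tow Y).eD P h

/-- `E` in internal degree `t`. -/
noncomputable def eE {Y : T} {s : ℕ} {n t : ℤ} (h : n + (s : ℤ) = t) :
    (TC U P Y).E s n ≃+ (P⟦t⟧ ⟶ R ⊗ U.cobar.B s Y) := (U.tow Y).eE P h

section

variable {U P} {Y : T}

lemma eE_j {s : ℕ} {n t : ℤ} (h : n + (s : ℤ) = t) (y : (TC U P Y).D s n) :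
    eE U P h ((TC U P Y).j s n y) = eD U P h y ≫ unitMap R _ := (U.tow Y).eE_j P h y

lemma eD_k {s : ℕ} {n m t : ℤ} (h : n = m + 1) (h1 : n + (s : ℤ) = t)
    (h2 : m + ((s + 1 : ℕ) : ℤ) = t) (z : (TC U P Y).E s n) :
    eD U P h2 ((TC U P Y).k s n m h z) = eE U P h1 z ≫ U.cobar.k s Y :=
  (U.tow Y).eD_k P h h1 h2 z

lemma eE_d {s : ℕ} {n m t : ℤ} (h : n = m + 1) (h1 : n + (s : ℤ) = t)
    (h2 : m + ((s + 1 : ℕ) : ℤ) = t) (z : (TC U P Y).E s n) :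
    eE U P h2 ((TC U P Y).d s n m h z) = eE U P h1 z ≫ U.cobar.D s Y :=
  (U.tow Y).eE_d P h h1 h2 z

lemma eD_i {s : ℕ} {n t t' : ℤ} (h : n + (s : ℤ) = t) (h' : n + ((s + 1 : ℕ) : ℤ) = t')
    (ht : t + 1 = t') (y : (TC U P Y).D (s + 1) n) :
    sh t 1 t' ht (eD U P h ((TC U P Y).i s n y)) = eD U P h' y ≫ U.bd s Y :=
  (U.tow Y).eD_i P h h' ht y

lemma i_eq_zero_iff {s : ℕ} {n t' : ℤ} (h' : n + ((s + 1 : ℕ) : ℤ) = t')
    (y : (TC U P Y).D (s + 1) n) :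
    (TC U P Y).i s n y = 0 ↔ eD U P h' y ≫ U.bd s Y = 0 := by
  rw [← eD_i rfl h' (by rw [← h']; push_cast; ring), AddEquiv.map_eq_zero_iff,
    AddEquiv.map_eq_zero_iff]

variable {k : ℤ} (hk : ∃ n : ℕ, k = 2 * (n : ℤ)) {σ : ℕ} {a : ℤ} (ha : k = a + σ) {Z : T}
  (g : Y⟦k⟧ ⟶ U.cobar.B σ Z)

lemma eD_mulC {s s' : ℕ} {n n' t t' : ℤ} (h : s + σ = s') (e : n + a = n')
    (h1 : n + (s : ℤ) = t) (h2 : n' + (s' : ℤ) = t') (ht : t + k = t') (y : (TC U P Y).D s n) :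
    eD U P h2 ((mulC U P hk ha g).fD s s' n n' h e y) =
      sh t k t' ht (eD U P h1 y) ≫ ξG U g s s' h :=
  (mulT U hk g).eD_fD P ha h e h1 h2 ht y

lemma eE_mulC {s s' : ℕ} {n n' t t' : ℤ} (h : s + σ = s') (e : n + a = n')
    (h1 : n + (s : ℤ) = t) (h2 : n' + (s' : ℤ) = t') (ht : t + k = t') (y : (TC U P Y).E s n) :
    eE U P h2 ((mulC U P hk ha g).fE s s' n n' h e y) =
      sh t k t' ht (eE U P h1 y) ≫ (csh R k (U.cobar.B s Y)).inv ≫ (R ◁ ξG U g s s' h) :=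
  (mulT U hk g).eE_fE P ha h e h1 h2 ht y

end

/-! ### Cochains -/

/-- The product of a cochain with a cochain of degree `σ`. -/
noncomputable def cupS {k : ℤ} {σ : ℕ} {Y Z : T} (z : Y⟦k⟧ ⟶ U.cobar.Q (σ + 1) Z) (s s' : ℕ)
    (h : s + σ = s') : (U.cobar.Q (s + 1) Y)⟦k⟧ ⟶ U.cobar.Q (s' + 1) Z :=
  U.κQ k (s + 1) Y ≫ cupG U.cobar σ s s' h z

lemma cupS_q {k : ℤ} {σ : ℕ} {Y Z : T} (z : Y⟦k⟧ ⟶ U.cobar.Q (σ + 1) Z)
    (g : Y⟦k⟧ ⟶ U.cobar.B σ Z) (hz : z ≫ U.cobar.q σ Z = g ≫ unitMap R _) (s s' : ℕ)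
    (h : s + σ = s') :
    cupS U z s s' h ≫ U.cobar.q s' Z = (U.cobar.q s Y)⟦k⟧' ≫
      (csh R k (U.cobar.B s Y)).inv ≫ (R ◁ ξG U g s s' h) := by
  rw [cupS, Category.assoc, cupG_q U.cobar σ s s' h z g hz, U.κQ_q_assoc, ξG,
    MonoidalCategory.whiskerLeft_comp]

lemma ξG_pre {k : ℤ} {σ : ℕ} {X Y Z : T} (f : X ⟶ Y) (g : Y⟦k⟧ ⟶ U.cobar.B σ Z) (s s' : ℕ)
    (h : s + σ = s') : (U.cobar.Bm s f)⟦k⟧' ≫ ξG U g s s' h = ξG U (f⟦k⟧' ≫ g) s s' h := by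
  rw [ξG, ξG, U.κB_nat_assoc, CobarData.Bm_comp_assoc]

lemma ξG_post {k : ℤ} {σ : ℕ} {Y Z Z' : T} (g : Y⟦k⟧ ⟶ U.cobar.B σ Z) (f : Z ⟶ Z') (s s' : ℕ)
    (h : s + σ = s') :
    ξG U g s s' h ≫ U.cobar.Bm s' f = ξG U (g ≫ U.cobar.Bm σ f) s s' h := by
  rw [ξG, ξG, Category.assoc, Category.assoc, ← eB_nat, CobarData.Bm_comp_assoc]

/-! ### Composition -/

@[reassoc]
lemma κB_add (k l m : ℤ) (h : k + l = m) (s : ℕ) (Y : T) :
    (shiftFunctorAdd' T k l m h).hom.app (U.cobar.B s Y) ≫ (U.κB k s Y)⟦l⟧' ≫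
      U.κB l s (Y⟦k⟧) =
    U.κB m s Y ≫ U.cobar.Bm s ((shiftFunctorAdd' T k l m h).hom.app Y) := by
  induction s generalizing Y with
  | zero =>
    have h1 : (U.κB k 0 Y)⟦l⟧' = 𝟙 _ := CategoryTheory.Functor.map_id _ _
    refine (congrArg (_ ≫ ·) ((congrArg (· ≫ U.κB l 0 (Y⟦k⟧)) h1).trans
      (Category.id_comp _))).trans ?_
    exact (Category.comp_id _).trans (Category.id_comp _).symm
  | succ s ih =>
    have h1 := reassoc_of% ih (U.J ⊗ Y)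
    have h2 := U.κB_nat l s (csh U.J k Y).inv
    have h3 : (shiftFunctorAdd' T k l m h).hom.app (U.J ⊗ Y) ≫ ((csh U.J k Y).inv)⟦l⟧' ≫
        (csh U.J l (Y⟦k⟧)).inv =
        (csh U.J m Y).inv ≫ (U.J ◁ (shiftFunctorAdd' T k l m h).hom.app Y) := by
      have h4 := (tensorLeft U.J).commShiftIso_add' h
      have h5 : (csh U.J m Y).inv = _ := congrArg (fun e => e.inv.app Y) h4
      rw [h5, Functor.CommShift.isoAdd'_inv_app]
      simp only [Category.assoc]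
      congr 2
      have h6 : (U.J ◁ (shiftFunctorAdd' T k l m h).inv.app Y) ≫
          (U.J ◁ (shiftFunctorAdd' T k l m h).hom.app Y) = 𝟙 _ := by
        rw [← MonoidalCategory.whiskerLeft_comp, Iso.inv_hom_id_app]
        exact MonoidalCategory.whiskerLeft_id _ _
      exact (Category.comp_id _).symm.trans (congrArg _ h6.symm)
    rw [UnitCof.κB_succ, UnitCof.κB_succ, UnitCof.κB_succ, Functor.map_comp, Category.assoc,
      Category.assoc, reassoc_of% h2]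
    refine (h1 _).trans ?_
    rw [← CobarData.Bm_comp, ← CobarData.Bm_comp, h3, CobarData.Bm_comp]
    rfl

/-- The product of two multipliers. -/
noncomputable def gmul {k l m : ℤ} (h : k + l = m) {σ τ ρ : ℕ} (hρ : σ + τ = ρ) {X Y Z : T}
    (f : X⟦k⟧ ⟶ U.cobar.B σ Y) (g : Y⟦l⟧ ⟶ U.cobar.B τ Z) : X⟦m⟧ ⟶ U.cobar.B ρ Z :=
  (shiftFunctorAdd' T k l m h).hom.app X ≫ f⟦l⟧' ≫ ξG U g σ ρ hρ

lemma ξG_gmul {k l m : ℤ} (h : k + l = m) {σ τ ρ : ℕ} (hρ : σ + τ = ρ) {X Y Z : T}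
    (f : X⟦k⟧ ⟶ U.cobar.B σ Y) (g : Y⟦l⟧ ⟶ U.cobar.B τ Z) (s s₁ s' : ℕ) (h₁ : s + σ = s₁)
    (h₂ : s₁ + τ = s') (h' : s + ρ = s') :
    (shiftFunctorAdd' T k l m h).hom.app (U.cobar.B s X) ≫ (ξG U f s s₁ h₁)⟦l⟧' ≫
      ξG U g s₁ s' h₂ = ξG U (gmul U h hρ f g) s s' h' := by
  have h1 := eB_nat U.cobar σ s s₁ h₁ g
  rw [ξG, ξG, ξG, gmul, ξG, Functor.map_comp, Functor.map_comp, Category.assoc, Category.assoc,
    κB_eB_assoc, U.κB_nat_assoc, κB_add_assoc, ← reassoc_of% h1,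
    eB_assoc U.cobar τ σ ρ s s₁ s' hρ h₁ h₂ h']
  simp only [CobarData.Bm_comp, Category.assoc]

lemma sh_sh {P Y : T} (t k l m t₁ t' : ℤ) (h : k + l = m) (h₁ : t + k = t₁) (h₂ : t₁ + l = t')
    (h' : t + m = t') (y : P⟦t⟧ ⟶ Y) :
    sh t₁ l t' h₂ (sh t k t₁ h₁ y) =
      sh t m t' h' y ≫ (shiftFunctorAdd' T k l m h).hom.app Y := by
  simp only [sh, AddEquiv.coe_mk, Equiv.coe_fn_mk, Functor.map_comp, Category.assoc]
  have e1 := shiftFunctorAdd'_assoc_hom_app (C := T) t k l t₁ m t' h₁ h (by omega) P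
  have e2 := (shiftFunctorAdd' T k l m h).hom.naturality y
  rw [reassoc_of% e1]
  exact congrArg _ e2.symm

variable {U P}

/-- Composition of multipliers on `D`. -/
lemma mulC_mulC {k l m : ℤ} (hk : ∃ n : ℕ, k = 2 * (n : ℤ)) (hl : ∃ n : ℕ, l = 2 * (n : ℤ))
    (hm : ∃ n : ℕ, m = 2 * (n : ℤ)) (h : k + l = m) {σ τ ρ : ℕ} (hρ : σ + τ = ρ) {a b c : ℤ}
    (ha : k = a + σ) (hb : l = b + τ) (hc : m = c + ρ) {X Y Z : T}
    (f : X⟦k⟧ ⟶ U.cobar.B σ Y) (g : Y⟦l⟧ ⟶ U.cobar.B τ Z) {s s₁ s' : ℕ} {n n₁ n' : ℤ}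
    (h₁ : s + σ = s₁) (h₂ : s₁ + τ = s') (h' : s + ρ = s') (e₁ : n + a = n₁) (e₂ : n₁ + b = n')
    (e' : n + c = n') (y : (TC U P X).D s n) :
    (mulC U P hl hb g).fD s₁ s' n₁ n' h₂ e₂ ((mulC U P hk ha f).fD s s₁ n n₁ h₁ e₁ y) =
      (mulC U P hm hc (gmul U h hρ f g)).fD s s' n n' h' e' y := by
  apply (eD U P rfl).injective
  rw [eD_mulC hl hb g h₂ e₂ rfl rfl (TMor.deg hb h₂ e₂),
    eD_mulC hk ha f h₁ e₁ rfl rfl (TMor.deg ha h₁ e₁),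
    eD_mulC hm hc _ h' e' rfl rfl (TMor.deg hc h' e'), sh_comp,
    sh_sh _ k l m _ _ h _ _ (TMor.deg hc h' e'), ← ξG_gmul U h hρ f g s s₁ s' h₁ h₂ h']
  simp only [Category.assoc]

/-! ### Multipliers which die one step down -/

variable (U) in
lemma unitMap_B_split (s : ℕ) (Z : T) : ∃ r : R ⊗ U.cobar.B s (R ⊗ Z) ⟶ U.cobar.B s (R ⊗ Z),
    unitMap R _ ≫ r = 𝟙 _ := by
  have key : ∀ (s : ℕ) (Y : T), (∃ r : R ⊗ Y ⟶ Y, unitMap R Y ≫ r = 𝟙 _) →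
      ∃ r : R ⊗ U.cobar.B s Y ⟶ U.cobar.B s Y, unitMap R _ ≫ r = 𝟙 _ := by
    intro s
    induction s with
    | zero => exact fun Y h => h
    | succ s ih =>
      rintro Y ⟨r, hr⟩
      refine ih (U.J ⊗ Y) ⟨(α_ R U.J Y).inv ≫ ((β_ R U.J).hom ▷ Y) ≫ (α_ U.J R Y).hom ≫
        (U.J ◁ r), ?_⟩
      have h1 : unitMap R (U.J ⊗ Y) ≫ (α_ R U.J Y).inv ≫ ((β_ R U.J).hom ▷ Y) ≫
          (α_ U.J R Y).hom = U.J ◁ unitMap R Y := by
        rw [unitMap, unitMap, Category.assoc, associator_inv_naturality_left_assoc,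
          ← comp_whiskerRight_assoc, BraidedCategory.braiding_naturality_left,
          braiding_tensorUnit_left]
        monoidal
      rw [reassoc_of% h1, ← MonoidalCategory.whiskerLeft_comp, hr,
        MonoidalCategory.whiskerLeft_id]
  exact key s _ ⟨mulMap R Z, unitMap_mulMap Z⟩

variable (U) in
/-- The tower of `R ⊗ Z` has trivial connecting maps. -/
lemma bd_R (s : ℕ) (Z : T) : U.bd s (R ⊗ Z) = 0 := by
  obtain ⟨r, hr⟩ := unitMap_B_split U s Z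
  have h : U.bd s (R ⊗ Z) ≫ (unitMap R (U.cobar.B s (R ⊗ Z)))⟦(1 : ℤ)⟧' = 0 :=
    (U.tow (R ⊗ Z)).c_a s
  rw [← Category.comp_id (U.bd s (R ⊗ Z)), ← CategoryTheory.Functor.map_id, ← hr,
    Functor.map_comp, reassoc_of% h, zero_comp]

lemma ξG_bd {k : ℤ} {σ : ℕ} {Y Z : T} (g : Y⟦k⟧ ⟶ U.cobar.B (σ + 1) Z)
    (hg : g ≫ U.bd σ Z = 0) (s s' : ℕ) (h : s + (σ + 1) = s' + 1) :
    ξG U g s (s' + 1) h ≫ U.bd s' Z = 0 := by
  cases s with
  | zero =>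
    obtain rfl : σ = s' := by omega
    rw [ξG_zero, hg]
  | succ s =>
    obtain ⟨e, rfl⟩ : ∃ e : Y⟦k⟧ ⟶ R ⊗ U.cobar.B σ Z, g = e ≫ U.cobar.k σ Z :=
      Triangle.coyoneda_exact₃ _ (U.towerTriangle_distinguished σ Z) g hg
    rw [ξG, Category.assoc, Category.assoc, eB_bd U (σ + 1) s s' (by omega), CobarData.Bm_comp,
      Category.assoc, U.bd_naturality_assoc, bd_R, zero_comp, comp_zero, comp_zero]

/-- If the multiplier dies one step down, so do its products. -/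
lemma i_mulC_eq_zero {k : ℤ} (hk : ∃ n : ℕ, k = 2 * (n : ℤ)) {σ : ℕ} {a : ℤ}
    (ha : k = a + (σ + 1 : ℕ)) {Y Z : T} (g : Y⟦k⟧ ⟶ U.cobar.B (σ + 1) Z)
    (hg : g ≫ U.bd σ Z = 0) {s s' : ℕ} {n n' : ℤ} (h : s + (σ + 1) = s' + 1) (e : n + a = n')
    (y : (TC U P Y).D s n) :
    (TC U P Z).i s' n' ((mulC U P hk ha g).fD s (s' + 1) n n' h e y) = 0 := by
  rw [i_eq_zero_iff rfl, eD_mulC hk ha g h e rfl rfl (TMor.deg ha h e), Category.assoc,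
    ξG_bd g hg, comp_zero]

/-! ### Exactness -/

variable (U) in
lemma exists_dist_B (s : ℕ) {X Y Z : T} {f : X ⟶ Y} {g : Y ⟶ Z} {h : Z ⟶ X⟦(1 : ℤ)⟧}
    (H : P251.H.Dist f g h) : ∃ h', P251.H.Dist (U.cobar.Bm s f) (U.cobar.Bm s g) h' := by
  induction s generalizing X Y Z with
  | zero => exact ⟨h, H⟩
  | succ s ih => exact ih (dist_whiskerLeft U.J H)

variable (U) in
lemma exact_B (s : ℕ) {X Y Z : T} {f : X ⟶ Y} {g : Y ⟶ Z} {h : Z ⟶ X⟦(1 : ℤ)⟧}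
    (H : P251.H.Dist f g h) {A : T} (y : A ⟶ U.cobar.B s Y) (hy : y ≫ U.cobar.Bm s g = 0) :
    ∃ x : A ⟶ U.cobar.B s X, x ≫ U.cobar.Bm s f = y := by
  obtain ⟨h', H'⟩ := exists_dist_B U s H
  obtain ⟨x, hx⟩ := Triangle.coyoneda_exact₂ _ H' y hy
  exact ⟨x, hx.symm⟩

variable (U) in
lemma exact_W (s : ℕ) {X Y Z : T} {f : X ⟶ Y} {g : Y ⟶ Z} {h : Z ⟶ X⟦(1 : ℤ)⟧}
    (H : P251.H.Dist f g h) {A : T} (y : A ⟶ R ⊗ U.cobar.B s Y)
    (hy : y ≫ (R ◁ U.cobar.Bm s g) = 0) :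
    ∃ x : A ⟶ R ⊗ U.cobar.B s X, x ≫ (R ◁ U.cobar.Bm s f) = y := by
  obtain ⟨h', H'⟩ := exists_dist_B U s H
  obtain ⟨x, hx⟩ := Triangle.coyoneda_exact₂ _ (dist_whiskerLeft R H') y hy
  exact ⟨x, hx.symm⟩

end Mul

end Vale.Agent.P236K.SS
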