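import Vale.Agent.P236K.SS.Cls
import Vale.Agent.P257.H762.AI

/-!
# P236K, block SS: underlying maps

* `SE f g`: the arrows `f` and `g` are isomorphic up to a shift;
* `und y`: the underlying map of an element of the couple, `und_mulC`;
* `mul0 g`, `mapC f`: multipliers of internal degree zero;
* `exists_ext`: extension of a multiplier over the Moore object.
-/

open CategoryTheory MonoidalCategory Limits Pretriangulated MonObj

set_option linter.unusedSectionVars false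

universe v u

namespace Vale.Agent.P236K.SS

open Vale.Agent.P251 Vale.Agent.P251.T Vale.Agent.P251.F Vale.Agent.P251.I
  Vale.Agent.P251.M Vale.Agent.P257.H314 Vale.Agent.P257.H712 Vale.Agent.P251.H
open Vale.Agent.P251.S hiding IC
open Vale.Agent.P257.H762 (AI)

variable {T : Type u} [Category.{v} T] [Preadditive T] [HasZeroObject T] [HasShift T ℤ]
  [∀ n : ℤ, (shiftFunctor T n).Additive] [Pretriangulated T]

/-! ### Arrows up to shift -/

lemma AI_shift {A B A' B' : T} {f : A ⟶ B} {g : A' ⟶ B'} (h : AI f g) (k : ℤ) :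
    AI (f⟦k⟧') (g⟦k⟧') := by
  obtain ⟨a, b, e⟩ := h
  exact ⟨(shiftFunctor T k).mapIso a, (shiftFunctor T k).mapIso b, by
    rw [Functor.mapIso_hom, Functor.mapIso_hom, ← Functor.map_comp, e, Functor.map_comp]⟩

lemma AI_shift_shift {A B : T} (f : A ⟶ B) (k l m : ℤ) (h : k + l = m) :
    AI (f⟦m⟧') ((f⟦k⟧')⟦l⟧') :=
  ⟨(shiftFunctorAdd' T k l m h).app A, (shiftFunctorAdd' T k l m h).app B,
    (shiftFunctorAdd' T k l m h).hom.naturality f⟩

lemma AI_shift_zero {A B : T} (f : A ⟶ B) : AI (f⟦(0 : ℤ)⟧') f :=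
  ⟨(shiftFunctorZero T ℤ).app A, (shiftFunctorZero T ℤ).app B,
    (shiftFunctorZero T ℤ).hom.naturality f⟩

/-- The arrows are isomorphic up to a shift. -/
def SE {A B A' B' : T} (f : A ⟶ B) (g : A' ⟶ B') : Prop := ∃ k : ℤ, AI (f⟦k⟧') g

namespace SE

variable {A B A' B' A'' B'' : T} {f : A ⟶ B} {g : A' ⟶ B'} {h : A'' ⟶ B''}

lemma of_AI (H : AI f g) : SE f g := ⟨0, (AI_shift_zero f).trans H⟩

lemma refl (f : A ⟶ B) : SE f f := of_AI (AI.refl f)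

lemma shift (f : A ⟶ B) (k : ℤ) : SE f (f⟦k⟧') := ⟨k, AI.refl _⟩

lemma trans (H : SE f g) (H' : SE g h) : SE f h := by
  obtain ⟨k, H⟩ := H
  obtain ⟨l, H'⟩ := H'
  exact ⟨k + l, ((AI_shift_shift f k l _ rfl).trans (AI_shift H l)).trans H'⟩

lemma symm (H : SE f g) : SE g f := by
  obtain ⟨k, H⟩ := H
  exact ⟨-k, ((AI_shift H.symm (-k)).trans
    (AI_shift_shift f k (-k) 0 (by ring)).symm).trans (AI_shift_zero f)⟩

lemma eq_zero (H : SE f g) (h0 : g = 0) : f = 0 := by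
  obtain ⟨k, H⟩ := H
  exact (shiftFunctor T k).map_injective ((H.eq_zero h0).trans (Functor.map_zero _ _ _).symm)

lemma exists_smul (H : SE f g) {n : ℤ} (h0 : ∃ k : A ⟶ B, n • k = f) :
    ∃ k : A' ⟶ B', n • k = g := by
  obtain ⟨k, H⟩ := H
  obtain ⟨x, rfl⟩ := h0
  exact H.exists_smul ⟨x⟦k⟧', (Functor.map_zsmul _).symm⟩

lemma sh {P Y : T} {t k t' : ℤ} (e : t + k = t') (y : P⟦t⟧ ⟶ Y) : SE y (sh t k t' e y) :=
  ⟨k, (AI.of_iso_comp ((shiftFunctorAdd' T t k t' e).app P) _).symm⟩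

end SE

lemma sh_zero {P Y : T} {t : ℤ} (h : t + 0 = t) (y : P⟦t⟧ ⟶ Y) :
    sh t 0 t h y ≫ (shiftFunctorZero T ℤ).hom.app Y = y := by
  have h1 := (shiftFunctorZero T ℤ).hom.naturality y
  simp only [sh, AddEquiv.coe_mk, Equiv.coe_fn_mk, Category.assoc]
  refine (congrArg _ h1).trans ?_
  rw [shiftFunctorAdd'_add_zero_hom_app, Iso.inv_hom_id_app_assoc]
  rfl

lemma sh_zero_assoc {P Y Z : T} {t : ℤ} (h : t + 0 = t) (y : P⟦t⟧ ⟶ Y) (f : Y ⟶ Z) :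
    sh t 0 t h y ≫ (shiftFunctorZero T ℤ).hom.app Y ≫ f = y ≫ f :=
  (Category.assoc _ _ _).symm.trans (congrArg (· ≫ f) (sh_zero h y))

/-- Extension over the shifted cone. -/
lemma exists_ext_shift {X Y Z W : T} {f : X ⟶ Y} {g : Y ⟶ Z} {h : Z ⟶ X⟦(1 : ℤ)⟧}
    (H : Dist f g h) (k : ℤ) (a : Y⟦k⟧ ⟶ W) (ha : f⟦k⟧' ≫ a = 0) :
    ∃ b : Z⟦k⟧ ⟶ W, g⟦k⟧' ≫ b = a := by
  obtain ⟨b, hb⟩ := Triangle.yoneda_exact₂ _ (Triangle.shift_distinguished _ H k) a (by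
    change (k.negOnePow • f⟦k⟧') ≫ a = 0
    rw [Linear.units_smul_comp, ha, smul_zero])
  obtain ⟨b', hb'⟩ : ∃ b' : Z⟦k⟧ ⟶ W, a = (k.negOnePow • g⟦k⟧') ≫ b' := ⟨b, hb⟩
  exact ⟨k.negOnePow • b', by rw [hb', Linear.comp_units_smul, Linear.units_smul_comp]⟩

variable [MonoidalCategory T] [SymmetricCategory T] [TensorTriangulated T]

lemma sh_assoc {P Y Z : T} {n a k b m m' : ℤ} (h1 : n + a = m) (h2 : m + k = m')
    (h3 : a + k = b) (h4 : n + b = m') (φ : P⟦n⟧ ⟶ Y) (x : Y⟦a⟧ ⟶ Z) :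
    sh m k m' h2 (sh n a m h1 φ ≫ x) = sh n b m' h4 φ ≫ sh a k b h3 x := by
  rw [sh_comp, sh_sh n a k b m m' h3 h1 h2 h4, Category.assoc]
  rfl

lemma AI_tensor_shift {A B A' B' : T} (g : A ⟶ B) (f : A' ⟶ B') (k : ℤ) :
    AI (g ⊗ₘ f⟦k⟧') ((g ⊗ₘ f)⟦k⟧') :=
  ⟨csh A k A', csh B k B', by
    rw [tensorHom_def, tensorHom_def, Category.assoc, csh_nat, Functor.map_comp,
      csh_tlMap_assoc]⟩

lemma SE.tensor {A B A' B' C D C' D' : T} {f : A ⟶ B} {g : A' ⟶ B'} {f' : C ⟶ D}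
    {g' : C' ⟶ D'} (H : SE f g) (H' : SE f' g') : SE (f ⊗ₘ f') (g ⊗ₘ g') := by
  have key : ∀ {A B C D C' D' : T} (f : A ⟶ B) {f' : C ⟶ D} {g' : C' ⟶ D'}, SE f' g' →
      SE (f ⊗ₘ f') (f ⊗ₘ g') := fun f _ _ ⟨k, H⟩ =>
    ⟨k, (AI_tensor_shift f _ k).symm.trans ((AI.refl f).tensor H)⟩
  exact (key f H').trans (((SE.of_AI (AI.braid f g')).trans (key g' H)).trans
    (SE.of_AI (AI.braid g' g)))

lemma tensorSph_unit (k : ℤ) :
    (tensorSph k (𝟙_ T)).hom = (λ_ ((𝟙_ T)⟦k⟧)).hom := by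
  rw [tensorSph_hom, ← unitors_equal, csh_leftUnitor]

/-- Composition with a class of the sphere is the tensor product. -/
lemma comp_eq_tensor {X Y : T} {k : ℤ} (f : X ⟶ 𝟙_ T) (g : (𝟙_ T)⟦k⟧ ⟶ Y) :
    f⟦k⟧' ≫ g = (tensorSph k X).inv ≫ (f ⊗ₘ g) ≫ (λ_ Y).hom := by
  rw [tensorHom_def, Category.assoc, leftUnitor_naturality, ← tensorSph_unit,
    tensorSph_naturality_assoc, Iso.inv_hom_id_assoc]

lemma AI_comp_tensor {X Y : T} {k : ℤ} (f : X ⟶ 𝟙_ T) (g : (𝟙_ T)⟦k⟧ ⟶ Y) :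
    AI (f⟦k⟧' ≫ g) (f ⊗ₘ g) :=
  ⟨(tensorSph k X).symm, (λ_ Y).symm, by
    rw [comp_eq_tensor, Iso.symm_hom, Iso.symm_hom, Category.assoc, Category.assoc,
      Iso.hom_inv_id, Category.comp_id]⟩

lemma SE_sh_comp {P Y : T} {t k t' : ℤ} (e : t + k = t') (f : P⟦t⟧ ⟶ 𝟙_ T)
    (g : (𝟙_ T)⟦k⟧ ⟶ Y) : SE (sh t k t' e f ≫ g) (f ⊗ₘ g) := by
  refine SE.of_AI (AI.trans ?_ (AI_comp_tensor f g))
  have h := AI.of_iso_comp ((shiftFunctorAdd' T t k t' e).app P) (f⟦k⟧' ≫ g)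
  rw [← Category.assoc] at h
  exact h

/-! ### Underlying maps -/

variable {R : T} [MonObj R] {U : UnitCof R} {P : T}

lemma add_zero_nat (n : ℤ) : n + ((0 : ℕ) : ℤ) = n := by simp

/-- The underlying map of an element of the couple. -/
noncomputable def und {Y : T} {s : ℕ} {n : ℤ} (y : (TC U P Y).D s n) : P⟦n⟧ ⟶ Y :=
  eD U P (add_zero_nat n) ((TC U P Y).proj n (Nat.zero_le s) y)

section

variable {Y Z : T} {s : ℕ} {n : ℤ}

lemma und_zero_filt (y : (TC U P Y).D 0 n) : und y = eD U P (add_zero_nat n) y := by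
  rw [und, Couple.proj_self]

lemma und_proj {r : ℕ} (h : r ≤ s) (y : (TC U P Y).D s n) :
    und ((TC U P Y).proj n h y) = und y := by
  rw [und, und, proj_proj]

lemma und_i (y : (TC U P Y).D (s + 1) n) : und ((TC U P Y).i s n y) = und y := by
  rw [← proj_one, und_proj]

lemma und_add (y y' : (TC U P Y).D s n) : und (y + y') = und y + und y' := by
  rw [und, und, und, proj_add, map_add]

lemma und_sub (y y' : (TC U P Y).D s n) : und (y - y') = und y - und y' := by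
  rw [und, und, und, proj_sub, map_sub]

lemma und_zsmul (c : ℤ) (y : (TC U P Y).D s n) : und (c • y) = c • und y := by
  rw [und, und, proj_zsmul, map_zsmul]

lemma und_eq_zero_iff (y : (TC U P Y).D s n) :
    und y = 0 ↔ (TC U P Y).proj n (Nat.zero_le s) y = 0 :=
  (eD U P (add_zero_nat n)).map_eq_zero_iff

lemma und_k {m : ℤ} (h : n = m + 1) (x : (TC U P Y).E s n) :
    und ((TC U P Y).k s n m h x) = 0 :=
  (und_eq_zero_iff _).2 (proj_k _ h _ (Nat.zero_le s) x)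

lemma exists_und (f : P⟦n⟧ ⟶ Y) : ∃ y : (TC U P Y).D 0 n, und y = f :=
  ⟨(eD U P (add_zero_nat n)).symm f, by rw [und_zero_filt, AddEquiv.apply_symm_apply]⟩

lemma SE_i {t t' : ℤ} (h : n + (s : ℤ) = t) (h' : n + ((s + 1 : ℕ) : ℤ) = t')
    (y : (TC U P Y).D (s + 1) n) :
    SE (eD U P h ((TC U P Y).i s n y)) (eD U P h' y ≫ U.bd s Y) := by
  rw [← eD_i h h' (by rw [← h, ← h']; push_cast; ring)]
  exact SE.sh _ _

lemma sh_und_one {t : ℤ} (h : n + ((0 + 1 : ℕ) : ℤ) = t) (e : n + 1 = t)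
    (y : (TC U P Y).D 1 n) : sh n 1 t e (und y) = eD U P h y ≫ U.bd 0 Y := by
  rw [← eD_i (add_zero_nat n) h e, ← und_i, und_zero_filt]

lemma sh_und_two {t t₁ : ℤ} (h : n + ((1 + 1 : ℕ) : ℤ) = t) (e₁ : n + 1 = t₁) (e : t₁ + 1 = t)
    (y : (TC U P Y).D 2 n) : sh t₁ 1 t e (sh n 1 t₁ e₁ (und y)) =
      eD U P h y ≫ U.bd 1 Y ≫ (U.bd 0 Y)⟦(1 : ℤ)⟧' := by
  have h1 : n + ((0 + 1 : ℕ) : ℤ) = t₁ := by rw [← e₁]; push_cast; ring
  rw [← und_i, sh_und_one h1 e₁, sh_comp, eD_i h1 h e, Category.assoc]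

/-- Projection commutes with precomposition. -/
lemma eD_proj_pre {a m : ℤ} (e : n + a = m) (φ : P⟦n⟧ ⟶ Y) {r : ℕ} (h : r ≤ s)
    (w : (TC U Y Z).D s a) (y : (TC U P Z).D s m)
    (hy : eD U P rfl y = sh n (a + s) (m + s) (by omega) φ ≫ eD U Y rfl w) :
    eD U P rfl ((TC U P Z).proj m h y) =
      sh n (a + r) (m + r) (by omega) φ ≫ eD U Y rfl ((TC U Y Z).proj a h w) := by
  induction s, h using Nat.le_induction with
  | base => rw [Couple.proj_self, Couple.proj_self, hy]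
  | succ s h ih =>
    rw [Couple.proj_succ _ m h, Couple.proj_succ _ a h]
    apply ih
    have e1 : m + (s : ℤ) + 1 = m + ((s + 1 : ℕ) : ℤ) := by push_cast; ring
    have e2 : a + (s : ℤ) + 1 = a + ((s + 1 : ℕ) : ℤ) := by push_cast; ring
    apply (sh _ 1 _ e1).injective
    rw [eD_i rfl rfl e1, hy, sh_assoc _ e1 e2 (by push_cast; omega), eD_i rfl rfl e2,
      Category.assoc]

lemma eD_cast {t t' : ℤ} (h : n + (s : ℤ) = t) (h' : n + (s : ℤ) = t')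
    (y : (TC U P Y).D s n) : eD U P h' y = cst P _ (h.symm.trans h') (eD U P h y) := by
  subst h h'
  rfl

variable {k : ℤ} (hk : ∃ n : ℕ, k = 2 * (n : ℤ)) {σ : ℕ} {a : ℤ} (ha : k = a + σ)

/-- The projection of a product to a filtration `r ≤ σ`. -/
lemma eD_proj_mulC (w : (TC U Y Z).D σ a) {s' r : ℕ} {n' t t' : ℤ} (h : s + σ = s')
    (e : n + a = n') (hr : r ≤ σ) (hr' : r ≤ s') (h1 : a + (r : ℤ) = t) (h2 : n' + (r : ℤ) = t')
    (ht : n + t = t') (y : (TC U P Y).D s n) :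
    eD U P h2 ((TC U P Z).proj n' hr'
      ((mulC U P hk ha (eD U Y ha.symm w)).fD s s' n n' h e y)) =
      sh n t t' ht (und y) ≫ eD U Y h1 ((TC U Y Z).proj a hr w) := by
  subst h1 h2 ha
  have h3 : σ ≤ s' := by omega
  rw [← proj_proj _ hr h3, CMap.proj_f _ e (Nat.zero_add σ) h (Nat.zero_le s) h3]
  apply eD_proj_pre e
  rw [eD_mulC hk rfl _ (Nat.zero_add σ) e (add_zero_nat n) rfl (by omega), ξG_zero]
  rfl

/-- The underlying map of a product. -/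
lemma und_mulC (w : (TC U Y Z).D σ a) {s' : ℕ} {n' : ℤ} (h : s + σ = s') (e : n + a = n')
    (y : (TC U P Y).D s n) :
    und ((mulC U P hk ha (eD U Y ha.symm w)).fD s s' n n' h e y) =
      sh n a n' e (und y) ≫ und w :=
  eD_proj_mulC hk ha w h e (Nat.zero_le σ) (Nat.zero_le s') (add_zero_nat a) (add_zero_nat n') e y

end

/-! ### Multipliers of internal degree zero -/

lemma csh_zero (X Y : T) : (csh X 0 Y).inv ≫ (X ◁ (shiftFunctorZero T ℤ).hom.app Y) =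
    (shiftFunctorZero T ℤ).hom.app (X ⊗ Y) := by
  have h4 := (tensorLeft X).commShiftIso_zero ℤ
  have h5 : (csh X 0 Y).inv = _ := congrArg (fun e => e.inv.app Y) h4
  have h6 : (X ◁ (shiftFunctorZero T ℤ).inv.app Y) ≫
      (X ◁ (shiftFunctorZero T ℤ).hom.app Y) = 𝟙 _ := by
    rw [← MonoidalCategory.whiskerLeft_comp, Iso.inv_hom_id_app]
    exact MonoidalCategory.whiskerLeft_id _ _
  rw [h5, Functor.CommShift.isoZero_inv_app, Category.assoc]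
  exact (congrArg _ h6).trans (Category.comp_id _)

variable (U) in
lemma κB_zero (s : ℕ) (Y : T) :
    U.κB 0 s Y ≫ U.cobar.Bm s ((shiftFunctorZero T ℤ).hom.app Y) =
      (shiftFunctorZero T ℤ).hom.app (U.cobar.B s Y) := by
  induction s generalizing Y with
  | zero => exact Category.id_comp _
  | succ s ih =>
    rw [UnitCof.κB_succ, Category.assoc, CobarData.Bm_succ, ← CobarData.Bm_comp]
    exact (congrArg (fun f => U.κB 0 s (U.J ⊗ Y) ≫ U.cobar.Bm s f) (csh_zero U.J Y)).trans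
      (ih (U.J ⊗ Y))

lemma ξG_deg_zero {σ : ℕ} {Y Z : T} (g : Y ⟶ U.cobar.B σ Z) (s s' : ℕ) (h : s + σ = s') :
    ξG U ((shiftFunctorZero T ℤ).hom.app Y ≫ g) s s' h =
      (shiftFunctorZero T ℤ).hom.app _ ≫ U.cobar.Bm s g ≫ eB U.cobar σ s s' h Z := by
  rw [ξG, CobarData.Bm_comp, Category.assoc, reassoc_of% κB_zero U s Y]

variable (U P) in
/-- The map of couples given by `g : Y ⟶ B σ Z`. -/
noncomputable def mul0 {σ : ℕ} {a : ℤ} (ha : 0 = a + σ) {Y Z : T} (g : Y ⟶ U.cobar.B σ Z) :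
    CMap (TC U P Y) (TC U P Z) σ a :=
  mulC U P ⟨0, by simp⟩ ha ((shiftFunctorZero T ℤ).hom.app Y ≫ g)

lemma eD_mul0 {σ : ℕ} {a : ℤ} (ha : 0 = a + σ) {Y Z : T} (g : Y ⟶ U.cobar.B σ Z) {s s' : ℕ}
    {n n' t : ℤ} (h : s + σ = s') (e : n + a = n') (h1 : n + (s : ℤ) = t)
    (h2 : n' + (s' : ℤ) = t) (y : (TC U P Y).D s n) :
    eD U P h2 ((mul0 U P ha g).fD s s' n n' h e y) =
      eD U P h1 y ≫ U.cobar.Bm s g ≫ eB U.cobar σ s s' h Z := by
  rw [mul0, eD_mulC _ ha _ h e h1 h2 (add_zero t), ξG_deg_zero, sh_zero_assoc]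

lemma eE_mul0 {σ : ℕ} {a : ℤ} (ha : 0 = a + σ) {Y Z : T} (g : Y ⟶ U.cobar.B σ Z) {s s' : ℕ}
    {n n' t : ℤ} (h : s + σ = s') (e : n + a = n') (h1 : n + (s : ℤ) = t)
    (h2 : n' + (s' : ℤ) = t) (y : (TC U P Y).E s n) :
    eE U P h2 ((mul0 U P ha g).fE s s' n n' h e y) =
      eE U P h1 y ≫ (R ◁ (U.cobar.Bm s g ≫ eB U.cobar σ s s' h Z)) := by
  rw [mul0, eE_mulC _ ha _ h e h1 h2 (add_zero t), ξG_deg_zero, MonoidalCategory.whiskerLeft_comp,
    reassoc_of% csh_zero, sh_zero_assoc]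

variable (U P) in
/-- The map of couples given by `f : Y ⟶ Z`. -/
noncomputable def mapC {Y Z : T} (f : Y ⟶ Z) : CMap (TC U P Y) (TC U P Z) 0 0 :=
  mul0 U P (σ := 0) (by simp) f

section

variable {Y Z : T} (f : Y ⟶ Z) {s : ℕ} {n : ℤ}

/-- The map on `D`. -/
noncomputable abbrev mapD (y : (TC U P Y).D s n) : (TC U P Z).D s n :=
  (mapC U P f).fD s s n n rfl (add_zero n) y

/-- The map on `E`. -/
noncomputable abbrev mapE (y : (TC U P Y).E s n) : (TC U P Z).E s n :=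
  (mapC U P f).fE s s n n rfl (add_zero n) y

lemma eD_mapD {t : ℤ} (h : n + (s : ℤ) = t) (y : (TC U P Y).D s n) :
    eD U P h (mapD f y) = eD U P h y ≫ U.cobar.Bm s f :=
  (eD_mul0 _ (σ := 0) f rfl _ h h y).trans (congrArg _ (Category.comp_id _))

lemma eE_mapE {t : ℤ} (h : n + (s : ℤ) = t) (y : (TC U P Y).E s n) :
    eE U P h (mapE f y) = eE U P h y ≫ (R ◁ U.cobar.Bm s f) :=
  (eE_mul0 _ (σ := 0) f rfl _ h h y).trans
    (congrArg (fun g => eE U P h y ≫ (R ◁ g)) (Category.comp_id _))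

lemma j_mapD (y : (TC U P Y).D s n) :
    (TC U P Z).j s n (mapD f y) = mapE f ((TC U P Y).j s n y) := (mapC U P f).j_f ..

lemma proj_mapD {r : ℕ} (h : r ≤ s) (y : (TC U P Y).D s n) :
    (TC U P Z).proj n h (mapD f y) = mapD f ((TC U P Y).proj n h y) :=
  (mapC U P f).proj_f _ rfl rfl h h y

lemma k_mapE {m : ℤ} (h : n = m + 1) (y : (TC U P Y).E s n) :
    (TC U P Z).k s n m h (mapE f y) = mapD f ((TC U P Y).k s n m h y) :=
  (mapC U P f).k_f s s n n m m rfl rfl _ _ h h y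

lemma und_mapD (y : (TC U P Y).D s n) : und (mapD f y) = und y ≫ f := by
  rw [und, proj_mapD, eD_mapD]
  rfl

lemma Dif.mapE {t : ℕ} {x : (TC U P Y).E s (n + 1)} {z : (TC U P Y).E t n} (h : Dif x z) :
    Dif (mapE f x) (mapE f z) :=
  (mapC U P f).dif rfl rfl (add_zero n) h

end

lemma Bm_zsmul (s : ℕ) (c : ℤ) {X Y : T} (f : X ⟶ Y) :
    U.cobar.Bm s (c • f) = c • U.cobar.Bm s f :=
  (AddMonoidHom.mk' (fun f : X ⟶ Y => U.cobar.Bm s f) (U.cobar.Bm_add s)).map_zsmul c f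

lemma Qm_zsmul (s : ℕ) (c : ℤ) {X Y : T} (f : X ⟶ Y) :
    U.cobar.Qm s (c • f) = c • U.cobar.Qm s f :=
  (AddMonoidHom.mk' (fun f : X ⟶ Y => U.cobar.Qm s f) (U.cobar.Qm_add s)).map_zsmul c f

lemma zsmul_B {c : ℤ} {V : T} (hV : c • 𝟙 V = 0) {s : ℕ} {X : T} (g : X ⟶ U.cobar.B s V) :
    c • g = 0 := by
  rw [← Category.comp_id g, ← Preadditive.comp_zsmul, ← CobarData.Bm_id, ← Bm_zsmul, hV,
    CobarData.Bm_zero', comp_zero]

/-- Extension of a multiplier over the Moore object. -/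
lemma exists_ext {c : ℤ} {M V : T} {i : 𝟙_ T ⟶ M} {δ : M ⟶ (𝟙_ T)⟦(1 : ℤ)⟧}
    (hM : Dist (c • 𝟙 (𝟙_ T)) i δ) (hV : c • 𝟙 V = 0) {k : ℤ} {σ : ℕ}
    (g₀ : (𝟙_ T)⟦k⟧ ⟶ U.cobar.B σ V) : ∃ g : M⟦k⟧ ⟶ U.cobar.B σ V, i⟦k⟧' ≫ g = g₀ :=
  exists_ext_shift hM k g₀ (by
    rw [Functor.map_zsmul, CategoryTheory.Functor.map_id, Preadditive.zsmul_comp,
      Category.id_comp, zsmul_B hV])

end Vale.Agent.P236K.SS

namespace Vale.Agent.P236K.SS

open Vale.Agent.P251 Vale.Agent.P251.T Vale.Agent.P251.F Vale.Agent.P251.I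
  Vale.Agent.P251.M Vale.Agent.P257.H314 Vale.Agent.P257.H712 Vale.Agent.P251.H
open Vale.Agent.P251.S hiding IC
open Vale.Agent.P251.B (sphE)

variable {T : Type u} [Category.{v} T] [Preadditive T] [HasZeroObject T] [HasShift T ℤ]
  [∀ n : ℤ, (shiftFunctor T n).Additive] [Pretriangulated T] [MonoidalCategory T]
  [SymmetricCategory T] [TensorTriangulated T] [HasCoproducts.{0} T] {D : MUData T}
  {U : UnitCof D.R}

lemma mapE_cls {V V' : T} (i : 𝟙_ T ⟶ V) (f : V ⟶ V') {s : ℕ} {n w : ℤ}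
    (h : n + (s : ℤ) = 2 * w) (z : Cob.wt Laz s w) :
    mapE f (cls D U i h z) = cls D U (i ≫ f) h z := by
  apply (eE U (𝟙_ T) h).injective
  rw [eE_mapE, eE_cls', eE_cls', CobarData.Bm_comp, MonoidalCategory.whiskerLeft_comp]
  simp only [Category.assoc]

/-- From the identification `sphE` to `sα`. -/
lemma exists_rep_of_sphE {σ : ℕ} {n v : ℤ} (h : n + (σ : ℤ) = 2 * v) (b : Cob.wt Laz σ v)
    (x : (𝟙_ T)⟦2 * v⟧ ⟶ U.cobar.B σ (𝟙_ T))
    (hx : ((sphE T v).inv ≫ D.phi U σ v b) ≫ U.cobar.q σ (𝟙_ T) = x ≫ unitMap D.R _) :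
    ∃ y : (CC D U (𝟙_ T)).D σ n, eD U (𝟙_ T) h y = (sα T v).inv ≫ (sphE T v).hom ≫ x ∧
      (CC D U (𝟙_ T)).j σ n y = cls D U (𝟙 _) h b := by
  refine ⟨(eD U (𝟙_ T) h).symm ((sα T v).inv ≫ (sphE T v).hom ≫ x),
    AddEquiv.apply_symm_apply _ _, (rep_iff D U _ h _ b).1 ?_⟩
  rw [AddEquiv.apply_symm_apply, Rep, Category.assoc, Category.assoc, ← hx, CobarData.Qm_id,
    Category.id_comp, ph_apply]
  simp only [Category.assoc, Iso.hom_inv_id_assoc]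

/-- A lift `y` of `cls b` is a multiplier on the couple of the sphere. -/
lemma acts_of_j {V : T} (i : 𝟙_ T ⟶ V) {σ : ℕ} {a v : ℤ} (hv : 0 ≤ v) (ha : 2 * v = a + σ)
    (y : (CC D U V).D σ a) {b : Cob.wt Laz σ v}
    (hy : (CC D U V).j σ a y = cls D U i ha.symm b) :
    Acts (𝟙 _) i (mulW hv ha (eD U (𝟙_ T) ha.symm y)) b :=
  acts_mulW ha hv _ (by
    rw [CategoryTheory.Functor.map_id, Category.id_comp]
    exact (rep_iff D U i ha.symm y b).2 hy)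

section Moore

variable [MonoidalClosed T] [IsTriangulated T] [HasProducts.{0} T] [StableCat T]
  {p : ℕ} [Fact p.Prime] (hp : p ≠ 2) {M : T} {i : 𝟙_ T ⟶ M} {δ : M ⟶ (𝟙_ T)⟦(1 : ℤ)⟧}
  (hM : Dist ((p : ℤ) • 𝟙 (𝟙_ T)) i δ)

include hM

lemma bigCell_M : BigCell T 0 M :=
  BigCell.ext _ hM.rot bigCell_unit (BigCell.sphere 1 (by norm_num))

include hp

variable (D) in
include D in
/-- The identity of the Moore object has order `p`. -/
lemma kil_M : (p : ℤ) • 𝟙 M = 0 := by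
  have h2 : (2 : ℤ) ≤ p := by exact_mod_cast (Fact.out : p.Prime).two_le
  have h3 : (p : ℤ) ≠ 2 := by exact_mod_cast hp
  obtain ⟨b, hb⟩ := hM.desc₃ ((p : ℤ) • 𝟙 M) (by
    have h := hM.zero₁₂
    rw [Preadditive.zsmul_comp, Category.id_comp] at h
    rw [Preadditive.comp_zsmul, Category.comp_id, h])
  have h0 : b = 0 := (cyc_modP D hp hM).pi_eq_zero (bigCell_M hM) (fun s w hw => by
    refine algVan_line le_rfl ?_
    rintro ⟨-, h⟩
    have h4 : (0 : ℤ) ≤ s := Int.natCast_nonneg s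
    have h5 : (1 : ℤ) ≤ s := by omega
    have h6 : 0 ≤ ((p : ℤ) - 3) * s := mul_nonneg (by omega) h4
    nlinarith) b
  rw [← hb, h0, comp_zero]

/-- A lift `y` of `cls b` in the couple of `M` gives a multiplier on the couple of `M`. -/
lemma exists_acts {σ : ℕ} {a v : ℤ} (hv : 0 ≤ v) (ha : 2 * v = a + σ)
    (y : (CC D U M).D σ a) {b : Cob.wt Laz σ v}
    (hy : (CC D U M).j σ a y = cls D U i ha.symm b) :
    ∃ g : M⟦2 * v⟧ ⟶ U.cobar.B σ M, i⟦2 * v⟧' ≫ g = eD U (𝟙_ T) ha.symm y ∧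
      Acts i i (mulW hv ha g) b := by
  obtain ⟨g, hg⟩ := exists_ext hM (kil_M D hp hM) (eD U (𝟙_ T) ha.symm y)
  exact ⟨g, hg, acts_mulW ha hv g (by
    rw [hg]
    exact (rep_iff D U i ha.symm y b).2 hy)⟩

end Moore

end Vale.Agent.P236K.SS
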